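import Mathlib
import Crest.Agent.R191.Defs
import Crest.Agent.R191.IIDefs

-- ▼ part R191/ThmIIA
section

/-!
# Row 191 (S0291), Theorem II : folding of measured graphs over a forest (helper111)

Abstract part: a finite family of edge types over the bipartite forest with base nodes `(s, x)`
(`s : Bool`, `true` = P-side, `false` = e-side), neighbour of `(s,x)` in direction `j : Fin 3`.
-/

set_option autoImplicit false
set_option linter.unusedSectionVars false

open MeasureTheory Set
open scoped ENNReal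

namespace Crest.Agent.R191.ThmII

section Prelim

variable {X : Type*} [MeasurableSpace X]

/-- measurability of a map to a discrete space -/
def FM {α : Type*} (f : X → α) : Prop := ∀ s : Set α, MeasurableSet (f ⁻¹' s)

lemma FM.of_singleton {α : Type*} [Countable α] {f : X → α}
    (h : ∀ a, MeasurableSet {x | f x = a}) : FM f := by
  intro s
  have : f ⁻¹' s = ⋃ a ∈ s, {x | f x = a} := by ext x; simp
  rw [this]
  exact MeasurableSet.biUnion s.to_countable (fun a _ => h a)

lemma FM.comp {α β : Type*} {f : X → α} (h : FM f) (F : α → β) : FM (fun x => F (f x)) :=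
  fun s => h (F ⁻¹' s)

lemma FM.const {α : Type*} (a : α) : FM (fun _ : X => a) := fun s => by
  by_cases h : a ∈ s
  · have : (fun _ : X => a) ⁻¹' s = Set.univ := by ext; simp [h]
    rw [this]; exact MeasurableSet.univ
  · have : (fun _ : X => a) ⁻¹' s = ∅ := by ext; simp [h]
    rw [this]; exact MeasurableSet.empty

lemma FM.prop {p : X → Prop} (h : MeasurableSet {x | p x}) : FM p := by
  apply FM.of_singleton
  intro a
  by_cases ha : a
  · have : {x | p x = a} = {x | p x} := by ext x; simp [ha]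
    rw [this]; exact h
  · have : {x | p x = a} = {x | p x}ᶜ := by ext x; simp [ha]
    rw [this]; exact h.compl

lemma FM.setOf {p : X → Prop} (h : FM p) : MeasurableSet {x | p x} := by
  have := h {True}
  have h2 : p ⁻¹' {True} = {x | p x} := by ext x; simp
  rwa [h2] at this

lemma FM.prod {α β : Type*} [Countable α] [Countable β] {f : X → α} {g : X → β}
    (hf : FM f) (hg : FM g) : FM (fun x => (f x, g x)) := by
  apply FM.of_singleton
  rintro ⟨a, b⟩
  have : {x | (f x, g x) = (a, b)} = f ⁻¹' {a} ∩ g ⁻¹' {b} := by ext x; simp [Prod.ext_iff]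
  rw [this]
  exact (hf _).inter (hg _)

lemma FM.pi {ι α : Type*} [Finite ι] [Finite α] {f : X → ι → α} (h : ∀ i, FM (fun x => f x i)) :
    FM f := by
  apply FM.of_singleton
  intro a
  have : {x | f x = a} = ⋂ i, {x | f x i = a i} := by ext x; simp [funext_iff]
  rw [this]
  exact MeasurableSet.iInter (fun i => h i {a i})

lemma FM.comp_meas {α : Type*} {f : X → α} (hf : FM f) {m : X → X} (hm : Measurable m) :
    FM (fun x => f (m x)) := fun s => hm (hf s)

lemma FM.measurable {β : Type*} [MeasurableSpace β] {f : X → β} (hf : FM f) : Measurable f :=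
  fun s _ => hf s

lemma FM.and {p q : X → Prop} (hp : FM p) (hq : FM q) : FM (fun x => p x ∧ q x) :=
  FM.prop (hp.setOf.inter hq.setOf)

lemma FM.not {p : X → Prop} (hp : FM p) : FM (fun x => ¬ p x) :=
  FM.prop hp.setOf.compl

lemma FM.eq {α : Type*} [Countable α] {f g : X → α} (hf : FM f) (hg : FM g) :
    FM (fun x => f x = g x) := (hf.prod hg).comp (fun p => p.1 = p.2)

end Prelim

section Defs

variable {B X : Type*} [Group B] [MulAction B X]

/-- neighbour of the base node `(s,x)` in direction `j`; `s = true` : P-side. -/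
def move (g : Fin 3 → B) (s : Bool) (j : Fin 3) (x : X) : X :=
  if s then g j • x else (g j)⁻¹ • x



/-- measured graph over the forest -/
structure Data (g : Fin 3 → B) (X : Type*) [MulAction B X] [MeasurableSpace X]
    (T Ed : Type) where
  /-- direction of an edge type -/
  dir : Ed → Fin 3
  /-- types of the two endpoints -/
  en : Ed → Bool → T
  /-- presence of an edge, seen from side `s` -/
  D : Ed → Bool → Set X
  /-- presence of a node type on side `s` -/
  Dom : Bool → T → Set X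
  D_meas : ∀ ε s, MeasurableSet (D ε s)
  Dom_meas : ∀ s t, MeasurableSet (Dom s t)
  D_move : ∀ ε s x, x ∈ D ε s → move g s (dir ε) x ∈ D ε (!s)
  D_Dom : ∀ ε s x, x ∈ D ε s → x ∈ Dom s (en ε s)

variable {g : Fin 3 → B} [MeasurableSpace X] {T Ed : Type}


/-- a labelling of the nodes -/
abbrev Lab (X : Type*) (T : Type) := Bool → X → T → T






variable [Finite T] [Finite Ed]







end Defs

end Crest.Agent.R191.ThmII
namespace Crest.Agent.R191.ThmII.Data
end Crest.Agent.R191.ThmII.Data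
end

-- ▼ part R191/KeyIneq
section

/-!
# Row 191 (S0291), T11 : the KEY inequality (helper111)
-/

set_option autoImplicit false
set_option linter.unusedSectionVars false

open MeasureTheory

namespace Crest.Agent.R191

open ThmII (FM)

namespace Key

section Meas

variable {X : Type*} [MeasurableSpace X] {μ : Measure X} [IsProbabilityMeasure μ]

lemma integrable_of_FM {α : Type*} [Finite α] {f : X → α} (hf : FM f) (F : α → ℝ) :
    Integrable (fun x => F (f x)) μ := by
  have hfin : (Set.range F).Finite := Set.finite_range F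
  obtain ⟨C, hC⟩ := hfin.isCompact.isBounded.exists_norm_le
  refine Integrable.of_bound ((hf.comp F).measurable).aestronglyMeasurable C
    (Filter.Eventually.of_forall (fun x => hC _ ⟨_, rfl⟩))

lemma integral_comp_mp {m : X → X} (hm : MeasurePreserving m μ μ) {α : Type*} [Finite α]
    {f : X → α} (hf : FM f) (F : α → ℝ) :
    ∫ x, F (f (m x)) ∂μ = ∫ x, F (f x) ∂μ := by
  have h := integral_map (μ := μ) (φ := m) hm.measurable.aemeasurable
    (f := fun x => F (f x)) (by
      rw [hm.map_eq]; exact ((hf.comp F).measurable).aestronglyMeasurable)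
  rw [hm.map_eq] at h
  exact h.symm

end Meas

section

variable {X : Type*} [MulAction F2 X] {Ke Kp : Type} [Fintype Ke] [Fintype Kp]
  [DecidableEq Ke] [DecidableEq Kp] (T : TG X Ke Kp) (L : Lab X Ke Kp)

/-- the two core edges over `(y,j)` -/
def coreE (j : Fin 3) (y : X) : Finset (Ip Kp × Ie Ke) :=
  {(L.cp y (Sum.inl j), L.ce (gam j • y) (Sum.inl false)),
    (L.cp y (Sum.inl (j - 1)), L.ce (gam j • y) (Sum.inl true))}

/-- the other edges over `(y,j)` -/
noncomputable def extraE (j : Fin 3) (y : X) : Finset (Ip Kp × Ie Ke) :=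
  edSet T L j y \ coreE L j y

/-- labels of core e-types -/
def coreVe (x : X) : Finset (Ie Ke) := {L.ce x (Sum.inl true), L.ce x (Sum.inl false)}
/-- labels of core P-types -/
def coreVp (y : X) : Finset (Ip Kp) := Finset.univ.image (fun j : Fin 3 => L.cp y (Sum.inl j))
/-- other labels -/
def extraVe (x : X) : Finset (Ie Ke) := Finset.univ.image (L.ce x) \ coreVe L x
/-- other labels -/
def extraVp (y : X) : Finset (Ip Kp) := Finset.univ.image (L.cp y) \ coreVp L y

variable {T L}

lemma card_e (x : X) : nVe L x = (coreVe L x).card + (extraVe L x).card := by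
  unfold nVe extraVe
  rw [Finset.card_sdiff_of_subset, Nat.add_sub_cancel']
  · refine Finset.card_le_card ?_
    intro l hl
    simp only [coreVe, Finset.mem_insert, Finset.mem_singleton] at hl
    rcases hl with rfl | rfl <;> exact Finset.mem_image_of_mem _ (Finset.mem_univ _)
  · intro l hl
    simp only [coreVe, Finset.mem_insert, Finset.mem_singleton] at hl
    rcases hl with rfl | rfl <;> exact Finset.mem_image_of_mem _ (Finset.mem_univ _)

lemma card_p (y : X) : nVp L y = (coreVp L y).card + (extraVp L y).card := by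
  have hsub : coreVp L y ⊆ Finset.univ.image (L.cp y) := by
    intro l hl
    simp only [coreVp, Finset.mem_image] at hl
    obtain ⟨j, -, rfl⟩ := hl
    exact Finset.mem_image_of_mem _ (Finset.mem_univ _)
  unfold nVp extraVp
  rw [Finset.card_sdiff_of_subset hsub, Nat.add_sub_cancel' (Finset.card_le_card hsub)]

/-- (b) -/
lemma coreVe_card (x : X) [Decidable (x ∈ L.S)] :
    (coreVe L x).card + (if x ∈ L.S then 1 else 0) = 2 := by
  unfold coreVe
  by_cases h : x ∈ L.S
  · have h' : L.ce x (Sum.inl true) = L.ce x (Sum.inl false) := h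
    simp [h, h']
  · have h' : ¬ L.ce x (Sum.inl true) = L.ce x (Sum.inl false) := h
    rw [Finset.card_pair h']
    simp [h]

lemma coreE_card (j : Fin 3) (y : X) [Decidable (gam j • y ∈ L.S)] :
    (coreE L j y).card + (if gam j • y ∈ L.S ∧ L.cp y (Sum.inl j) = L.cp y (Sum.inl (j - 1))
      then 1 else 0) = 2 := by
  unfold coreE
  by_cases h : gam j • y ∈ L.S ∧ L.cp y (Sum.inl j) = L.cp y (Sum.inl (j - 1))
  · have h' : L.ce (gam j • y) (Sum.inl true) = L.ce (gam j • y) (Sum.inl false) := h.1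
    simp [h, h']
  · rw [Finset.card_pair]
    · simp [h]
    · intro h2
      rw [Prod.ext_iff] at h2
      exact h ⟨h2.2.symm, h2.1⟩

/-- (a) -/
lemma core_p (y : X) [Decidable (∀ j, gam j • y ∈ L.S)] :
    3 + (coreVp L y).card ≤ ∑ j, (coreE L j y).card + (if ∀ j, gam j • y ∈ L.S then 1 else 0) := by
  classical
  have h0 := coreE_card (L := L) 0 y
  have h1 := coreE_card (L := L) 1 y
  have h2 := coreE_card (L := L) 2 y
  have e0 : (0 - 1 : Fin 3) = 2 := rfl
  have e1 : (1 - 1 : Fin 3) = 0 := rfl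
  have e2 : (2 - 1 : Fin 3) = 1 := rfl
  rw [e0] at h0
  rw [e1] at h1
  rw [e2] at h2
  have hall : (∀ j, gam j • y ∈ L.S) ↔ gam 0 • y ∈ L.S ∧ gam 1 • y ∈ L.S ∧ gam 2 • y ∈ L.S := by
    rw [Fin.forall_fin_succ, Fin.forall_fin_succ, Fin.forall_fin_succ]
    simp [Fin.succ]
  have hV : coreVp L y = {L.cp y (Sum.inl 0), L.cp y (Sum.inl 1), L.cp y (Sum.inl 2)} := by
    unfold coreVp
    ext l
    simp only [Finset.mem_image, Finset.mem_univ, true_and, Finset.mem_insert,
      Finset.mem_singleton]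
    constructor
    · rintro ⟨j, rfl⟩
      fin_cases j <;> simp
    · rintro (rfl | rfl | rfl)
      exacts [⟨0, rfl⟩, ⟨1, rfl⟩, ⟨2, rfl⟩]
  rw [Fin.sum_univ_three, hV]
  by_cases c01 : L.cp y (Sum.inl 0) = L.cp y (Sum.inl 1)
  · by_cases c12 : L.cp y (Sum.inl 1) = L.cp y (Sum.inl 2)
    · have c02 := c01.trans c12
      simp only [c02, c12, Finset.insert_eq_of_mem, Finset.mem_singleton, Finset.card_singleton,
        and_true] at h0 h1 h2 ⊢
      simp only [hall]
      by_cases s0 : gam 0 • y ∈ L.S <;> by_cases s1 : gam 1 • y ∈ L.S <;>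
        by_cases s2 : gam 2 • y ∈ L.S <;> simp [s0, s1, s2] at h0 h1 h2 ⊢ <;> omega
    · have hcard : ({L.cp y (Sum.inl 0), L.cp y (Sum.inl 1), L.cp y (Sum.inl 2)} :
          Finset (Ip Kp)).card ≤ 2 := by
        rw [c01]
        simp only [Finset.insert_eq_of_mem (Finset.mem_insert_self _ _)]
        exact Finset.card_le_two
      have c02 : ¬ L.cp y (Sum.inl 0) = L.cp y (Sum.inl 2) := by rw [c01]; exact c12
      have c21 : ¬ L.cp y (Sum.inl 2) = L.cp y (Sum.inl 1) := fun h => c12 h.symm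
      rw [if_neg (fun h => c02 h.2)] at h0
      rw [if_neg (fun h => c21 h.2)] at h2
      have h1' : 1 ≤ (coreE L 1 y).card := by
        split_ifs at h1 <;> omega
      omega
  · have c10 : ¬ L.cp y (Sum.inl 1) = L.cp y (Sum.inl 0) := fun h => c01 h.symm
    rw [if_neg (fun h => c10 h.2)] at h1
    by_cases c12 : L.cp y (Sum.inl 2) = L.cp y (Sum.inl 1)
    · have c02 : ¬ L.cp y (Sum.inl 0) = L.cp y (Sum.inl 2) := by rw [c12]; exact c01
      rw [if_neg (fun h => c02 h.2)] at h0
      have hcard : ({L.cp y (Sum.inl 0), L.cp y (Sum.inl 1), L.cp y (Sum.inl 2)} :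
          Finset (Ip Kp)).card ≤ 2 := by
        rw [c12]
        simp only [Finset.pair_eq_singleton]
        exact Finset.card_le_two
      have h2' : 1 ≤ (coreE L 2 y).card := by
        split_ifs at h2 <;> omega
      omega
    · rw [if_neg (fun h => c12 h.2)] at h2
      have hcard : ({L.cp y (Sum.inl 0), L.cp y (Sum.inl 1), L.cp y (Sum.inl 2)} :
          Finset (Ip Kp)).card ≤ 3 := Finset.card_le_three
      by_cases c02 : L.cp y (Sum.inl 0) = L.cp y (Sum.inl 2)
      · have hcard : ({L.cp y (Sum.inl 0), L.cp y (Sum.inl 1), L.cp y (Sum.inl 2)} :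
            Finset (Ip Kp)).card ≤ 2 := by
          rw [c02, Finset.insert_comm]
          simp only [Finset.pair_eq_singleton]
          exact Finset.card_le_two
        have h0' : 1 ≤ (coreE L 0 y).card := by
          split_ifs at h0 <;> omega
        omega
      · rw [if_neg (fun h => c02 h.2)] at h0
        omega

/-- double counting -/
lemma two_mul_card_le {α β : Type*} [DecidableEq α] (s : Finset α) (E : Fin 3 → Finset β)
    (π : β → α)
    (h : ∀ l ∈ s, ∃ j j', j ≠ j' ∧ (∃ p ∈ E j, π p = l) ∧ (∃ p ∈ E j', π p = l)) :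
    2 * s.card ≤ ∑ j, (E j).card := by
  classical
  have h1 : ∀ j, (s.filter (fun l => ∃ p ∈ E j, π p = l)).card ≤ (E j).card := by
    intro j
    refine le_trans (Finset.card_le_card ?_) (Finset.card_image_le (s := E j) (f := π))
    intro l hl
    obtain ⟨p, hp, rfl⟩ := (Finset.mem_filter.1 hl).2
    exact Finset.mem_image_of_mem _ hp
  refine le_trans ?_ (Finset.sum_le_sum (fun j _ => h1 j))
  have h2 : ∑ j : Fin 3, (s.filter (fun l => ∃ p ∈ E j, π p = l)).card =
      ∑ l ∈ s, ((Finset.univ : Finset (Fin 3)).filter (fun j => ∃ p ∈ E j, π p = l)).card := by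
    simp only [Finset.card_filter]
    rw [Finset.sum_comm]
  rw [h2, mul_comm, ← smul_eq_mul]
  refine Finset.card_nsmul_le_sum _ _ _ (fun l hl => ?_)
  obtain ⟨j, j', hne, hj, hj'⟩ := h l hl
  rw [← Finset.card_pair hne]
  refine Finset.card_le_card ?_
  intro i hi
  simp only [Finset.mem_insert, Finset.mem_singleton] at hi
  rcases hi with rfl | rfl
  · simpa using hj
  · simpa using hj'

/-- (cP) -/
lemma extra_p [MeasurableSpace X] (hT : T.Good) (hL : L.Good T) (y : X) :
    2 * (extraVp L y).card ≤ ∑ j, (extraE T L j y).card := by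
  classical
  refine two_mul_card_le _ _ Prod.fst (fun l hl => ?_)
  simp only [extraVp, Finset.mem_sdiff, Finset.mem_image, Finset.mem_univ, true_and] at hl
  obtain ⟨⟨q, rfl⟩, hq⟩ := hl
  have hcore : ∀ j : Fin 3, L.cp y (Sum.inl j) ∈ coreVp L y :=
    fun j => Finset.mem_image_of_mem _ (Finset.mem_univ _)
  have hE : ∀ j p, p ∈ coreE L j y → p.1 ∈ coreVp L y := by
    intro j p hp
    simp only [coreE, Finset.mem_insert, Finset.mem_singleton] at hp
    rcases hp with rfl | rfl
    · exact hcore _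
    · exact hcore _
  rcases q with j | k
  · exact absurd (hcore j) hq
  · have hk : y ∈ T.pp k := by
      by_contra hk
      rw [hL.abs_p k y hk] at hq
      exact hq (hcore 0)
    obtain ⟨j, j', a, a', hne, h1, h2⟩ := hT.deg_p k y hk
    refine ⟨j, j', hne, ⟨(L.cp y (Sum.inr k), L.ce (gam j • y) a), ?_, rfl⟩,
      ⟨(L.cp y (Sum.inr k), L.ce (gam j' • y) a'), ?_, rfl⟩⟩
    · refine Finset.mem_sdiff.2 ⟨?_, fun h => hq (hE _ _ h)⟩
      exact Finset.mem_image.2 ⟨(Sum.inr k, a), by simpa using h1, rfl⟩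
    · refine Finset.mem_sdiff.2 ⟨?_, fun h => hq (hE _ _ h)⟩
      exact Finset.mem_image.2 ⟨(Sum.inr k, a'), by simpa using h2, rfl⟩

/-- (ce) -/
lemma extra_e [MeasurableSpace X] (hT : T.Good) (hL : L.Good T) (x : X) :
    2 * (extraVe L x).card ≤ ∑ j, (extraE T L j ((gam j)⁻¹ • x)).card := by
  classical
  refine two_mul_card_le _ _ Prod.snd (fun l hl => ?_)
  simp only [extraVe, Finset.mem_sdiff, Finset.mem_image, Finset.mem_univ, true_and] at hl
  obtain ⟨⟨a, rfl⟩, ha⟩ := hl
  have hcore : ∀ b : Bool, L.ce x (Sum.inl b) ∈ coreVe L x := by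
    intro b
    cases b <;> simp [coreVe]
  have hE : ∀ j p, p ∈ coreE L j ((gam j)⁻¹ • x) → p.2 ∈ coreVe L x := by
    intro j p hp
    simp only [coreE, Finset.mem_insert, Finset.mem_singleton, smul_inv_smul] at hp
    rcases hp with rfl | rfl
    · exact hcore _
    · exact hcore _
  rcases a with b | k
  · exact absurd (hcore b) ha
  · have hk : x ∈ T.pe k := by
      by_contra hk
      rw [hL.abs_e k x hk] at ha
      exact ha (hcore true)
    obtain ⟨j, j', q, q', hne, h1, h2⟩ := hT.deg_e k x hk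
    refine ⟨j, j', hne, ⟨(L.cp ((gam j)⁻¹ • x) q, L.ce x (Sum.inr k)), ?_, rfl⟩,
      ⟨(L.cp ((gam j')⁻¹ • x) q', L.ce x (Sum.inr k)), ?_, rfl⟩⟩
    · refine Finset.mem_sdiff.2 ⟨?_, fun h => ha (hE _ _ h)⟩
      exact Finset.mem_image.2 ⟨(q, Sum.inr k), by simpa using h1, by simp⟩
    · refine Finset.mem_sdiff.2 ⟨?_, fun h => ha (hE _ _ h)⟩
      exact Finset.mem_image.2 ⟨(q', Sum.inr k), by simpa using h2, by simp⟩

lemma coreE_subset [MeasurableSpace X] (hT : T.Good) (j : Fin 3) (y : X) :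
    coreE L j y ⊆ edSet T L j y := by
  classical
  intro p hp
  simp only [coreE, Finset.mem_insert, Finset.mem_singleton] at hp
  rcases hp with rfl | rfl
  · exact Finset.mem_image.2 ⟨(Sum.inl j, Sum.inl false), by simpa using hT.core_in j y, rfl⟩
  · refine Finset.mem_image.2 ⟨(Sum.inl (j - 1), Sum.inl true), ?_, rfl⟩
    have := hT.core_out (j - 1) y
    rw [sub_add_cancel] at this
    simpa using this

lemma card_ed [MeasurableSpace X] (hT : T.Good) (j : Fin 3) (y : X) :
    (edSet T L j y).card = (coreE L j y).card + (extraE T L j y).card := by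
  unfold extraE
  rw [Finset.card_sdiff_of_subset (coreE_subset hT j y),
    Nat.add_sub_cancel' (Finset.card_le_card (coreE_subset hT j y))]

end

section Main

variable {X : Type*} [MulAction F2 X] [MeasurableSpace X] {μ : Measure X} [IsProbabilityMeasure μ]
  {Ke Kp : Type} [Fintype Ke] [Fintype Kp] [DecidableEq Ke] [DecidableEq Kp]
  {T : TG X Ke Kp} {L : Lab X Ke Kp}

lemma FM_ce (hL : L.Good T) : FM L.ce := by
  refine FM.pi (fun a => FM.of_singleton (fun l => hL.meas_e a l))

lemma FM_cp (hL : L.Good T) : FM L.cp := by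
  refine FM.pi (fun q => FM.of_singleton (fun l => hL.meas_p q l))

lemma FM_coreE (hF : FreeAct F2 X μ) (hL : L.Good T) (j : Fin 3) : FM (coreE L j) := by
  have h1 : FM (fun y => (L.cp y, L.ce (gam j • y))) :=
    (FM_cp hL).prod ((FM_ce hL).comp_meas (hF.mp (gam j)).measurable)
  exact h1.comp (fun p => ({(p.1 (Sum.inl j), p.2 (Sum.inl false)),
    (p.1 (Sum.inl (j - 1)), p.2 (Sum.inl true))} : Finset (Ip Kp × Ie Ke)))

lemma FM_edSet (hF : FreeAct F2 X μ) (hT : T.Good) (hL : L.Good T) (j : Fin 3) :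
    FM (edSet T L j) := by
  classical
  have h1 : FM (fun y => ((fun qa : Ip Kp × Ie Ke => y ∈ T.ed j qa.1 qa.2), L.cp y,
      L.ce (gam j • y))) :=
    (FM.pi (fun qa : Ip Kp × Ie Ke => FM.prop (hT.meas_ed j qa.1 qa.2))).prod
      ((FM_cp hL).prod ((FM_ce hL).comp_meas (hF.mp (gam j)).measurable))
  exact h1.comp (fun p => ((Finset.univ : Finset (Ip Kp × Ie Ke)).filter
    (fun qa => p.1 qa)).image (fun qa => (p.2.1 qa.1, p.2.2 qa.2)))

lemma FM_extraE (hF : FreeAct F2 X μ) (hT : T.Good) (hL : L.Good T) (j : Fin 3) :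
    FM (extraE T L j) :=
  ((FM_edSet hF hT hL j).prod (FM_coreE hF hL j)).comp (fun p => p.1 \ p.2)

lemma FM_coreVe (hL : L.Good T) : FM (coreVe L) :=
  (FM_ce hL).comp (fun f => ({f (Sum.inl true), f (Sum.inl false)} : Finset (Ie Ke)))

lemma FM_extraVe (hL : L.Good T) : FM (extraVe L) :=
  (FM_ce hL).comp (fun f => Finset.univ.image f \
    ({f (Sum.inl true), f (Sum.inl false)} : Finset (Ie Ke)))

lemma FM_coreVp (hL : L.Good T) : FM (coreVp L) :=
  (FM_cp hL).comp (fun f => Finset.univ.image (fun j : Fin 3 => f (Sum.inl j)))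

lemma FM_extraVp (hL : L.Good T) : FM (extraVp L) :=
  (FM_cp hL).comp (fun f => Finset.univ.image f \
    Finset.univ.image (fun j : Fin 3 => f (Sum.inl j)))

lemma measurableSet_S (hL : L.Good T) : MeasurableSet L.S :=
  FM.setOf (FM.eq ((FM_ce hL).comp (fun f => f (Sum.inl true)))
    ((FM_ce hL).comp (fun f => f (Sum.inl false))))

end Main

end Key

open Key in
/-- T11 `KeyIneq.lean` : KEY inequality, for every labelling. -/
theorem key_ineq {X : Type*} [MulAction F2 X] [MeasurableSpace X] {μ : Measure X}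
    [IsProbabilityMeasure μ] {Ke Kp : Type} [Fintype Ke] [Fintype Kp] [DecidableEq Ke]
    [DecidableEq Kp] (hF : FreeAct F2 X μ) {T : TG X Ke Kp} (hT : T.Good) {L : Lab X Ke Kp}
    (hL : L.Good T) :
    1 + μ.real L.S - μ.real {y | y ∈ L.S ∧ la • y ∈ L.S ∧ lb • y ∈ L.S} ≤ Exc μ T L := by
  classical
  set F : Set X := {y | ∀ j, gam j • y ∈ L.S} with hFdef
  have hFeq : {y | y ∈ L.S ∧ la • y ∈ L.S ∧ lb • y ∈ L.S} = F := by
    ext y
    simp only [hFdef, Set.mem_ofPred_eq]
    rw [Fin.forall_fin_succ, Fin.forall_fin_succ, Fin.forall_fin_succ]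
    simp [Fin.succ, gam]
  rw [hFeq]
  have hSm : MeasurableSet L.S := measurableSet_S hL
  have hFm : MeasurableSet F := by
    have : F = ⋂ j, (fun y => gam j • y) ⁻¹' L.S := by ext y; simp [hFdef]
    rw [this]
    exact MeasurableSet.iInter (fun j => (hF.mp (gam j)).measurable hSm)
  -- integrability
  have iE : ∀ j, Integrable (fun y => ((coreE L j y).card : ℝ)) μ :=
    fun j => integrable_of_FM (FM_coreE hF hL j) (fun s => (s.card : ℝ))
  have iX : ∀ j, Integrable (fun y => ((extraE T L j y).card : ℝ)) μ :=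
    fun j => integrable_of_FM (FM_extraE hF hT hL j) (fun s => (s.card : ℝ))
  have iX' : ∀ j, Integrable (fun x => ((extraE T L j ((gam j)⁻¹ • x)).card : ℝ)) μ :=
    fun j => integrable_of_FM ((FM_extraE hF hT hL j).comp_meas (hF.mp (gam j)⁻¹).measurable)
      (fun s => (s.card : ℝ))
  have iVe : Integrable (fun x => ((coreVe L x).card : ℝ)) μ :=
    integrable_of_FM (FM_coreVe hL) (fun s => (s.card : ℝ))
  have iVp : Integrable (fun x => ((coreVp L x).card : ℝ)) μ :=
    integrable_of_FM (FM_coreVp hL) (fun s => (s.card : ℝ))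
  have iWe : Integrable (fun x => ((extraVe L x).card : ℝ)) μ :=
    integrable_of_FM (FM_extraVe hL) (fun s => (s.card : ℝ))
  have iWp : Integrable (fun x => ((extraVp L x).card : ℝ)) μ :=
    integrable_of_FM (FM_extraVp hL) (fun s => (s.card : ℝ))
  have iS : Integrable (L.S.indicator (1 : X → ℝ)) μ :=
    (integrable_const (1 : ℝ)).indicator hSm
  have iF : Integrable (F.indicator (1 : X → ℝ)) μ :=
    (integrable_const (1 : ℝ)).indicator hFm
  -- decompositions
  have d1 : ∀ j, ∫ y, ((edSet T L j y).card : ℝ) ∂μ =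
      ∫ y, ((coreE L j y).card : ℝ) ∂μ + ∫ y, ((extraE T L j y).card : ℝ) ∂μ := by
    intro j
    rw [← integral_add (iE j) (iX j)]
    refine integral_congr_ae (Filter.Eventually.of_forall (fun y => ?_))
    simp only [card_ed hT]
    push_cast
    rfl
  have d2 : ∫ x, (nVe L x : ℝ) ∂μ =
      ∫ x, ((coreVe L x).card : ℝ) ∂μ + ∫ x, ((extraVe L x).card : ℝ) ∂μ := by
    rw [← integral_add iVe iWe]
    refine integral_congr_ae (Filter.Eventually.of_forall (fun y => ?_))
    simp only [card_e]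
    push_cast
    rfl
  have d3 : ∫ x, (nVp L x : ℝ) ∂μ =
      ∫ x, ((coreVp L x).card : ℝ) ∂μ + ∫ x, ((extraVp L x).card : ℝ) ∂μ := by
    rw [← integral_add iVp iWp]
    refine integral_congr_ae (Filter.Eventually.of_forall (fun y => ?_))
    simp only [card_p]
    push_cast
    rfl
  -- (a)
  have ha : 3 + ∫ x, ((coreVp L x).card : ℝ) ∂μ ≤
      ∑ j, ∫ y, ((coreE L j y).card : ℝ) ∂μ + μ.real F := by
    rw [← integral_indicator_one hFm, ← integral_finsetSum _ (fun j _ => iE j),
      ← integral_add (integrable_finsetSum _ (fun j _ => iE j)) iF]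
    have : (3 : ℝ) + ∫ x, ((coreVp L x).card : ℝ) ∂μ =
        ∫ x, (3 + ((coreVp L x).card : ℝ)) ∂μ := by
      rw [integral_add (integrable_const _) iVp]
      simp
    rw [this]
    refine integral_mono ((integrable_const _).add iVp)
      ((integrable_finsetSum _ (fun j _ => iE j)).add iF) (fun y => ?_)
    have h := core_p (L := L) y
    have h' : F.indicator (1 : X → ℝ) y =
        (((if ∀ j, gam j • y ∈ L.S then 1 else 0 : ℕ)) : ℝ) := by
      by_cases hy : ∀ j, gam j • y ∈ L.S
      · rw [Set.indicator_of_mem (show y ∈ F from hy)]; simp [hy]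
      · rw [Set.indicator_of_notMem (show y ∉ F from hy)]; simp [hy]
    dsimp only
    rw [h']
    exact_mod_cast h
  -- (b)
  have hb : ∫ x, ((coreVe L x).card : ℝ) ∂μ + μ.real L.S = 2 := by
    rw [← integral_indicator_one hSm, ← integral_add iVe iS]
    have : ∀ x, ((coreVe L x).card : ℝ) + L.S.indicator (1 : X → ℝ) x = 2 := by
      intro x
      have h := coreVe_card (L := L) x
      by_cases hx : x ∈ L.S
      · rw [Set.indicator_of_mem hx, Pi.one_apply]
        simp only [hx, if_true] at h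
        exact_mod_cast h
      · rw [Set.indicator_of_notMem hx]
        simp only [hx, if_false] at h
        exact_mod_cast h
    simp_rw [this]
    simp
  -- (cP)
  have hcP : 2 * ∫ x, ((extraVp L x).card : ℝ) ∂μ ≤ ∑ j, ∫ y, ((extraE T L j y).card : ℝ) ∂μ := by
    rw [← integral_const_mul, ← integral_finsetSum _ (fun j _ => iX j)]
    refine integral_mono (iWp.const_mul 2) (integrable_finsetSum _ (fun j _ => iX j))
      (fun y => ?_)
    have h := extra_p hT hL y
    dsimp only
    exact_mod_cast h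
  -- (ce)
  have hce : 2 * ∫ x, ((extraVe L x).card : ℝ) ∂μ ≤ ∑ j, ∫ y, ((extraE T L j y).card : ℝ) ∂μ := by
    have e1 : ∀ j, ∫ y, ((extraE T L j y).card : ℝ) ∂μ =
        ∫ x, ((extraE T L j ((gam j)⁻¹ • x)).card : ℝ) ∂μ := fun j =>
      (integral_comp_mp (hF.mp (gam j)⁻¹) (FM_extraE hF hT hL j) (fun s => (s.card : ℝ))).symm
    simp_rw [e1]
    rw [← integral_const_mul, ← integral_finsetSum _ (fun j _ => iX' j)]
    refine integral_mono (iWe.const_mul 2) (integrable_finsetSum _ (fun j _ => iX' j))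
      (fun y => ?_)
    have h := extra_e hT hL y
    dsimp only
    exact_mod_cast h
  unfold Exc
  simp_rw [d1]
  rw [d2, d3, Finset.sum_add_distrib]
  linarith

end Crest.Agent.R191
end

-- ▼ part R191/Process
section

/-!
# Row 191, T12: the folding process
-/

set_option autoImplicit false
set_option linter.unusedSectionVars false

namespace Crest.Agent.R191

open MeasureTheory

/-! ### Recolouring -/

/-- recolour `c'` to `c` -/
def rc {α : Type*} [DecidableEq α] (c c' z : α) : α := if z = c' then c else z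

theorem rc_self {α : Type*} [DecidableEq α] (c z : α) : rc c c z = z := by
  unfold rc; split_ifs with h
  · exact h.symm
  · rfl

theorem rc_left {α : Type*} [DecidableEq α] (c c' : α) : rc c c' c = c := by
  unfold rc; split_ifs <;> rfl

theorem rc_right {α : Type*} [DecidableEq α] (c c' : α) : rc c c' c' = c := by
  unfold rc; simp

theorem card_image_rc {α : Type*} [DecidableEq α] {c c' : α} (h : c ≠ c') (s : Finset α)
    (hc : c ∈ s) (hc' : c' ∈ s) : (s.image (rc c c')).card + 1 = s.card := by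
  have h1 : s.image (rc c c') = s.erase c' := by
    ext z
    rw [Finset.mem_image, Finset.mem_erase]
    constructor
    · rintro ⟨w, hw, rfl⟩
      unfold rc
      split_ifs with hwc
      · exact ⟨h, hc⟩
      · exact ⟨hwc, hw⟩
    · rintro ⟨hz, hzs⟩
      refine ⟨z, hzs, ?_⟩
      unfold rc
      rw [if_neg hz]
  rw [h1, Finset.card_erase_of_mem hc']
  have : 0 < s.card := Finset.card_pos.2 ⟨c, hc⟩
  omega

/-! ### Integrability of cardinalities -/

section CardInt

variable {X : Type*} [MeasurableSpace X] {μ : Measure X} [IsProbabilityMeasure μ]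

theorem integrable_card {α : Type*} [Fintype α] [DecidableEq α] (f : X → Finset α)
    (hf : ∀ l, MeasurableSet {x | l ∈ f x}) : Integrable (fun x => ((f x).card : ℝ)) μ := by
  classical
  have h1 : (fun x => ((f x).card : ℝ)) = fun x => ∑ l : α, Set.indicator {x | l ∈ f x} (fun _ => (1 : ℝ)) x := by
    funext x
    simp only [Set.indicator_apply, Set.mem_ofPred_eq]
    rw [Finset.sum_ite_mem, Finset.univ_inter]
    simp
  rw [h1]
  apply integrable_finsetSum
  intro l _
  exact (integrable_const (1 : ℝ)).indicator (hf l)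

end CardInt

section Fib

variable {X : Type*} [MeasurableSpace X]

theorem meas_eq_of_fib {α : Type*} [Finite α] {f g : X → α} (hf : ∀ l, MeasurableSet {x | f x = l})
    (hg : ∀ l, MeasurableSet {x | g x = l}) : MeasurableSet {x | f x = g x} := by
  have : {x | f x = g x} = ⋃ l, ({x | f x = l} ∩ {x | g x = l}) := by
    ext x
    simp only [Set.mem_ofPred_eq, Set.mem_iUnion, Set.mem_inter_iff]
    exact ⟨fun h => ⟨f x, rfl, h.symm⟩, fun ⟨l, h1, h2⟩ => h1.trans h2.symm⟩
  rw [this]
  exact MeasurableSet.iUnion fun l => (hf l).inter (hg l)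

theorem meas_fib_rc {α : Type*} [Finite α] [DecidableEq α] {f g h : X → α}
    (hf : ∀ l, MeasurableSet {x | f x = l})
    (hg : ∀ l, MeasurableSet {x | g x = l}) (hh : ∀ l, MeasurableSet {x | h x = l}) (l : α) :
    MeasurableSet {x | rc (f x) (g x) (h x) = l} := by
  have : {x | rc (f x) (g x) (h x) = l}
      = ({x | h x = g x} ∩ {x | f x = l}) ∪ ({x | h x = g x}ᶜ ∩ {x | h x = l}) := by
    ext x
    simp only [rc, Set.mem_ofPred_eq, Set.mem_union, Set.mem_inter_iff, Set.mem_compl_iff]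
    split_ifs with h1
    · simp [h1]
    · simp [h1]
  rw [this]
  have h1 := meas_eq_of_fib hh hg
  exact (h1.inter (hf l)).union (h1.compl.inter (hh l))

end Fib

section Steps

variable {X : Type*} [MulAction F2 X] [MeasurableSpace X] {μ : Measure X} [IsProbabilityMeasure μ]
  {Ke Kp : Type} [Fintype Ke] [Fintype Kp] [DecidableEq Ke] [DecidableEq Kp]

/-- `a`, `a'` over `x` have a common `P`-neighbour -/
def CommonE (T : TG X Ke Kp) (L : Lab X Ke Kp) (a a' : Ie Ke) (x : X) : Prop :=
  ∃ j q q', (gam j)⁻¹ • x ∈ T.ed j q a ∧ (gam j)⁻¹ • x ∈ T.ed j q' a' ∧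
    L.cp ((gam j)⁻¹ • x) q = L.cp ((gam j)⁻¹ • x) q'

/-- `q`, `q'` over `y` have a common `e`-neighbour -/
def CommonP (T : TG X Ke Kp) (L : Lab X Ke Kp) (q q' : Ip Kp) (y : X) : Prop :=
  ∃ j a a', y ∈ T.ed j q a ∧ y ∈ T.ed j q' a' ∧
    L.ce (gam j • y) a = L.ce (gam j • y) a'

omit [IsProbabilityMeasure μ] [Fintype Ke] in
theorem measurableSet_commonE (hF : FreeAct F2 X μ) {T : TG X Ke Kp} (hT : T.Good)
    {L : Lab X Ke Kp} (hL : L.Good T) (a a' : Ie Ke) :
    MeasurableSet {x | CommonE T L a a' x} := by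
  have : {x | CommonE T L a a' x} = ⋃ j, ⋃ q, ⋃ q',
      (fun x : X => (gam j)⁻¹ • x) ⁻¹' (T.ed j q a ∩ T.ed j q' a' ∩ {y | L.cp y q = L.cp y q'}) := by
    ext x
    simp only [CommonE, Set.mem_iUnion, Set.mem_preimage, Set.mem_inter_iff, Set.mem_ofPred_eq,
      and_assoc]
  rw [this]
  refine MeasurableSet.iUnion fun j => MeasurableSet.iUnion fun q => MeasurableSet.iUnion fun q' => ?_
  apply (hF.mp (gam j)⁻¹).measurable
  exact ((hT.meas_ed j q a).inter (hT.meas_ed j q' a')).inter
    (meas_eq_of_fib (fun l => hL.meas_p q l) (fun l => hL.meas_p q' l))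

omit [IsProbabilityMeasure μ] [Fintype Kp] in
theorem measurableSet_commonP (hF : FreeAct F2 X μ) {T : TG X Ke Kp} (hT : T.Good)
    {L : Lab X Ke Kp} (hL : L.Good T) (q q' : Ip Kp) :
    MeasurableSet {y | CommonP T L q q' y} := by
  have : {y | CommonP T L q q' y} = ⋃ j, ⋃ a, ⋃ a',
      (T.ed j q a ∩ T.ed j q' a' ∩ (fun y : X => gam j • y) ⁻¹' {x | L.ce x a = L.ce x a'}) := by
    ext x
    simp only [CommonP, Set.mem_iUnion, Set.mem_preimage, Set.mem_inter_iff, Set.mem_ofPred_eq,
      and_assoc]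
  rw [this]
  refine MeasurableSet.iUnion fun j => MeasurableSet.iUnion fun a => MeasurableSet.iUnion fun a' => ?_
  exact ((hT.meas_ed j q a).inter (hT.meas_ed j q' a')).inter
    ((hF.mp (gam j)).measurable
      (meas_eq_of_fib (fun l => hL.meas_e a l) (fun l => hL.meas_e a' l)))

open Classical in
/-- e-step: for `x ∈ W` merge the class of `a'` into the class of `a` -/
noncomputable def stepE (L : Lab X Ke Kp) (W : Set X) (a a' : Ie Ke) : Lab X Ke Kp where
  ce := fun x s => if x ∈ W then rc (L.ce x a) (L.ce x a') (L.ce x s) else L.ce x s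
  cp := L.cp

open Classical in
/-- P-step: for `y ∈ W` merge the class of `q'` into the class of `q` -/
noncomputable def stepP (L : Lab X Ke Kp) (W : Set X) (q q' : Ip Kp) : Lab X Ke Kp where
  ce := L.ce
  cp := fun y s => if y ∈ W then rc (L.cp y q) (L.cp y q') (L.cp y s) else L.cp y s

omit [MulAction F2 X] [Fintype Kp] in
theorem stepE_good {T : TG X Ke Kp} {L : Lab X Ke Kp} (hL : L.Good T) {W : Set X}
    (hW : MeasurableSet W) (a a' : Ie Ke) : (stepE L W a a').Good T where
  meas_e := by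
    intro s l
    have : {x | (stepE L W a a').ce x s = l}
        = (W ∩ {x | rc (L.ce x a) (L.ce x a') (L.ce x s) = l}) ∪ (Wᶜ ∩ {x | L.ce x s = l}) := by
      ext x
      simp only [stepE, Set.mem_ofPred_eq, Set.mem_union, Set.mem_inter_iff, Set.mem_compl_iff]
      split_ifs with h <;> simp [h]
    rw [this]
    exact (hW.inter (meas_fib_rc (fun l => hL.meas_e a l) (fun l => hL.meas_e a' l)
      (fun l => hL.meas_e s l) l)).union (hW.compl.inter (hL.meas_e s l))
  meas_p := hL.meas_p
  abs_e := by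
    intro k x hx
    simp only [stepE, hL.abs_e k x hx]
  abs_p := hL.abs_p

omit [MulAction F2 X] [Fintype Ke] in
theorem stepP_good {T : TG X Ke Kp} {L : Lab X Ke Kp} (hL : L.Good T) {W : Set X}
    (hW : MeasurableSet W) (q q' : Ip Kp) : (stepP L W q q').Good T where
  meas_p := by
    intro s l
    have : {x | (stepP L W q q').cp x s = l}
        = (W ∩ {x | rc (L.cp x q) (L.cp x q') (L.cp x s) = l}) ∪ (Wᶜ ∩ {x | L.cp x s = l}) := by
      ext x
      simp only [stepP, Set.mem_ofPred_eq, Set.mem_union, Set.mem_inter_iff, Set.mem_compl_iff]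
      split_ifs with h <;> simp [h]
    rw [this]
    exact (hW.inter (meas_fib_rc (fun l => hL.meas_p q l) (fun l => hL.meas_p q' l)
      (fun l => hL.meas_p s l) l)).union (hW.compl.inter (hL.meas_p s l))
  meas_e := hL.meas_e
  abs_p := by
    intro k x hx
    simp only [stepP, hL.abs_p k x hx]
  abs_e := hL.abs_e

/-! ### the excess does not increase -/

omit [IsProbabilityMeasure μ] in
theorem mem_edSet {T : TG X Ke Kp} {L : Lab X Ke Kp} {j : Fin 3} {y : X} {l : Ip Kp × Ie Ke} :
    l ∈ edSet T L j y ↔ ∃ q a, y ∈ T.ed j q a ∧ L.cp y q = l.1 ∧ L.ce (gam j • y) a = l.2 := by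
  classical
  unfold edSet
  rw [Finset.mem_image]
  constructor
  · rintro ⟨⟨q, a⟩, h1, h2⟩
    rw [Finset.mem_filter] at h1
    exact ⟨q, a, h1.2, by rw [← h2], by rw [← h2]⟩
  · rintro ⟨q, a, h1, h2, h3⟩
    refine ⟨(q, a), ?_, ?_⟩
    · rw [Finset.mem_filter]; exact ⟨Finset.mem_univ _, h1⟩
    · rw [h2, h3]

theorem integrable_edSet (hF : FreeAct F2 X μ) {T : TG X Ke Kp} (hT : T.Good)
    {L : Lab X Ke Kp} (hL : L.Good T) (j : Fin 3) :
    Integrable (fun y => ((edSet T L j y).card : ℝ)) μ := by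
  apply integrable_card
  intro l
  have : {y | l ∈ edSet T L j y} = ⋃ q, ⋃ a, (T.ed j q a ∩ {y | L.cp y q = l.1}
      ∩ (fun y : X => gam j • y) ⁻¹' {x | L.ce x a = l.2}) := by
    ext y
    simp only [Set.mem_ofPred_eq, mem_edSet, Set.mem_iUnion, Set.mem_preimage, Set.mem_inter_iff,
      and_assoc]
  rw [this]
  refine MeasurableSet.iUnion fun q => MeasurableSet.iUnion fun a => ?_
  exact ((hT.meas_ed j q a).inter (hL.meas_p q l.1)).inter
    ((hF.mp (gam j)).measurable (hL.meas_e a l.2))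

omit [MulAction F2 X] in
theorem integrable_nVe {T : TG X Ke Kp}
    {L : Lab X Ke Kp} (hL : L.Good T) :
    Integrable (fun x => (nVe L x : ℝ)) μ := by
  unfold nVe
  apply integrable_card
  intro l
  have : {x | l ∈ Finset.univ.image (L.ce x)} = ⋃ a, {x | L.ce x a = l} := by
    ext x
    simp
  rw [this]
  exact MeasurableSet.iUnion fun a => hL.meas_e a l

omit [MulAction F2 X] in
theorem integrable_nVp {T : TG X Ke Kp}
    {L : Lab X Ke Kp} (hL : L.Good T) :
    Integrable (fun x => (nVp L x : ℝ)) μ := by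
  unfold nVp
  apply integrable_card
  intro l
  have : {x | l ∈ Finset.univ.image (L.cp x)} = ⋃ a, {x | L.cp x a = l} := by
    ext x
    simp
  rw [this]
  exact MeasurableSet.iUnion fun a => hL.meas_p a l

omit [IsProbabilityMeasure μ] in
theorem edSet_stepE {T : TG X Ke Kp} {L : Lab X Ke Kp} (W : Set X) (a a' : Ie Ke) (j : Fin 3) (x : X)
    (hx : x ∈ W) :
    edSet T (stepE L W a a') j ((gam j)⁻¹ • x)
      = (edSet T L j ((gam j)⁻¹ • x)).image (fun l => (l.1, rc (L.ce x a) (L.ce x a') l.2)) := by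
  ext l
  rw [mem_edSet, Finset.mem_image]
  constructor
  · rintro ⟨q, s, h1, h2, h3⟩
    refine ⟨(L.cp ((gam j)⁻¹ • x) q, L.ce x s), ?_, ?_⟩
    · rw [mem_edSet]
      exact ⟨q, s, h1, rfl, by rw [smul_inv_smul]⟩
    · rw [smul_inv_smul] at h3
      simp only [stepE, hx, if_true] at h2 h3
      exact Prod.ext h2 h3
  · rintro ⟨m, hm, rfl⟩
    rw [mem_edSet] at hm
    obtain ⟨q, s, h1, h2, h3⟩ := hm
    rw [smul_inv_smul] at h3
    refine ⟨q, s, h1, h2, ?_⟩
    rw [smul_inv_smul]
    simp only [stepE, hx, if_true, h3]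

omit [IsProbabilityMeasure μ] in
theorem edSet_stepE' {T : TG X Ke Kp} {L : Lab X Ke Kp} (W : Set X) (a a' : Ie Ke) (j : Fin 3) (x : X)
    (hx : x ∉ W) :
    edSet T (stepE L W a a') j ((gam j)⁻¹ • x) = edSet T L j ((gam j)⁻¹ • x) := by
  ext l
  rw [mem_edSet, mem_edSet, smul_inv_smul]
  simp only [stepE, hx, if_false]

omit [IsProbabilityMeasure μ] in
theorem edSet_stepP {T : TG X Ke Kp} {L : Lab X Ke Kp} (W : Set X) (q q' : Ip Kp) (j : Fin 3) (y : X)
    (hy : y ∈ W) :
    edSet T (stepP L W q q') j y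
      = (edSet T L j y).image (fun l => (rc (L.cp y q) (L.cp y q') l.1, l.2)) := by
  ext l
  rw [mem_edSet, Finset.mem_image]
  constructor
  · rintro ⟨r, s, h1, h2, h3⟩
    refine ⟨(L.cp y r, L.ce (gam j • y) s), ?_, ?_⟩
    · rw [mem_edSet]
      exact ⟨r, s, h1, rfl, rfl⟩
    · simp only [stepP, hy, if_true] at h2 h3
      exact Prod.ext h2 h3
  · rintro ⟨m, hm, rfl⟩
    rw [mem_edSet] at hm
    obtain ⟨r, s, h1, h2, h3⟩ := hm
    refine ⟨r, s, h1, ?_, h3⟩
    simp only [stepP, hy, if_true, h2]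

omit [IsProbabilityMeasure μ] in
theorem edSet_stepP' {T : TG X Ke Kp} {L : Lab X Ke Kp} (W : Set X) (q q' : Ip Kp) (j : Fin 3) (y : X)
    (hy : y ∉ W) :
    edSet T (stepP L W q q') j y = edSet T L j y := by
  ext l
  rw [mem_edSet, mem_edSet]
  simp only [stepP, hy, if_false]

omit [IsProbabilityMeasure μ] in
/-- pointwise inequality for an e-step -/
theorem pointE (T : TG X Ke Kp) (L : Lab X Ke Kp) (W : Set X) (a a' : Ie Ke)
    (hW : ∀ x ∈ W, CommonE T L a a' x) (x : X) :
    (∑ j : Fin 3, (edSet T (stepE L W a a') j ((gam j)⁻¹ • x)).card) + nVe L x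
      ≤ (∑ j : Fin 3, (edSet T L j ((gam j)⁻¹ • x)).card) + nVe (stepE L W a a') x := by
  by_cases hx : x ∈ W
  · have himg : (Finset.univ.image ((stepE L W a a').ce x))
        = (Finset.univ.image (L.ce x)).image (rc (L.ce x a) (L.ce x a')) := by
      rw [Finset.image_image]
      apply Finset.image_congr
      intro s _
      simp only [stepE, hx, if_true, Function.comp]
    have hle : ∀ j : Fin 3, (edSet T (stepE L W a a') j ((gam j)⁻¹ • x)).card
        ≤ (edSet T L j ((gam j)⁻¹ • x)).card := by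
      intro j
      rw [edSet_stepE W a a' j x hx]
      exact Finset.card_image_le
    by_cases hc : L.ce x a = L.ce x a'
    · have hn : nVe (stepE L W a a') x = nVe L x := by
        unfold nVe
        rw [himg, hc]
        have : (rc (L.ce x a') (L.ce x a') : Ie Ke → Ie Ke) = id := by
          funext z; exact rc_self _ z
        rw [this, Finset.image_id]
      rw [hn]
      have := Finset.sum_le_sum (fun j (_ : j ∈ (Finset.univ : Finset (Fin 3))) => hle j)
      omega
    · have hn : nVe (stepE L W a a') x + 1 = nVe L x := by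
        unfold nVe
        rw [himg]
        apply card_image_rc hc
        · exact Finset.mem_image_of_mem _ (Finset.mem_univ _)
        · exact Finset.mem_image_of_mem _ (Finset.mem_univ _)
      obtain ⟨j, q, q', h1, h2, h3⟩ := hW x hx
      have hlt : (edSet T (stepE L W a a') j ((gam j)⁻¹ • x)).card
          < (edSet T L j ((gam j)⁻¹ • x)).card := by
        rw [edSet_stepE W a a' j x hx]
        apply lt_of_le_of_ne Finset.card_image_le
        intro heq
        rw [Finset.card_image_iff] at heq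
        have hm1 : (L.cp ((gam j)⁻¹ • x) q, L.ce x a) ∈ edSet T L j ((gam j)⁻¹ • x) := by
          rw [mem_edSet]; exact ⟨q, a, h1, rfl, by rw [smul_inv_smul]⟩
        have hm2 : (L.cp ((gam j)⁻¹ • x) q, L.ce x a') ∈ edSet T L j ((gam j)⁻¹ • x) := by
          rw [mem_edSet]; exact ⟨q', a', h2, h3.symm, by rw [smul_inv_smul]⟩
        have := heq hm1 hm2 (by simp only [rc_left, rc_right])
        exact hc (congrArg Prod.snd this)
      have hslt := Finset.sum_lt_sum (fun j (_ : j ∈ (Finset.univ : Finset (Fin 3))) => hle j)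
        ⟨j, Finset.mem_univ _, hlt⟩
      omega
  · have h1 : ∀ j : Fin 3, edSet T (stepE L W a a') j ((gam j)⁻¹ • x) = edSet T L j ((gam j)⁻¹ • x) :=
      fun j => edSet_stepE' W a a' j x hx
    have h2 : nVe (stepE L W a a') x = nVe L x := by
      unfold nVe
      simp only [stepE, hx, if_false]
    simp only [h1, h2]
    exact le_rfl

omit [IsProbabilityMeasure μ] in
/-- pointwise inequality for a P-step -/
theorem pointP (T : TG X Ke Kp) (L : Lab X Ke Kp) (W : Set X) (q q' : Ip Kp)
    (hW : ∀ y ∈ W, CommonP T L q q' y) (y : X) :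
    (∑ j : Fin 3, (edSet T (stepP L W q q') j y).card) + nVp L y
      ≤ (∑ j : Fin 3, (edSet T L j y).card) + nVp (stepP L W q q') y := by
  by_cases hy : y ∈ W
  · have himg : (Finset.univ.image ((stepP L W q q').cp y))
        = (Finset.univ.image (L.cp y)).image (rc (L.cp y q) (L.cp y q')) := by
      rw [Finset.image_image]
      apply Finset.image_congr
      intro s _
      simp only [stepP, hy, if_true, Function.comp]
    have hle : ∀ j : Fin 3, (edSet T (stepP L W q q') j y).card
        ≤ (edSet T L j y).card := by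
      intro j
      rw [edSet_stepP W q q' j y hy]
      exact Finset.card_image_le
    by_cases hc : L.cp y q = L.cp y q'
    · have hn : nVp (stepP L W q q') y = nVp L y := by
        unfold nVp
        rw [himg, hc]
        have : (rc (L.cp y q') (L.cp y q') : Ip Kp → Ip Kp) = id := by
          funext z; exact rc_self _ z
        rw [this, Finset.image_id]
      rw [hn]
      have := Finset.sum_le_sum (fun j (_ : j ∈ (Finset.univ : Finset (Fin 3))) => hle j)
      omega
    · have hn : nVp (stepP L W q q') y + 1 = nVp L y := by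
        unfold nVp
        rw [himg]
        apply card_image_rc hc
        · exact Finset.mem_image_of_mem _ (Finset.mem_univ _)
        · exact Finset.mem_image_of_mem _ (Finset.mem_univ _)
      obtain ⟨j, a, a', h1, h2, h3⟩ := hW y hy
      have hlt : (edSet T (stepP L W q q') j y).card < (edSet T L j y).card := by
        rw [edSet_stepP W q q' j y hy]
        apply lt_of_le_of_ne Finset.card_image_le
        intro heq
        rw [Finset.card_image_iff] at heq
        have hm1 : (L.cp y q, L.ce (gam j • y) a) ∈ edSet T L j y := by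
          rw [mem_edSet]; exact ⟨q, a, h1, rfl, rfl⟩
        have hm2 : (L.cp y q', L.ce (gam j • y) a) ∈ edSet T L j y := by
          rw [mem_edSet]; exact ⟨q', a', h2, rfl, h3.symm⟩
        have := heq hm1 hm2 (by simp only [rc_left, rc_right])
        exact hc (congrArg Prod.fst this)
      have hslt := Finset.sum_lt_sum (fun j (_ : j ∈ (Finset.univ : Finset (Fin 3))) => hle j)
        ⟨j, Finset.mem_univ _, hlt⟩
      omega
  · have h1 : ∀ j : Fin 3, edSet T (stepP L W q q') j y = edSet T L j y :=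
      fun j => edSet_stepP' W q q' j y hy
    have h2 : nVp (stepP L W q q') y = nVp L y := by
      unfold nVp
      simp only [stepP, hy, if_false]
    simp only [h1, h2]
    exact le_rfl

theorem integral_edSet_eq (hF : FreeAct F2 X μ) (T : TG X Ke Kp) (L : Lab X Ke Kp) (j : Fin 3) :
    ∫ y, ((edSet T L j y).card : ℝ) ∂μ = ∫ x, ((edSet T L j ((gam j)⁻¹ • x)).card : ℝ) ∂μ := by
  have hmp := hF.mp (gam j)⁻¹
  let e : MeasurableEquiv X X :=
      { toFun := fun x => (gam j)⁻¹ • x
        invFun := fun x => gam j • x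
        left_inv := fun x => smul_inv_smul _ _
        right_inv := fun x => inv_smul_smul _ _
        measurable_toFun := (hF.mp (gam j)⁻¹).measurable
        measurable_invFun := (hF.mp (gam j)).measurable }
  have hme : MeasurableEmbedding (fun x : X => (gam j)⁻¹ • x) := e.measurableEmbedding
  rw [hmp.integral_comp hme (fun y => ((edSet T L j y).card : ℝ))]

theorem exc_stepE (hF : FreeAct F2 X μ) {T : TG X Ke Kp} (hT : T.Good) {L : Lab X Ke Kp}
    (hL : L.Good T) {W : Set X} (hWm : MeasurableSet W) (a a' : Ie Ke)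
    (hW : ∀ x ∈ W, CommonE T L a a' x) : Exc μ T (stepE L W a a') ≤ Exc μ T L := by
  have hL' := stepE_good hL hWm a a'
  have hp : ∀ y, nVp (stepE L W a a') y = nVp L y := fun y => rfl
  unfold Exc
  simp only [hp]
  have hint : ∀ (L : Lab X Ke Kp), L.Good T → ∀ j, Integrable (fun x => ((edSet T L j ((gam j)⁻¹ • x)).card : ℝ)) μ := by
    intro L hL j
    exact (hF.mp (gam j)⁻¹).integrable_comp_of_integrable (integrable_edSet hF hT hL j)
  have h1 : ∀ (L : Lab X Ke Kp), L.Good T → (∑ j : Fin 3, ∫ y, ((edSet T L j y).card : ℝ) ∂μ)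
      = ∫ x, ∑ j : Fin 3, ((edSet T L j ((gam j)⁻¹ • x)).card : ℝ) ∂μ := by
    intro L hL
    rw [integral_finsetSum _ (fun j _ => hint L hL j)]
    exact Finset.sum_congr rfl fun j _ => integral_edSet_eq hF T L j
  rw [h1 _ hL', h1 _ hL]
  have h2 : (∫ x, ∑ j : Fin 3, ((edSet T (stepE L W a a') j ((gam j)⁻¹ • x)).card : ℝ) ∂μ)
      + ∫ x, (nVe L x : ℝ) ∂μ
      ≤ (∫ x, ∑ j : Fin 3, ((edSet T L j ((gam j)⁻¹ • x)).card : ℝ) ∂μ)
      + ∫ x, (nVe (stepE L W a a') x : ℝ) ∂μ := by
    rw [← integral_add (integrable_finsetSum _ fun j _ => hint _ hL' j) (integrable_nVe hL),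
      ← integral_add (integrable_finsetSum _ fun j _ => hint _ hL j) (integrable_nVe hL')]
    apply integral_mono
    · exact (integrable_finsetSum _ fun j _ => hint _ hL' j).add (integrable_nVe hL)
    · exact (integrable_finsetSum _ fun j _ => hint _ hL j).add (integrable_nVe hL')
    · intro x
      have := pointE T L W a a' hW x
      simp only
      exact_mod_cast this
  linarith

theorem exc_stepP (hF : FreeAct F2 X μ) {T : TG X Ke Kp} (hT : T.Good) {L : Lab X Ke Kp}
    (hL : L.Good T) {W : Set X} (hWm : MeasurableSet W) (q q' : Ip Kp)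
    (hW : ∀ y ∈ W, CommonP T L q q' y) : Exc μ T (stepP L W q q') ≤ Exc μ T L := by
  have hL' := stepP_good hL hWm q q'
  have hp : ∀ y, nVe (stepP L W q q') y = nVe L y := fun y => rfl
  unfold Exc
  simp only [hp]
  rw [← integral_finsetSum _ (fun j _ => integrable_edSet hF hT hL' j),
    ← integral_finsetSum _ (fun j _ => integrable_edSet hF hT hL j)]
  have h2 : (∫ y, ∑ j : Fin 3, ((edSet T (stepP L W q q') j y).card : ℝ) ∂μ)
      + ∫ x, (nVp L x : ℝ) ∂μ
      ≤ (∫ y, ∑ j : Fin 3, ((edSet T L j y).card : ℝ) ∂μ)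
      + ∫ x, (nVp (stepP L W q q') x : ℝ) ∂μ := by
    rw [← integral_add (integrable_finsetSum _ fun j _ => integrable_edSet hF hT hL' j) (integrable_nVp hL),
      ← integral_add (integrable_finsetSum _ fun j _ => integrable_edSet hF hT hL j) (integrable_nVp hL')]
    apply integral_mono
    · exact (integrable_finsetSum _ fun j _ => integrable_edSet hF hT hL' j).add (integrable_nVp hL)
    · exact (integrable_finsetSum _ fun j _ => integrable_edSet hF hT hL j).add (integrable_nVp hL')
    · intro x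
      have := pointP T L W q q' hW x
      simp only
      exact_mod_cast this
  linarith

/-! ### The sequence -/

/-- elementary steps -/
abbrev Step (Ke Kp : Type) := (Fin 4 × Ie Ke × Ie Ke) ⊕ (Fin 4 × Ip Kp × Ip Kp)

/-- apply an elementary step -/
noncomputable def applyStep (T : TG X Ke Kp) (U : Fin 4 → Set X) (L : Lab X Ke Kp) :
    Step Ke Kp → Lab X Ke Kp
  | Sum.inl (i, a, a') => stepE L (U i ∩ {x | CommonE T L a a' x}) a a'
  | Sum.inr (i, q, q') => stepP L (U i ∩ {y | CommonP T L q q' y}) q q'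

/-- the schedule -/
noncomputable def sched (Ke Kp : Type) [Fintype Ke] [Fintype Kp] (n : ℕ) : Step Ke Kp :=
  (Fintype.equivFin (Step Ke Kp)).symm ⟨n % Fintype.card (Step Ke Kp), Nat.mod_lt _ (Fintype.card_pos_iff.2
    ⟨Sum.inr (0, Sum.inl 0, Sum.inl 0)⟩)⟩

theorem sched_often (Ke Kp : Type) [Fintype Ke] [Fintype Kp] (s : Step Ke Kp) (n : ℕ) :
    ∃ m, n ≤ m ∧ sched Ke Kp m = s := by
  set N := Fintype.card (Step Ke Kp) with hN
  have hNpos : 0 < N := Fintype.card_pos_iff.2 ⟨s⟩
  set i := Fintype.equivFin (Step Ke Kp) s with hi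
  refine ⟨N * n + i, ?_, ?_⟩
  · have : n ≤ N * n := Nat.le_mul_of_pos_left n hNpos
    omega
  · unfold sched
    have h1 : (N * n + (i : ℕ)) % Fintype.card (Step Ke Kp) = i := by
      show (N * n + (i : ℕ)) % N = i
      rw [Nat.mul_add_mod, Nat.mod_eq_of_lt i.2]
    have h2 : (⟨(N * n + (i : ℕ)) % Fintype.card (Step Ke Kp), Nat.mod_lt _ (Fintype.card_pos_iff.2
      ⟨Sum.inr (0, Sum.inl 0, Sum.inl 0)⟩)⟩ : Fin (Fintype.card (Step Ke Kp))) = i := Fin.ext h1
    rw [h2, hi, Equiv.symm_apply_apply]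

/-- the process -/
noncomputable def proc (T : TG X Ke Kp) (U : Fin 4 → Set X) (L₀ : Lab X Ke Kp) : ℕ → Lab X Ke Kp
  | 0 => L₀
  | n + 1 => applyStep T U (proc T U L₀ n) (sched Ke Kp n)

theorem process (hF : FreeAct F2 X μ) {T : TG X Ke Kp} (hT : T.Good) {L₀ : Lab X Ke Kp}
    (hL₀ : L₀.Good T) {U : Fin 4 → Set X} (hU : ∀ i, MeasurableSet (U i))
    (hUμ : ∀ i, μ (U i) ≤ 1 / 4) (hUc : ⋃ i, U i = Set.univ) :
    ∃ L : ℕ → Lab X Ke Kp, L 0 = L₀ ∧ (∀ n, (L n).Good T) ∧
      (∀ n, Exc μ T (L (n + 1)) ≤ Exc μ T (L n)) ∧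
      (∀ n, μ ((L (n + 1)).S \ (L n).S) ≤ 1 / 4) ∧
      (∀ n x a a', (L n).ce x a = (L n).ce x a' → (L (n + 1)).ce x a = (L (n + 1)).ce x a') ∧
      (∀ n y q q', (L n).cp y q = (L n).cp y q' → (L (n + 1)).cp y q = (L (n + 1)).cp y q') ∧
      (∀ n x a a' j q q', (gam j)⁻¹ • x ∈ T.ed j q a → (gam j)⁻¹ • x ∈ T.ed j q' a' →
        (L n).cp ((gam j)⁻¹ • x) q = (L n).cp ((gam j)⁻¹ • x) q' →
        ∃ m, (L m).ce x a = (L m).ce x a') ∧
      (∀ n y q q' j a a', y ∈ T.ed j q a → y ∈ T.ed j q' a' →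
        (L n).ce (gam j • y) a = (L n).ce (gam j • y) a' →
        ∃ m, (L m).cp y q = (L m).cp y q') := by
  classical
  set L := proc T U L₀ with hLdef
  have hsucc : ∀ n, L (n + 1) = applyStep T U (L n) (sched Ke Kp n) := fun n => rfl
  have hgood : ∀ n, (L n).Good T := by
    intro n
    induction n with
    | zero => exact hL₀
    | succ n ih =>
      rw [hsucc]
      rcases sched Ke Kp n with ⟨i, a, a'⟩ | ⟨i, q, q'⟩
      · exact stepE_good ih ((hU i).inter (measurableSet_commonE hF hT ih a a')) a a'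
      · exact stepP_good ih ((hU i).inter (measurableSet_commonP hF hT ih q q')) q q'
  have hmonoE : ∀ n x a a', (L n).ce x a = (L n).ce x a' → (L (n + 1)).ce x a = (L (n + 1)).ce x a' := by
    intro n x a a' h
    rw [hsucc]
    rcases sched Ke Kp n with ⟨i, b, b'⟩ | ⟨i, q, q'⟩
    · simp only [applyStep, stepE]
      split_ifs
      · rw [h]
      · exact h
    · exact h
  have hmonoP : ∀ n y q q', (L n).cp y q = (L n).cp y q' → (L (n + 1)).cp y q = (L (n + 1)).cp y q' := by
    intro n y q q' h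
    rw [hsucc]
    rcases sched Ke Kp n with ⟨i, b, b'⟩ | ⟨i, r, r'⟩
    · exact h
    · simp only [applyStep, stepP]
      split_ifs
      · rw [h]
      · exact h
  have hmonoE' : ∀ n m x a a', n ≤ m → (L n).ce x a = (L n).ce x a' → (L m).ce x a = (L m).ce x a' := by
    intro n m x a a' hnm h
    induction m, hnm using Nat.le_induction with
    | base => exact h
    | succ m _ ih => exact hmonoE m x a a' ih
  have hmonoP' : ∀ n m y q q', n ≤ m → (L n).cp y q = (L n).cp y q' → (L m).cp y q = (L m).cp y q' := by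
    intro n m y q q' hnm h
    induction m, hnm using Nat.le_induction with
    | base => exact h
    | succ m _ ih => exact hmonoP m y q q' ih
  refine ⟨L, rfl, hgood, ?_, ?_, hmonoE, hmonoP, ?_, ?_⟩
  · intro n
    rw [hsucc]
    rcases sched Ke Kp n with ⟨i, a, a'⟩ | ⟨i, q, q'⟩
    · exact exc_stepE hF hT (hgood n) ((hU i).inter (measurableSet_commonE hF hT (hgood n) a a')) a a'
        (fun x hx => hx.2)
    · exact exc_stepP hF hT (hgood n) ((hU i).inter (measurableSet_commonP hF hT (hgood n) q q')) q q'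
        (fun x hx => hx.2)
  · intro n
    rw [hsucc]
    rcases sched Ke Kp n with ⟨i, a, a'⟩ | ⟨i, q, q'⟩
    · refine (measure_mono ?_).trans (hUμ i)
      rintro x ⟨hx1, hx2⟩
      by_contra hxU
      apply hx2
      simp only [Lab.S, Set.mem_ofPred_eq, applyStep, stepE] at hx1 ⊢
      have : x ∉ U i ∩ {x | CommonE T (L n) a a' x} := fun h => hxU h.1
      simpa only [this, if_false] using hx1
    · have : (applyStep T U (L n) (Sum.inr (i, q, q'))).S \ (L n).S = ∅ := by
        simp only [applyStep, stepP, Lab.S, Set.sdiff_self]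
      rw [this, measure_empty]
      exact zero_le
  · intro n x a a' j q q' h1 h2 h3
    obtain ⟨i, hi⟩ : ∃ i, x ∈ U i := by
      have : x ∈ ⋃ i, U i := by rw [hUc]; exact Set.mem_univ _
      exact Set.mem_iUnion.1 this
    obtain ⟨m, hnm, hm⟩ := sched_often Ke Kp (Sum.inl (i, a, a')) n
    refine ⟨m + 1, ?_⟩
    rw [hsucc, hm]
    have hW : x ∈ U i ∩ {x | CommonE T (L m) a a' x} :=
      ⟨hi, j, q, q', h1, h2, hmonoP' n m _ q q' hnm h3⟩
    simp only [applyStep, stepE, hW, if_true, rc_left, rc_right]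
  · intro n y q q' j a a' h1 h2 h3
    obtain ⟨i, hi⟩ : ∃ i, y ∈ U i := by
      have : y ∈ ⋃ i, U i := by rw [hUc]; exact Set.mem_univ _
      exact Set.mem_iUnion.1 this
    obtain ⟨m, hnm, hm⟩ := sched_often Ke Kp (Sum.inr (i, q, q')) n
    refine ⟨m + 1, ?_⟩
    rw [hsucc, hm]
    have hW : y ∈ U i ∩ {y | CommonP T (L m) q q' y} :=
      ⟨hi, j, a, a', h1, h2, hmonoE' n m _ a a' hnm h3⟩
    simp only [applyStep, stepP, hW, if_true, rc_left, rc_right]

end Steps

end Crest.Agent.R191
private theorem rz_4adad090df : type_of% @_root_.Crest.Agent.R191.applyStep.eq_1 := @_root_.Crest.Agent.R191.applyStep.eq_1 -- L501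
end

-- ▼ part R191/Cactus
section

/-!
# Cactus lemma (row 191, module A1)

In the group `⟨s_i (i : ZMod k) | s_{k-1} ⋯ s_1 s_0 = 1⟩` (free of rank `k-1`) a nonempty freely
reduced word in the letters `s_i^{±1}` which represents `1` contains a full cyclic relator
`s_{i+k-1} ⋯ s_{i+1} s_i` or its inverse as a contiguous subword.
-/

set_option autoImplicit false

namespace Crest.Agent.R191

open Monoid






/-- The direction of a letter: positive letters are followed by `i-1`, negative ones by `i+1`. -/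
def cdir (k : ℕ) (b : Bool) : ZMod k := if b then -1 else 1

/-- First involution of a letter. -/
def cfst {k : ℕ} (x : ZMod k × Bool) : ZMod k := if x.2 then x.1 + 1 else x.1

/-- The run of length `m` starting with the letter `(i, b)`. -/
def crun {k : ℕ} (i : ZMod k) (b : Bool) (m : ℕ) : List (ZMod k × Bool) :=
  (List.range m).map (fun t : ℕ => (i + (t : ZMod k) * cdir k b, b))


@[simp] theorem crun_length {k : ℕ} (i : ZMod k) (b : Bool) (m : ℕ) : (crun i b m).length = m := by
  simp [crun]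






end Crest.Agent.R191
end

-- ▼ part R191/PathWord
section

/-!
# Row 191, T10: non-backtracking paths in the incidence forest
-/

set_option autoImplicit false

namespace Crest.Agent.R191

open Monoid

/-- A list `l = [(j₁, j₁'), (j₂, j₂'), …]` is read from the start:
`b = … (gam j₂' * (gam j₂)⁻¹) * (gam j₁' * (gam j₁)⁻¹)`. -/
def pathProd : List (Fin 3 × Fin 3) → F2
  | [] => 1
  | jj :: l => pathProd l * (gam jj.2 * (gam jj.1)⁻¹)

/-- non-backtracking -/
def NB (l : List (Fin 3 × Fin 3)) : Prop :=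
  (∀ jj ∈ l, jj.1 ≠ jj.2) ∧ List.IsChain (fun u v : Fin 3 × Fin 3 => u.2 ≠ v.1) l

/-- The cast `Fin 3 → ZMod 3`. -/
def z3 (j : Fin 3) : ZMod 3 := j








theorem exists_path_mul (b : F2) (hb : ∃ l, NB l ∧ pathProd l = b) (j j' : Fin 3) (hj : j ≠ j') :
    ∃ l, NB l ∧ pathProd l = b * (gam j' * (gam j)⁻¹) := by
  obtain ⟨l, hl, rfl⟩ := hb
  cases l with
  | nil => exact ⟨[(j, j')], ⟨by simpa using hj, by simp⟩, rfl⟩
  | cons kk l =>
    obtain ⟨k, k'⟩ := kk
    obtain ⟨h1, h2⟩ := hl
    have hk : k ≠ k' := h1 (k, k') List.mem_cons_self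
    have h1' : ∀ jj ∈ l, jj.1 ≠ jj.2 := fun x hx => h1 x (List.mem_cons_of_mem _ hx)
    have h2' : l.IsChain (fun u v : Fin 3 × Fin 3 => u.2 ≠ v.1) := by
      cases l with
      | nil => simp
      | cons y l => exact (List.isChain_cons_cons.mp h2).2
    by_cases h3 : j' = k
    · subst h3
      have e : pathProd ((j', k') :: l) * (gam j' * (gam j)⁻¹) =
          pathProd l * (gam k' * (gam j)⁻¹) := by
        simp only [pathProd]; group
      by_cases h4 : k' = j
      · subst h4
        refine ⟨l, ⟨h1', h2'⟩, ?_⟩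
        rw [e]; simp
      · refine ⟨(j, k') :: l, ⟨?_, ?_⟩, ?_⟩
        · intro x hx
          rcases List.mem_cons.mp hx with rfl | hx
          · exact fun h => h4 h.symm
          · exact h1' x hx
        · cases l with
          | nil => simp
          | cons y l =>
            rw [List.isChain_cons_cons] at h2 ⊢
            exact h2
        · rw [e]; rfl
    · refine ⟨(j, j') :: (k, k') :: l, ⟨?_, ?_⟩, rfl⟩
      · intro x hx
        rcases List.mem_cons.mp hx with rfl | hx
        · exact hj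
        · exact h1 x hx
      · rw [List.isChain_cons_cons]
        exact ⟨h3, h2⟩

theorem exists_path (b : F2) : ∃ l : List (Fin 3 × Fin 3), NB l ∧ pathProd l = b := by
  have key : ∀ x : F2, ∀ b : F2, (∃ l, NB l ∧ pathProd l = b) → ∃ l, NB l ∧ pathProd l = b * x := by
    intro x
    induction x using FreeGroup.induction_on with
    | C1 => intro b hb; simpa using hb
    | of i =>
      intro b hb
      fin_cases i
      · have := exists_path_mul b hb 0 1 (by decide)
        simpa [gam, la] using this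
      · have := exists_path_mul b hb 0 2 (by decide)
        simpa [gam, lb] using this
    | inv_of i _ =>
      intro b hb
      fin_cases i
      · have := exists_path_mul b hb 1 0 (by decide)
        simpa [gam, la] using this
      · have := exists_path_mul b hb 2 0 (by decide)
        simpa [gam, lb] using this
    | mul x y hx hy =>
      intro b hb
      have := hy (b * x) (hx b hb)
      simpa [mul_assoc] using this
  have := key b 1 ⟨[], ⟨by simp, by simp⟩, rfl⟩
  simpa using this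

end Crest.Agent.R191
private theorem rz_0bf8bf85a7 : type_of% @_root_.Crest.Agent.R191.pathProd.eq_def := @_root_.Crest.Agent.R191.pathProd.eq_def -- L17
private theorem rz_ad7f0464b5 : type_of% @_root_.Crest.Agent.R191.pathProd.eq_1 := @_root_.Crest.Agent.R191.pathProd.eq_1 -- L17
end

-- ▼ part R191/BuildTG

/-!
# Row 191, T14: the typed graph of a finite family of chords
-/

set_option autoImplicit false

namespace Crest.Agent.R191

open MeasureTheory

namespace Build

theorem pathProd_append (l₁ l₂ : List (Fin 3 × Fin 3)) :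
    pathProd (l₁ ++ l₂) = pathProd l₂ * pathProd l₁ := by
  induction l₁ with
  | nil => simp [pathProd]
  | cons a l₁ ih => simp [pathProd, ih, mul_assoc]

/-- the group element from the start to the `i`-th e-node of the path -/
def pos (l : List (Fin 3 × Fin 3)) (i : ℕ) : F2 := pathProd (l.take i)

theorem pos_zero (l : List (Fin 3 × Fin 3)) : pos l 0 = 1 := by simp [pos, pathProd]

theorem pos_length (l : List (Fin 3 × Fin 3)) : pos l l.length = pathProd l := by simp [pos]

theorem pos_succ (l : List (Fin 3 × Fin 3)) (i : ℕ) (hi : i < l.length) :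
    pos l (i + 1) = gam (l[i]).2 * (gam (l[i]).1)⁻¹ * pos l i := by
  unfold pos
  rw [List.take_succ_eq_append_getElem hi, pathProd_append]
  simp [pathProd]

/-- data: a finite set of group elements and a path for each -/
structure Dat where
  F : Finset F2
  l : F2 → List (Fin 3 × Fin 3)
  nb : ∀ g ∈ F, NB (l g)
  prod : ∀ g ∈ F, pathProd (l g) = g
  one : ∀ g ∈ F, g ≠ 1

namespace Dat

variable (D : Dat)

/-- interior e-types -/
abbrev KeT : Type := Σ g : D.F, Fin ((D.l g).length - 1)
/-- interior P-types -/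
abbrev KpT : Type := Σ g : D.F, Fin (D.l g).length

theorem length_pos {g : F2} (hg : g ∈ D.F) : 0 < (D.l g).length := by
  rcases Nat.eq_zero_or_pos (D.l g).length with h | h
  · exfalso
    apply D.one g hg
    have := D.prod g hg
    rw [List.length_eq_zero_iff.mp h] at this
    exact this.symm
  · exact h

/-- the type of the `m`-th e-node of the path of `g` -/
def eN (g : D.F) (m : ℕ) : Ie D.KeT :=
  if h : m - 1 < (D.l g).length - 1 ∧ 0 < m then Sum.inr ⟨g, ⟨m - 1, h.1⟩⟩ else Sum.inl true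

theorem eN_zero (g : D.F) : D.eN g 0 = Sum.inl true := by simp [eN]

theorem eN_length (g : D.F) : D.eN g (D.l g).length = Sum.inl true := by simp [eN]

theorem eN_eq_inr {g g' : D.F} {m : ℕ} {i : Fin ((D.l g').length - 1)}
    (h : D.eN g m = Sum.inr ⟨g', i⟩) : g = g' ∧ m = (i : ℕ) + 1 := by
  unfold eN at h
  split_ifs at h with h1
  have h2 := Sum.inr_injective h
  obtain ⟨rfl, h3⟩ := Sigma.mk.inj_iff.mp h2
  refine ⟨rfl, ?_⟩
  have h4 := congrArg Fin.val (eq_of_heq h3)
  simp only at h4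
  omega

theorem eN_succ (g : D.F) (i : Fin ((D.l g).length - 1)) :
    D.eN g ((i : ℕ) + 1) = Sum.inr ⟨g, i⟩ := by
  unfold eN
  rw [dif_pos ⟨by simp, Nat.succ_pos _⟩]
  rfl

section
variable {X : Type*} [MulAction F2 X] (Ψ : Gr F2 X)

/-- presence of interior P-nodes -/
def pP (k : D.KpT) : Set X :=
  {y | (pos (D.l k.1) k.2)⁻¹ • gam ((D.l k.1)[k.2]).1 • y ∈ Ψ k.1}

/-- presence of interior e-nodes -/
def pE (k : D.KeT) : Set X := {x | (pos (D.l k.1) (k.2 + 1))⁻¹ • x ∈ Ψ k.1}

/-- The typed graph. -/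
def tg : TG X D.KeT D.KpT where
  ed := fun j q a => match q, a with
    | Sum.inl c, Sum.inl false => {_y | j = c}
    | Sum.inl c, Sum.inl true => {_y | j = c + 1}
    | Sum.inl _, Sum.inr _ => ∅
    | Sum.inr k, a => {y | y ∈ D.pP Ψ k ∧
        ((j = ((D.l k.1)[k.2]).1 ∧ a = D.eN k.1 k.2) ∨
          (j = ((D.l k.1)[k.2]).2 ∧ a = D.eN k.1 (k.2 + 1)))}
  pe := D.pE Ψ
  pp := D.pP Ψ

open Classical in
/-- The labelling. -/
noncomputable def lab : Lab X D.KeT D.KpT where
  ce := fun x a => match a with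
    | Sum.inl b => Sum.inl b
    | Sum.inr k => if x ∈ D.pE Ψ k then Sum.inr k else Sum.inl true
  cp := fun y q => match q with
    | Sum.inl c => Sum.inl c
    | Sum.inr k => if y ∈ D.pP Ψ k then Sum.inr k else Sum.inl 0

variable {Ψ}

theorem mem_pP_iff (k : D.KpT) (x : X) :
    (gam ((D.l k.1)[k.2]).1)⁻¹ • pos (D.l k.1) k.2 • x ∈ D.pP Ψ k ↔ x ∈ Ψ k.1 := by
  unfold pP
  rw [Set.mem_ofPred_eq, smul_inv_smul, inv_smul_smul]


end

section
variable {X : Type*} [MulAction F2 X] [MeasurableSpace X] {μ : Measure X} {Ψ : Gr F2 X}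

theorem meas_pP (hF : FreeAct F2 X μ) (hΨ : Ψ.Meas) (k : D.KpT) : MeasurableSet (D.pP Ψ k) := by
  unfold pP
  have h1 := (hF.mp (gam ((D.l k.1)[k.2]).1)).measurable
  have h2 := (hF.mp (pos (D.l k.1) k.2)⁻¹).measurable
  exact (h2.comp h1) (hΨ k.1)

theorem meas_pE (hF : FreeAct F2 X μ) (hΨ : Ψ.Meas) (k : D.KeT) : MeasurableSet (D.pE Ψ k) := by
  unfold pE
  exact (hF.mp (pos (D.l k.1) (k.2 + 1))⁻¹).measurable (hΨ k.1)

theorem measure_pP (hF : FreeAct F2 X μ) (hΨ : Ψ.Meas) (k : D.KpT) :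
    μ (D.pP Ψ k) = μ (Ψ k.1) := by
  have h := (hF.mp (pos (D.l k.1) k.2)⁻¹).comp (hF.mp (gam ((D.l k.1)[k.2]).1))
  exact h.measure_preimage (hΨ k.1).nullMeasurableSet

theorem measure_pE (hF : FreeAct F2 X μ) (hΨ : Ψ.Meas) (k : D.KeT) :
    μ (D.pE Ψ k) = μ (Ψ k.1) :=
  (hF.mp (pos (D.l k.1) (k.2 + 1))⁻¹).measure_preimage (hΨ k.1).nullMeasurableSet

theorem tg_good (hF : FreeAct F2 X μ) (hΨ : Ψ.Meas) : (D.tg Ψ).Good where
  meas_ed := by
    intro j q a
    match q, a with
    | Sum.inl c, Sum.inl false => exact MeasurableSet.const _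
    | Sum.inl c, Sum.inl true => exact MeasurableSet.const _
    | Sum.inl c, Sum.inr _ => exact MeasurableSet.empty
    | Sum.inr k, Sum.inl b => exact (D.meas_pP hF hΨ k).inter (MeasurableSet.const _)
    | Sum.inr k, Sum.inr k' => exact (D.meas_pP hF hΨ k).inter (MeasurableSet.const _)
  meas_pe := fun k => D.meas_pE hF hΨ k
  meas_pp := fun k => D.meas_pP hF hΨ k
  core_in := fun j y => rfl
  core_out := fun j y => rfl
  deg_e := by
    rintro ⟨g, i⟩ x hx
    have hi : (i : ℕ) + 1 < (D.l g).length := by have := i.2; omega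
    have hi0 : (i : ℕ) < (D.l g).length := by omega
    have hx' : (pos (D.l g) (i + 1))⁻¹ • x ∈ Ψ g := hx
    set x0 := (pos (D.l g) (i + 1))⁻¹ • x with hx0
    have hxx : x = pos (D.l g) (i + 1) • x0 := by rw [hx0, smul_inv_smul]
    clear_value x0
    refine ⟨((D.l g)[(i : ℕ)]).2, ((D.l g)[(i : ℕ) + 1]).1, Sum.inr ⟨g, ⟨i, hi0⟩⟩,
      Sum.inr ⟨g, ⟨i + 1, hi⟩⟩, ?_, ⟨?_, ?_⟩, ⟨?_, ?_⟩⟩
    · have := (D.nb g g.2).2
      rw [List.isChain_iff_getElem] at this
      exact this i hi
    · have e : (gam ((D.l g)[(i : ℕ)]).2)⁻¹ • x =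
          (gam ((D.l g)[(i : ℕ)]).1)⁻¹ • pos (D.l g) i • x0 := by
        rw [hxx, pos_succ _ _ hi0, ← mul_smul, ← mul_smul]
        group
      rw [e]
      exact (D.mem_pP_iff ⟨g, ⟨i, hi0⟩⟩ x0).mpr hx'
    · exact Or.inr ⟨rfl, (D.eN_succ g i).symm⟩
    · have := (D.mem_pP_iff (Ψ := Ψ) ⟨g, ⟨i + 1, hi⟩⟩ x0).mpr hx'
      rw [hxx]
      exact this
    · exact Or.inl ⟨rfl, (D.eN_succ g i).symm⟩
  deg_p := by
    rintro ⟨g, i⟩ y hy
    refine ⟨((D.l g)[(i : ℕ)]).1, ((D.l g)[(i : ℕ)]).2, D.eN g i, D.eN g (i + 1), ?_, ?_, ?_⟩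
    · exact (D.nb g g.2).1 _ (List.getElem_mem _)
    · exact ⟨hy, Or.inl ⟨rfl, rfl⟩⟩
    · exact ⟨hy, Or.inr ⟨rfl, rfl⟩⟩
  abs_e := by
    rintro ⟨g, i⟩ j q y hy
    match q with
    | Sum.inl c => exact absurd hy (Set.notMem_empty _)
    | Sum.inr ⟨g', i'⟩ =>
      obtain ⟨hy1, hy2⟩ := hy
      have hy1' : (pos (D.l g') i')⁻¹ • gam ((D.l g')[(i' : ℕ)]).1 • y ∈ Ψ g' := hy1
      rcases hy2 with ⟨hj, ha⟩ | ⟨hj, ha⟩
      · obtain ⟨rfl, h2⟩ := D.eN_eq_inr ha.symm
        change (pos (D.l g') (i + 1))⁻¹ • gam j • y ∈ Ψ g'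
        rw [← h2, hj]
        exact hy1'
      · obtain ⟨rfl, h2⟩ := D.eN_eq_inr ha.symm
        change (pos (D.l g') (i + 1))⁻¹ • gam j • y ∈ Ψ g'
        rw [← h2, hj, pos_succ _ _ i'.2]
        have e : (gam ((D.l g')[(i' : ℕ)]).2 * (gam ((D.l g')[(i' : ℕ)]).1)⁻¹ *
            pos (D.l g') i')⁻¹ • gam ((D.l g')[(i' : ℕ)]).2 • y =
            (pos (D.l g') i')⁻¹ • gam ((D.l g')[(i' : ℕ)]).1 • y := by
          rw [← mul_smul, ← mul_smul]; group
        exact e ▸ hy1'
  abs_p := by
    rintro ⟨g, i⟩ j a y hy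
    match a with
    | Sum.inl b => exact hy.1
    | Sum.inr k => exact hy.1

theorem lab_good (hF : FreeAct F2 X μ) (hΨ : Ψ.Meas) : (D.lab Ψ).Good (D.tg Ψ) where
  meas_e := by
    intro a l
    match a with
    | Sum.inl b => exact (MeasurableSet.const (Sum.inl b = l) : MeasurableSet {_x : X | Sum.inl b = l})
    | Sum.inr k =>
      have : {x : X | (D.lab Ψ).ce x (Sum.inr k) = l} =
          (D.pE Ψ k ∩ {_x | Sum.inr k = l}) ∪ ((D.pE Ψ k)ᶜ ∩ {_x | Sum.inl true = l}) := by
        ext x
        by_cases hx : x ∈ D.pE Ψ k <;> simp [lab, hx]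
      rw [this]
      exact ((D.meas_pE hF hΨ k).inter (MeasurableSet.const _)).union
        ((D.meas_pE hF hΨ k).compl.inter (MeasurableSet.const _))
  meas_p := by
    intro a l
    match a with
    | Sum.inl b => exact (MeasurableSet.const (Sum.inl b = l) : MeasurableSet {_x : X | Sum.inl b = l})
    | Sum.inr k =>
      have : {x : X | (D.lab Ψ).cp x (Sum.inr k) = l} =
          (D.pP Ψ k ∩ {_x | Sum.inr k = l}) ∪ ((D.pP Ψ k)ᶜ ∩ {_x | Sum.inl 0 = l}) := by
        ext x
        by_cases hx : x ∈ D.pP Ψ k <;> simp [lab, hx]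
      rw [this]
      exact ((D.meas_pP hF hΨ k).inter (MeasurableSet.const _)).union
        ((D.meas_pP hF hΨ k).compl.inter (MeasurableSet.const _))
  abs_e := by
    intro k x hx
    have hx' : x ∉ D.pE Ψ k := hx
    simp [lab, hx']
  abs_p := by
    intro k x hx
    have hx' : x ∉ D.pP Ψ k := hx
    simp [lab, hx']

omit [MeasurableSpace X] in
theorem lab_S : (D.lab Ψ).S = ∅ := by
  ext x
  simp [Lab.S, lab]

end

/-! ### counting -/

section count
variable {X : Type*} [MulAction F2 X] {Ψ : Gr F2 X}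

open Classical in
theorem nVe_eq (x : X) : nVe (D.lab Ψ) x =
    2 + ∑ k : D.KeT, (if x ∈ D.pE Ψ k then 1 else 0) := by
  have h : (Finset.univ.image ((D.lab Ψ).ce x)) =
      Finset.disjSum (Finset.univ : Finset Bool)
        ((Finset.univ : Finset D.KeT).filter (fun k => x ∈ D.pE Ψ k)) := by
    ext a
    rw [Finset.mem_image, Finset.mem_disjSum]
    constructor
    · rintro ⟨a', -, rfl⟩
      match a' with
      | Sum.inl b => exact Or.inl ⟨b, Finset.mem_univ _, rfl⟩
      | Sum.inr k =>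
        by_cases hk : x ∈ D.pE Ψ k
        · refine Or.inr ⟨k, by simpa using hk, by simp [lab, hk]⟩
        · refine Or.inl ⟨true, Finset.mem_univ _, by simp [lab, hk]⟩
    · rintro (⟨b, -, rfl⟩ | ⟨k, hk, rfl⟩)
      · exact ⟨Sum.inl b, Finset.mem_univ _, rfl⟩
      · have hk' : x ∈ D.pE Ψ k := by simpa using hk
        exact ⟨Sum.inr k, Finset.mem_univ _, by simp [lab, hk']⟩
  unfold nVe
  have h2 : (Finset.image ((D.lab Ψ).ce x) Finset.univ).card =
      (Finset.disjSum (Finset.univ : Finset Bool)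
        ((Finset.univ : Finset D.KeT).filter (fun k => x ∈ D.pE Ψ k))).card := by
    rw [← h]
  rw [h2, Finset.card_disjSum, Finset.card_filter]
  rfl

open Classical in
theorem nVp_eq (x : X) : nVp (D.lab Ψ) x =
    3 + ∑ k : D.KpT, (if x ∈ D.pP Ψ k then 1 else 0) := by
  have h : (Finset.univ.image ((D.lab Ψ).cp x)) =
      Finset.disjSum (Finset.univ : Finset (Fin 3))
        ((Finset.univ : Finset D.KpT).filter (fun k => x ∈ D.pP Ψ k)) := by
    ext a
    rw [Finset.mem_image, Finset.mem_disjSum]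
    constructor
    · rintro ⟨a', -, rfl⟩
      match a' with
      | Sum.inl b => exact Or.inl ⟨b, Finset.mem_univ _, rfl⟩
      | Sum.inr k =>
        by_cases hk : x ∈ D.pP Ψ k
        · refine Or.inr ⟨k, by simpa using hk, by simp [lab, hk]⟩
        · refine Or.inl ⟨0, Finset.mem_univ _, by simp [lab, hk]⟩
    · rintro (⟨b, -, rfl⟩ | ⟨k, hk, rfl⟩)
      · exact ⟨Sum.inl b, Finset.mem_univ _, rfl⟩
      · have hk' : x ∈ D.pP Ψ k := by simpa using hk
        exact ⟨Sum.inr k, Finset.mem_univ _, by simp [lab, hk']⟩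
  unfold nVp
  have h2 : (Finset.image ((D.lab Ψ).cp x) Finset.univ).card =
      (Finset.disjSum (Finset.univ : Finset (Fin 3))
        ((Finset.univ : Finset D.KpT).filter (fun k => x ∈ D.pP Ψ k))).card := by
    rw [← h]
  rw [h2, Finset.card_disjSum, Finset.card_filter]
  rfl

open Classical in
/-- total number of edges over `P_y` -/
theorem edSet_le (y : X) : ∀ j : Fin 3, (edSet (D.tg Ψ) (D.lab Ψ) j y).card ≤
    ∑ q : Ip D.KpT, ∑ a : Ie D.KeT, (if y ∈ (D.tg Ψ).ed j q a then 1 else 0) := by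
  intro j
  unfold edSet
  refine Finset.card_image_le.trans ?_
  rw [Finset.card_filter, ← Finset.univ_product_univ, Finset.sum_product]

open Classical in
theorem sum_ed_le (y : X) : ∑ j : Fin 3, ∑ q : Ip D.KpT, ∑ a : Ie D.KeT,
      (if y ∈ (D.tg Ψ).ed j q a then 1 else 0) ≤
    6 + 2 * ∑ k : D.KpT, (if y ∈ D.pP Ψ k then 1 else 0) := by
  rw [Finset.sum_comm, Fintype.sum_sum_type]
  refine Nat.add_le_add ?_ ?_
  · -- core
    have : ∀ c : Fin 3, ∑ j : Fin 3, ∑ a : Ie D.KeT,
        (if y ∈ (D.tg Ψ).ed j (Sum.inl c) a then 1 else 0) = 2 := by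
      intro c
      have e : ∀ j : Fin 3, ∑ a : Ie D.KeT,
        (if y ∈ (D.tg Ψ).ed j (Sum.inl c) a then 1 else 0) =
          (if j = c + 1 then 1 else 0) + (if j = c then 1 else 0) := by
        intro j
        rw [Fintype.sum_sum_type, Fintype.sum_bool]
        have h3 : ∑ k : D.KeT, (if y ∈ (D.tg Ψ).ed j (Sum.inl c) (Sum.inr k) then 1 else 0) = 0 := by
          refine Finset.sum_eq_zero fun k _ => ?_
          rw [if_neg]
          exact Set.notMem_empty _
        have h1 : y ∈ (D.tg Ψ).ed j (Sum.inl c) (Sum.inl true) ↔ j = c + 1 := Iff.rfl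
        have h2 : y ∈ (D.tg Ψ).ed j (Sum.inl c) (Sum.inl false) ↔ j = c := Iff.rfl
        rw [h3, add_zero]
        simp only [h1, h2]
      rw [Finset.sum_congr rfl fun j _ => e j, Finset.sum_add_distrib]
      simp
    rw [Finset.sum_congr rfl fun c _ => this c]
    simp
  · rw [Finset.mul_sum]
    refine Finset.sum_le_sum fun k _ => ?_
    by_cases hy : y ∈ D.pP Ψ k
    · rw [if_pos hy]
      have e : ∀ (j : Fin 3) (a : Ie D.KeT),
          (if y ∈ (D.tg Ψ).ed j (Sum.inr k) a then 1 else 0) ≤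
          (if j = ((D.l k.1)[k.2]).1 then (if a = D.eN k.1 k.2 then 1 else 0) else 0) +
          (if j = ((D.l k.1)[k.2]).2 then (if a = D.eN k.1 (k.2 + 1) then 1 else 0) else 0) := by
        intro j a
        by_cases h : y ∈ (D.tg Ψ).ed j (Sum.inr k) a
        · rw [if_pos h]
          have h' : (j = ((D.l k.1)[k.2]).1 ∧ a = D.eN k.1 k.2) ∨
              (j = ((D.l k.1)[k.2]).2 ∧ a = D.eN k.1 (k.2 + 1)) := by
            match a, h with
            | Sum.inl b, h => exact h.2
            | Sum.inr k', h => exact h.2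
          rcases h' with ⟨h1, h2⟩ | ⟨h1, h2⟩
          · rw [if_pos h1, if_pos h2]; omega
          · rw [if_pos h1, if_pos h2]; omega
        · rw [if_neg h]; omega
      refine (Finset.sum_le_sum fun j _ => Finset.sum_le_sum fun a _ => e j a).trans ?_
      simp only [Finset.sum_add_distrib]
      simp
    · have : ∀ (j : Fin 3) (a : Ie D.KeT),
          (if y ∈ (D.tg Ψ).ed j (Sum.inr k) a then 1 else 0) = 0 := by
        intro j a
        rw [if_neg]
        intro h
        match a, h with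
        | Sum.inl b, h => exact hy h.1
        | Sum.inr k', h => exact hy h.1
      rw [Finset.sum_congr rfl fun j _ => Finset.sum_congr rfl fun a _ => this j a]
      simp

end count

/-! ### connectivity -/

section conn
variable {X : Type*} [MulAction F2 X] {Ψ : Gr F2 X}

theorem chord_conn (g : D.F) (x : X) (hx : x ∈ Ψ g) (i : ℕ) (hi : i ≤ (D.l g).length) :
    Relation.EqvGen (D.tg Ψ).Adj (Sum.inl (x, Sum.inl true))
      (Sum.inl (pos (D.l g) i • x, D.eN g i)) := by
  induction i with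
  | zero => rw [pos_zero, one_smul, D.eN_zero]; exact Relation.EqvGen.refl _
  | succ i ih =>
    have hi' : i < (D.l g).length := hi
    refine (ih hi'.le).trans _ _ _ ?_
    set y := (gam ((D.l g)[i]).1)⁻¹ • pos (D.l g) i • x with hy
    have hmem : y ∈ D.pP Ψ ⟨g, ⟨i, hi'⟩⟩ := (D.mem_pP_iff ⟨g, ⟨i, hi'⟩⟩ x).mpr hx
    have e1 : (D.tg Ψ).Adj (Sum.inr (y, Sum.inr ⟨g, ⟨i, hi'⟩⟩))
        (Sum.inl (pos (D.l g) i • x, D.eN g i)) := by
      refine ⟨((D.l g)[i]).1, y, Sum.inr ⟨g, ⟨i, hi'⟩⟩, D.eN g i, ?_, rfl, ?_⟩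
      · exact ⟨hmem, Or.inl ⟨rfl, rfl⟩⟩
      · rw [hy, smul_inv_smul]
    have e2 : (D.tg Ψ).Adj (Sum.inr (y, Sum.inr ⟨g, ⟨i, hi'⟩⟩))
        (Sum.inl (pos (D.l g) (i + 1) • x, D.eN g (i + 1))) := by
      refine ⟨((D.l g)[i]).2, y, Sum.inr ⟨g, ⟨i, hi'⟩⟩, D.eN g (i + 1), ?_, rfl, ?_⟩
      · exact ⟨hmem, Or.inr ⟨rfl, rfl⟩⟩
      · rw [hy, pos_succ _ _ hi', mul_smul, mul_smul]
    exact ((Relation.EqvGen.rel _ _ e1).symm _ _).trans _ _ _ (Relation.EqvGen.rel _ _ e2)

theorem chord_conn' (g : D.F) (x : X) (hx : x ∈ Ψ g) :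
    Relation.EqvGen (D.tg Ψ).Adj (Sum.inl (x, Sum.inl true))
      (Sum.inl ((g : F2) • x, Sum.inl true)) := by
  have h := D.chord_conn g x hx (D.l g).length le_rfl
  rwa [pos_length, D.prod g g.2, D.eN_length] at h

/-- corner `j` joins `in (gam j • y)` with `out (gam (j+1) • y)` -/
theorem corner_conn (j : Fin 3) (y : X) :
    Relation.EqvGen (D.tg Ψ).Adj (Sum.inl (gam j • y, Sum.inl false))
      (Sum.inl (gam (j + 1) • y, Sum.inl true)) := by
  have e1 : (D.tg Ψ).Adj (Sum.inr (y, Sum.inl j)) (Sum.inl (gam j • y, Sum.inl false)) :=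
    ⟨j, y, Sum.inl j, Sum.inl false, rfl, rfl, rfl⟩
  have e2 : (D.tg Ψ).Adj (Sum.inr (y, Sum.inl j)) (Sum.inl (gam (j + 1) • y, Sum.inl true)) :=
    ⟨j + 1, y, Sum.inl j, Sum.inl true, rfl, rfl, rfl⟩
  exact ((Relation.EqvGen.rel _ _ e1).symm _ _).trans _ _ _ (Relation.EqvGen.rel _ _ e2)

theorem corner_conn' (j : Fin 3) (z : X) :
    Relation.EqvGen (D.tg Ψ).Adj (Sum.inl (z, Sum.inl false))
      (Sum.inl ((gam (j + 1) * (gam j)⁻¹) • z, Sum.inl true)) := by
  have h := D.corner_conn (Ψ := Ψ) j ((gam j)⁻¹ • z)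
  rwa [smul_inv_smul, ← mul_smul] at h

theorem out_conn (i j : Fin 3) (z : X) :
    Relation.EqvGen (D.tg Ψ).Adj
      (Sum.inl (z, Sum.inl true))
      (Sum.inl ((gam (j + 1) * (gam j)⁻¹ * (gam (i + 1) * (gam i)⁻¹)⁻¹) • z, Sum.inl true)) := by
  have h1 := D.corner_conn' (Ψ := Ψ) i ((gam (i + 1) * (gam i)⁻¹)⁻¹ • z)
  have h2 := D.corner_conn' (Ψ := Ψ) j ((gam (i + 1) * (gam i)⁻¹)⁻¹ • z)
  rw [smul_inv_smul] at h1
  rw [← mul_smul] at h2
  exact (h1.symm _ _).trans _ _ _ h2

theorem out_conn_EF (h : F2) (hh : h ∈ EF) : ∀ z : X,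
    Relation.EqvGen (D.tg Ψ).Adj
      (Sum.inl (z, Sum.inl true)) (Sum.inl (h • z, Sum.inl true)) := by
  unfold EF at hh
  induction hh using Subgroup.closure_induction with
  | mem x hx =>
    intro z
    rcases hx with rfl | rfl
    · have := D.out_conn (Ψ := Ψ) 2 0 z
      have e : gam (0 + 1) * (gam 0)⁻¹ * (gam (2 + 1) * (gam 2)⁻¹)⁻¹ = la * lb := by
        simp [gam]
      rwa [e] at this
    · have := D.out_conn (Ψ := Ψ) 2 1 z
      have e : gam (1 + 1) * (gam 1)⁻¹ * (gam (2 + 1) * (gam 2)⁻¹)⁻¹ = lb * la⁻¹ * lb := by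
        simp [gam]
      rwa [e] at this
  | one => intro z; rw [one_smul]; exact Relation.EqvGen.refl _
  | mul x y _ _ hx hy =>
    intro z
    rw [mul_smul]
    exact (hy z).trans _ _ _ (hx _)
  | inv x _ hx =>
    intro z
    have := hx (x⁻¹ • z)
    rw [smul_inv_smul] at this
    exact this.symm _ _

theorem conn (hall : ∀ g : F2, (Ψ g).Nonempty → g ≠ 1 → g ∈ D.F) {p q : X}
    (h : Gen (OR EF) Ψ p q) :
    Relation.EqvGen (D.tg Ψ).Adj (Sum.inl (p, Sum.inl true)) (Sum.inl (q, Sum.inl true)) := by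
  unfold Gen at h
  induction h with
  | rel p q h =>
    rcases h with ⟨e, he, rfl⟩ | ⟨g, hg, rfl⟩
    · exact D.out_conn_EF e he p
    · by_cases hg1 : g = 1
      · subst hg1; rw [one_smul]; exact Relation.EqvGen.refl _
      · exact D.chord_conn' ⟨g, hall g ⟨p, hg⟩ hg1⟩ p hg
  | refl p => exact Relation.EqvGen.refl _
  | symm p q _ ih => exact ih.symm _ _
  | trans p q r _ _ ih1 ih2 => exact ih1.trans _ _ _ ih2

end conn

/-! ### the excess -/

section exc
variable {X : Type*} [MulAction F2 X] [MeasurableSpace X] {μ : Measure X}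
  [IsProbabilityMeasure μ] {Ψ : Gr F2 X}

omit [MulAction F2 X] in
open Classical in
theorem integrable_ind {s : Set X} (hs : MeasurableSet s) :
    Integrable (fun y => ((if y ∈ s then 1 else 0 : ℕ) : ℝ)) μ := by
  have e : (fun y => ((if y ∈ s then 1 else 0 : ℕ) : ℝ)) = s.indicator (fun _ => (1 : ℝ)) := by
    ext y
    by_cases hy : y ∈ s <;> simp [hy]
  rw [e]
  exact (integrable_const (1 : ℝ)).indicator hs

omit [MulAction F2 X] [IsProbabilityMeasure μ] in
open Classical in
theorem integral_ind {s : Set X} (hs : MeasurableSet s) :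
    ∫ y, ((if y ∈ s then 1 else 0 : ℕ) : ℝ) ∂μ = μ.real s := by
  have e : (fun y => ((if y ∈ s then 1 else 0 : ℕ) : ℝ)) = s.indicator (fun _ => (1 : ℝ)) := by
    ext y
    by_cases hy : y ∈ s <;> simp [hy]
  rw [e, integral_indicator_const _ hs]
  simp

theorem integral_nVe (hF : FreeAct F2 X μ) (hΨ : Ψ.Meas) :
    ∫ x, (nVe (D.lab Ψ) x : ℝ) ∂μ = 2 + ∑ k : D.KeT, μ.real (Ψ k.1) := by
  classical
  have e : ∀ x, (nVe (D.lab Ψ) x : ℝ) =
      2 + ∑ k : D.KeT, ((if x ∈ D.pE Ψ k then 1 else 0 : ℕ) : ℝ) := by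
    intro x
    rw [D.nVe_eq x]
    push_cast
    rfl
  simp only [e]
  rw [integral_add (integrable_const _)
    (integrable_finsetSum _ fun k _ => integrable_ind (D.meas_pE hF hΨ k)),
    integral_finsetSum _ fun k _ => integrable_ind (D.meas_pE hF hΨ k)]
  congr 1
  · simp
  · refine Finset.sum_congr rfl fun k _ => ?_
    rw [integral_ind (D.meas_pE hF hΨ k), Measure.real, Measure.real, D.measure_pE hF hΨ k]

theorem integral_nVp (hF : FreeAct F2 X μ) (hΨ : Ψ.Meas) :
    ∫ x, (nVp (D.lab Ψ) x : ℝ) ∂μ = 3 + ∑ k : D.KpT, μ.real (Ψ k.1) := by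
  classical
  have e : ∀ x, (nVp (D.lab Ψ) x : ℝ) =
      3 + ∑ k : D.KpT, ((if x ∈ D.pP Ψ k then 1 else 0 : ℕ) : ℝ) := by
    intro x
    rw [D.nVp_eq x]
    push_cast
    rfl
  simp only [e]
  rw [integral_add (integrable_const _)
    (integrable_finsetSum _ fun k _ => integrable_ind (D.meas_pP hF hΨ k)),
    integral_finsetSum _ fun k _ => integrable_ind (D.meas_pP hF hΨ k)]
  congr 1
  · simp
  · refine Finset.sum_congr rfl fun k _ => ?_
    rw [integral_ind (D.meas_pP hF hΨ k), Measure.real, Measure.real, D.measure_pP hF hΨ k]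

theorem integral_ed (hF : FreeAct F2 X μ) (hΨ : Ψ.Meas) :
    ∑ j : Fin 3, ∫ y, ((edSet (D.tg Ψ) (D.lab Ψ) j y).card : ℝ) ∂μ ≤
      6 + 2 * ∑ k : D.KpT, μ.real (Ψ k.1) := by
  classical
  have hm := (D.tg_good hF hΨ).meas_ed
  have h1 : ∀ j : Fin 3, ∫ y, ((edSet (D.tg Ψ) (D.lab Ψ) j y).card : ℝ) ∂μ ≤
      ∫ y, ∑ q : Ip D.KpT, ∑ a : Ie D.KeT,
        ((if y ∈ (D.tg Ψ).ed j q a then 1 else 0 : ℕ) : ℝ) ∂μ := by
    intro j
    refine integral_mono_of_nonneg (Filter.Eventually.of_forall fun y => by positivity) ?_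
      (Filter.Eventually.of_forall fun y => ?_)
    · exact integrable_finsetSum _ fun q _ => integrable_finsetSum _ fun a _ =>
        integrable_ind (hm j q a)
    · have := D.edSet_le (Ψ := Ψ) y j
      beta_reduce
      exact_mod_cast this
  refine (Finset.sum_le_sum fun j _ => h1 j).trans ?_
  rw [← integral_finsetSum _ fun j _ => integrable_finsetSum _ fun q _ =>
    integrable_finsetSum _ fun a _ => integrable_ind (hm j q a)]
  have h2 : ∫ y, ∑ j : Fin 3, ∑ q : Ip D.KpT, ∑ a : Ie D.KeT,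
        ((if y ∈ (D.tg Ψ).ed j q a then 1 else 0 : ℕ) : ℝ) ∂μ ≤
      ∫ y, (6 + 2 * ∑ k : D.KpT, ((if y ∈ D.pP Ψ k then 1 else 0 : ℕ) : ℝ)) ∂μ := by
    refine integral_mono_of_nonneg (Filter.Eventually.of_forall fun y => by positivity) ?_
      (Filter.Eventually.of_forall fun y => ?_)
    · exact (integrable_const _).add (Integrable.const_mul
        (integrable_finsetSum _ fun k _ => integrable_ind (D.meas_pP hF hΨ k)) _)
    · have := D.sum_ed_le (Ψ := Ψ) y
      beta_reduce
      exact_mod_cast this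
  refine h2.trans (le_of_eq ?_)
  rw [integral_add (integrable_const _) (Integrable.const_mul
        (integrable_finsetSum _ fun k _ => integrable_ind (D.meas_pP hF hΨ k)) _),
    integral_const_mul, integral_finsetSum _ fun k _ => integrable_ind (D.meas_pP hF hΨ k)]
  congr 1
  · simp
  · congr 1
    refine Finset.sum_congr rfl fun k _ => ?_
    rw [integral_ind (D.meas_pP hF hΨ k), Measure.real, Measure.real, D.measure_pP hF hΨ k]

theorem exc_le (hF : FreeAct F2 X μ) (hΨ : Ψ.Meas) :
    Exc μ (D.tg Ψ) (D.lab Ψ) ≤ 1 + ∑ g : D.F, μ.real (Ψ g) := by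
  unfold Exc
  rw [D.integral_nVe hF hΨ, D.integral_nVp hF hΨ]
  have h := D.integral_ed (μ := μ) hF hΨ
  have h1 : ∑ k : D.KpT, μ.real (Ψ k.1) = ∑ g : D.F, ((D.l g).length : ℝ) * μ.real (Ψ g) := by
    rw [Fintype.sum_sigma]
    refine Finset.sum_congr rfl fun g _ => ?_
    simp
  have h2 : ∑ k : D.KeT, μ.real (Ψ k.1) =
      ∑ g : D.F, (((D.l g).length : ℝ) - 1) * μ.real (Ψ g) := by
    rw [Fintype.sum_sigma]
    refine Finset.sum_congr rfl fun g _ => ?_
    have := D.length_pos g.2
    simp [Nat.cast_sub (show 1 ≤ (D.l g).length from this)]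
  have h3 : ∑ g : D.F, ((D.l g).length : ℝ) * μ.real (Ψ g) -
      ∑ g : D.F, (((D.l g).length : ℝ) - 1) * μ.real (Ψ g) = ∑ g : D.F, μ.real (Ψ g) := by
    rw [← Finset.sum_sub_distrib]
    refine Finset.sum_congr rfl fun g _ => by ring
  rw [h2]
  rw [h1] at h ⊢
  linarith

end exc

end Dat

end Build

/-- T14 `BuildTG.lean` : the typed graph of a finite family of chords. -/
theorem build {X : Type*} [MulAction F2 X] [MeasurableSpace X] {μ : Measure X}
    [IsProbabilityMeasure μ] (hF : FreeAct F2 X μ) {Ψ : Gr F2 X} (hΨ : Ψ.Meas)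
    (hfin : Ψ.FinSupp) (hcost : Ψ.cost μ ≠ ⊤)
    (hgen : ∀ x : X, Gen (OR EF) Ψ x (la • x)) :
    ∃ (Ke Kp : Type) (_ : Fintype Ke) (_ : Fintype Kp) (_ : DecidableEq Ke) (_ : DecidableEq Kp)
      (T : TG X Ke Kp) (L : Lab X Ke Kp), T.Good ∧ L.Good T ∧ L.S = ∅ ∧
      Exc μ T L ≤ 1 + (Ψ.cost μ).toReal ∧
      ∀ x : X, Relation.EqvGen T.Adj (Sum.inl (x, Sum.inl true)) (Sum.inl (x, Sum.inl false)) := by
  classical
  choose l hl1 hl2 using exists_path
  let D : Build.Dat :=
    { F := hfin.toFinset.filter (fun g => g ≠ 1)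
      l := l
      nb := fun g _ => hl1 g
      prod := fun g _ => hl2 g
      one := fun g hg => (Finset.mem_filter.mp hg).2 }
  refine ⟨D.KeT, D.KpT, inferInstance, inferInstance, inferInstance, inferInstance,
    D.tg Ψ, D.lab Ψ, D.tg_good hF hΨ, D.lab_good hF hΨ, D.lab_S, ?_, ?_⟩
  · refine (D.exc_le hF hΨ).trans ?_
    have h : ∑ g : D.F, μ.real (Ψ g) ≤ (Ψ.cost μ).toReal := by
      have h1 : ∑ g : D.F, μ.real (Ψ g) = (∑ g ∈ D.F, μ (Ψ g)).toReal := by
        rw [ENNReal.toReal_sum (fun g _ => measure_ne_top _ _)]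
        exact (Finset.sum_coe_sort D.F (fun g => μ.real (Ψ g)))
      rw [h1]
      exact ENNReal.toReal_mono hcost (ENNReal.sum_le_tsum D.F)
    linarith
  · intro x
    have hall : ∀ g : F2, (Ψ g).Nonempty → g ≠ 1 → g ∈ D.F := by
      intro g hg hg1
      exact Finset.mem_filter.mpr ⟨hfin.mem_toFinset.mpr hg, hg1⟩
    have h1 := D.conn hall (hgen x)
    have h2 := D.corner_conn' (Ψ := Ψ) 0 x
    have e : gam (0 + 1) * (gam 0)⁻¹ = la := by simp [gam]
    rw [e] at h2
    exact h1.trans _ _ _ (h2.symm _ _)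

end Crest.Agent.R191
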