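import Crest.Agent.R191.Rel
import Crest.Agent.R191.Defs
import Mathlib
import Crest.Agent.R191.AmalgLemma

-- ▼ part R191/Marker
section

/-!
# Row 191, T2: marker lemma
-/

set_option autoImplicit false

namespace Crest.Agent.R191

open MeasureTheory Filter

section Marker
variable {G Z : Type*} [Group G] [Countable G] [MulAction G Z] [MeasurableSpace Z]

/-- The nested marker sets. -/
def mkB (G : Type*) {Z : Type*} [Group G] [MulAction G Z] (ρ : Z → Z → Prop)
    (f : Z → ℕ → Bool) (D : Set Z) : ℕ → Set Z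
  | 0 => D
  | n + 1 => {p | p ∈ mkB G ρ f D n ∧
      ((f p n = false ∧ {g : G | ρ p (g • p) ∧ g • p ∈ mkB G ρ f D n ∧ f (g • p) n = false}.Infinite)
      ∨ (f p n = true ∧
        ¬ {g : G | ρ p (g • p) ∧ g • p ∈ mkB G ρ f D n ∧ f (g • p) n = false}.Infinite))}

theorem mkB_meas {ν : Measure Z} (hF : FreeAct G Z ν) {ρ : Z → Z → Prop} (hρ : MRel G ρ)
    {f : Z → ℕ → Bool} (hf : Measurable f) {D : Set Z} (hD : MeasurableSet D) (n : ℕ) :
    MeasurableSet (mkB G ρ f D n) := by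
  induction n with
  | zero => exact hD
  | succ n ih =>
    have hfn : ∀ b : Bool, MeasurableSet {p | f p n = b} := fun b =>
      ((measurable_pi_apply n).comp hf) (measurableSet_singleton b)
    have hA : MeasurableSet (mkB G ρ f D n ∩ {p | f p n = false}) := ih.inter (hfn false)
    have hr : MRel G (fun p q => ρ p q ∧ (q ∈ mkB G ρ f D n ∧ f q n = false)) := by
      refine ⟨fun p q h => hρ.orb p q h.1, fun g => ?_⟩
      exact (hρ.meas g).inter (hF.measurable_smul g hA)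
    have hfin := hr.measurable_finite hF
    have hinf : MeasurableSet {p : Z | {g : G | ρ p (g • p) ∧ g • p ∈ mkB G ρ f D n ∧
        f (g • p) n = false}.Infinite} := hfin.compl
    exact ih.inter ((((hfn false).inter hinf)).union ((hfn true).inter hinf.compl))

theorem mkB_sub {ρ : Z → Z → Prop} {f : Z → ℕ → Bool} {D : Set Z} (n : ℕ) :
    mkB G ρ f D (n + 1) ⊆ mkB G ρ f D n := fun _ h => h.1

theorem mkB_anti {ρ : Z → Z → Prop} {f : Z → ℕ → Bool} {D : Set Z} :
    Antitone (mkB G ρ f D) := antitone_nat_of_succ_le fun n => mkB_sub n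

/-- the index set of points of the class in `A` -/
theorem inf_iff {ρ : Z → Z → Prop} (he : Equivalence ρ) (hor : ∀ p q, ρ p q → ∃ g : G, q = g • p)
    {P : Z → Prop} {p q : Z}
    (h : ρ p q) : {g : G | ρ p (g • p) ∧ P (g • p)}.Infinite →
      {g : G | ρ q (g • q) ∧ P (g • q)}.Infinite := by
  intro hp
  obtain ⟨a, ha⟩ := hor _ _ h
  have hinj : Function.Injective (fun g : G => g * a⁻¹) := mul_left_injective _
  refine (hp.image hinj.injOn).mono ?_
  rintro _ ⟨g, ⟨h1, h2⟩, rfl⟩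
  have e : (g * a⁻¹) • q = g • p := by rw [ha, mul_smul, inv_smul_smul]
  simp only [Set.mem_setOf_eq, e]
  exact ⟨he.trans (he.symm h) h1, h2⟩

theorem mkB_inf {ρ : Z → Z → Prop} (hor : ∀ p q, ρ p q → ∃ g : G, q = g • p)
    (he : Equivalence ρ) {f : Z → ℕ → Bool}
    {D : Set Z} (hinv : ∀ p q, ρ p q → p ∈ D → q ∈ D)
    (hinf : ∀ p ∈ D, {g : G | ρ p (g • p)}.Infinite) (n : ℕ) {p : Z} (hp : p ∈ D) :
    {g : G | ρ p (g • p) ∧ g • p ∈ mkB G ρ f D n}.Infinite := by
  induction n with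
  | zero =>
    refine (hinf p hp).mono fun g hg => ⟨hg, hinv _ _ hg hp⟩
  | succ n ih =>
    by_cases h : {g : G | ρ p (g • p) ∧ (g • p ∈ mkB G ρ f D n ∧ f (g • p) n = false)}.Infinite
    · refine h.mono ?_
      rintro g ⟨h1, h2, h3⟩
      refine ⟨h1, h2, Or.inl ⟨h3, ?_⟩⟩
      exact inf_iff (P := fun x => x ∈ mkB G ρ f D n ∧ f x n = false) he hor h1 h
    · have h' : {g : G | ρ p (g • p) ∧ (g • p ∈ mkB G ρ f D n ∧ f (g • p) n = false)}.Finite :=
        Set.not_infinite.mp h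
      refine (ih.diff h').mono ?_
      rintro g ⟨⟨h1, h2⟩, h3⟩
      have h4 : f (g • p) n = true := by
        by_contra h5
        exact h3 ⟨h1, h2, by simpa using h5⟩
      refine ⟨h1, h2, Or.inr ⟨h4, fun h6 => h ?_⟩⟩
      exact inf_iff (P := fun x => x ∈ mkB G ρ f D n ∧ f x n = false) he hor (he.symm h1) h6

theorem mkB_eq {ρ : Z → Z → Prop} (hor : ∀ p q, ρ p q → ∃ g : G, q = g • p)
    (he : Equivalence ρ) {f : Z → ℕ → Bool} (hf : Function.Injective f)
    {D : Set Z} {p q : Z} (hp : ∀ n, p ∈ mkB G ρ f D n) (hq : ∀ n, q ∈ mkB G ρ f D n)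
    (h : ρ p q) : p = q := by
  apply hf
  funext n
  have h1 := (hp (n + 1)).2
  have h2 := (hq (n + 1)).2
  have hiff1 := inf_iff (G := G) (P := fun x => x ∈ mkB G ρ f D n ∧ f x n = false) he hor h
  have hiff2 := inf_iff (G := G) (P := fun x => x ∈ mkB G ρ f D n ∧ f x n = false) he hor
    (he.symm h)
  rcases h1 with ⟨a1, b1⟩ | ⟨a1, b1⟩ <;> rcases h2 with ⟨a2, b2⟩ | ⟨a2, b2⟩
  · rw [a1, a2]
  · exact absurd (hiff1 b1) b2
  · exact absurd (hiff2 b2) b1
  · rw [a1, a2]

theorem marker [StandardBorelSpace Z] {ν : Measure Z} [IsFiniteMeasure ν]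
    (hF : FreeAct G Z ν) {ρ : Z → Z → Prop} (hρ : MRel G ρ) (he : Equivalence ρ)
    {D : Set Z} (hD : MeasurableSet D) (hinv : ∀ p q, ρ p q → p ∈ D → q ∈ D)
    (hinf : ∀ p ∈ D, {g : G | ρ p (g • p)}.Infinite) {η : ENNReal} (hη : η ≠ 0) :
    ∃ B ⊆ D, MeasurableSet B ∧ ν B ≤ η ∧ ∀ p ∈ D, ∃ q ∈ B, ρ p q := by
  classical
  obtain ⟨f, fm, fi⟩ := MeasurableSpace.measurable_injection_nat_bool_of_countablySeparated Z
  have hm : ∀ n, MeasurableSet (mkB G ρ f D n) := mkB_meas hF hρ fm hD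
  set T : Set Z := ⋂ n, mkB G ρ f D n with hT
  have hTm : MeasurableSet T := MeasurableSet.iInter hm
  have hTD : T ⊆ D := fun p hp => (Set.mem_iInter.mp hp 0 : p ∈ mkB G ρ f D 0)
  -- translates
  have hdisj : Pairwise (Function.onFun Disjoint
      (fun g : G => (fun p : Z => g⁻¹ • p) ⁻¹' (T ∩ {p | ρ p (g • p)}))) := by
    intro g h hgh
    rw [Function.onFun, Set.disjoint_left]
    intro x hx1 hx2
    simp only [Set.mem_preimage, Set.mem_inter_iff, Set.mem_setOf_eq, smul_inv_smul] at hx1 hx2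
    have hxy : ρ (g⁻¹ • x) (h⁻¹ • x) := he.trans hx1.2 (he.symm hx2.2)
    have hxe : g⁻¹ • x = h⁻¹ • x :=
      mkB_eq hρ.orb he fi (fun n => Set.mem_iInter.mp hx1.1 n)
        (fun n => Set.mem_iInter.mp hx2.1 n) hxy
    exact hgh (inv_injective (hF.eq_of_smul_eq hxe))
  have hms : ∀ g : G, MeasurableSet ((fun p : Z => g⁻¹ • p) ⁻¹' (T ∩ {p | ρ p (g • p)})) :=
    fun g => hF.measurable_smul _ (hTm.inter (hρ.meas g))
  have hsum : ∑' g : G, ν (T ∩ {p | ρ p (g • p)}) ≠ ⊤ := by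
    have h1 : ∀ g : G, ν (T ∩ {p | ρ p (g • p)}) =
        ν ((fun p : Z => g⁻¹ • p) ⁻¹' (T ∩ {p | ρ p (g • p)})) := fun g =>
      ((hF.mp g⁻¹).measure_preimage (hTm.inter (hρ.meas g)).nullMeasurableSet).symm
    rw [tsum_congr h1, ← measure_iUnion hdisj hms]
    exact measure_ne_top _ _
  have hTz : ν T = 0 := by
    have := ae_finite_setOf_mem hsum
    rw [ae_iff] at this
    refine measure_mono_null ?_ this
    intro p hp
    simp only [Set.mem_setOf_eq]
    refine (hinf p (hTD hp)).mono ?_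
    intro g hg
    exact ⟨hp, hg⟩
  have htend := tendsto_measure_iInter_atTop (μ := ν) (s := mkB G ρ f D)
    (fun n => (hm n).nullMeasurableSet) mkB_anti ⟨0, measure_ne_top _ _⟩
  rw [← hT, hTz] at htend
  obtain ⟨n, hn⟩ := (htend.eventually (gt_mem_nhds (pos_iff_ne_zero.mpr hη))).exists
  refine ⟨mkB G ρ f D n, mkB_anti (Nat.zero_le n), hm n, hn.le, fun p hp => ?_⟩
  obtain ⟨g, hg1, hg2⟩ := (mkB_inf (f := f) hρ.orb he hinv hinf n hp).nonempty
  exact ⟨g • p, hg2, hg1⟩

end Marker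

end Crest.Agent.R191
end

-- ▼ part R191/Contract
section

/-!
Row 191 (S0291), module M3: the contraction lemma.
-/

set_option autoImplicit false

namespace Crest.Agent.R191

open MeasureTheory Set
open scoped ENNReal

namespace Contr

variable {G Z : Type*} [Group G] [MulAction G Z]

/-- Group element of a move. -/
def elt (i : G × Bool) : G := if i.2 then i.1 else i.1⁻¹

/-- Validity of a move at `p`. -/
def valid (Φ : G → Set Z) (i : G × Bool) (p : Z) : Prop :=
  if i.2 then p ∈ Φ i.1 else i.1⁻¹ • p ∈ Φ i.1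

/-- Balls around `A`. -/
def ball (Φ : G → Set Z) (A : Set Z) : ℕ → Set Z
  | 0 => A
  | n + 1 => ball Φ A n ∪ {p | ∃ i, valid Φ i p ∧ elt i • p ∈ ball Φ A n}

lemma ball_succ (Φ : G → Set Z) (A : Set Z) (n : ℕ) :
    ball Φ A (n + 1) = ball Φ A n ∪ {p | ∃ i, valid Φ i p ∧ elt i • p ∈ ball Φ A n} := rfl

lemma exists_ball (Φ : G → Set Z) (A : Set Z) (S : Z → Z → Prop)
    (hS : ∀ p q, S p q → p ∈ A ∧ q ∈ A) {p q : Z} (h : Gen S Φ p q) :
    (∃ n, p ∈ ball Φ A n) ↔ (∃ n, q ∈ ball Φ A n) := by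
  induction h with
  | rel p q h =>
    rcases h with h | ⟨g, hg, rfl⟩
    · have := hS p q h
      exact ⟨fun _ => ⟨0, this.2⟩, fun _ => ⟨0, this.1⟩⟩
    · constructor
      · rintro ⟨n, hn⟩
        refine ⟨n + 1, Or.inr ⟨(g, false), ?_, ?_⟩⟩
        · simpa [valid] using hg
        · simpa [elt] using hn
      · rintro ⟨n, hn⟩
        refine ⟨n + 1, Or.inr ⟨(g, true), ?_, ?_⟩⟩
        · simpa [valid] using hg
        · simpa [elt] using hn
  | refl p => exact Iff.rfl
  | symm p q _ ih => exact ih.symm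
  | trans p q r _ _ ih1 ih2 => exact ih1.trans ih2

section measurability

variable [MeasurableSpace Z] (hm : ∀ g : G, Measurable (fun p : Z => g • p))

include hm in
lemma measurableSet_valid (Φ : G → Set Z) (hΦ : ∀ g, MeasurableSet (Φ g)) (i : G × Bool) :
    MeasurableSet {p | valid Φ i p} := by
  rcases i with ⟨g, b⟩
  cases b
  · have : {p | valid Φ (g, false) p} = (fun p : Z => g⁻¹ • p) ⁻¹' Φ g := by
      ext p; simp [valid]
    rw [this]; exact hm g⁻¹ (hΦ g)
  · have : {p | valid Φ (g, true) p} = Φ g := by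
      ext p; simp [valid]
    rw [this]; exact hΦ g

include hm in
lemma measurableSet_ball [Countable G] (Φ : G → Set Z) (hΦ : ∀ g, MeasurableSet (Φ g)) (A : Set Z)
    (hA : MeasurableSet A) (n : ℕ) : MeasurableSet (ball Φ A n) := by
  induction n with
  | zero => exact hA
  | succ n ih =>
    rw [ball_succ]
    refine ih.union ?_
    have : {p | ∃ i, valid Φ i p ∧ elt i • p ∈ ball Φ A n}
        = ⋃ i : G × Bool, ({p | valid Φ i p} ∩ (fun p : Z => elt i • p) ⁻¹' (ball Φ A n)) := by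
      ext p; simp
    rw [this]
    exact MeasurableSet.iUnion fun i => (measurableSet_valid hm Φ hΦ i).inter (hm _ ih)

end measurability

end Contr

open Contr in
/-- **Contraction lemma.** -/
theorem contraction {G Z : Type*} [Group G] [Countable G] [MulAction G Z] [MeasurableSpace Z]
    (ν : Measure Z) (hinv : ∀ g : G, MeasurePreserving (fun p : Z => g • p) ν ν)
    (Φ : G → Set Z) (hΦ : ∀ g, MeasurableSet (Φ g)) (A : Set Z) (hA : MeasurableSet A)
    (S : Z → Z → Prop) (hS : ∀ p q, S p q → p ∈ A ∧ q ∈ A)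
    (hgen : ∀ p, ∃ a ∈ A, Gen S Φ p a) :
    ∃ Ψ : G → Set Z, (∀ g, MeasurableSet (Ψ g)) ∧ (∀ g, Ψ g ⊆ A) ∧ (∀ g, ∀ p ∈ Ψ g, g • p ∈ A) ∧
      (∀ p ∈ A, ∀ q ∈ A, Gen S Φ p q ↔ Gen S Ψ p q) ∧
      (∀ p q, Gen S Ψ p q → Gen S Φ p q) ∧
      ∑' g, ν (Ψ g) + ν Aᶜ ≤ ∑' g, ν (Φ g) := by
  classical
  have hm : ∀ g : G, Measurable (fun p : Z => g • p) := fun g => (hinv g).measurable
  -- distance
  have hU : ∀ p, ∃ n, p ∈ ball Φ A n := by
    intro p
    obtain ⟨a, ha, hpa⟩ := hgen p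
    exact (exists_ball Φ A S hS hpa).2 ⟨0, ha⟩
  let d : Z → ℕ := fun p => Nat.find (hU p)
  have hd_mem : ∀ p, p ∈ ball Φ A (d p) := fun p => Nat.find_spec (hU p)
  have hd_le : ∀ p n, p ∈ ball Φ A n → d p ≤ n := fun p n h => Nat.find_min' (hU p) h
  have hd0 : ∀ p, p ∈ A → d p = 0 := fun p hp => Nat.le_zero.1 (hd_le p 0 hp)
  have hd0' : ∀ p, d p = 0 → p ∈ A := fun p hp => by
    have := hd_mem p
    rw [hp] at this
    exact this
  have hball_mono : ∀ n, ball Φ A n ⊆ ball Φ A (n + 1) := fun n => subset_union_left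
  have hball_mono' : ∀ m n, m ≤ n → ball Φ A m ⊆ ball Φ A n := by
    intro m n hmn
    induction hmn with
    | refl => exact Subset.rfl
    | step _ ih => exact ih.trans (hball_mono _)
  have hd_iff : ∀ p n, d p ≤ n ↔ p ∈ ball Φ A n := fun p n =>
    ⟨fun h => hball_mono' _ _ h (hd_mem p), hd_le p n⟩
  -- good moves
  let Q : G × Bool → Z → Prop := fun i p => valid Φ i p ∧ d (elt i • p) < d p
  have hQ : ∀ p, p ∉ A → ∃ i, Q i p := by
    intro p hp
    obtain ⟨n, hn⟩ : ∃ n, d p = n + 1 := by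
      rcases Nat.eq_zero_or_pos (d p) with h | h
      · exact absurd (hd0' p h) hp
      · exact ⟨d p - 1, by omega⟩
    have h1 := hd_mem p
    rw [hn, ball_succ] at h1
    rcases h1 with h1 | ⟨i, hi, hi'⟩
    · have := hd_le p n h1
      omega
    · refine ⟨i, hi, ?_⟩
      have := hd_le _ n hi'
      omega
  obtain ⟨e, he⟩ := exists_injective_nat (G × Bool)
  -- the chosen move
  have hchoice : ∀ p, ∃ i : G × Bool, p ∉ A → (Q i p ∧ ∀ j, Q j p → e i ≤ e j) := by
    intro p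
    by_cases hp : p ∈ A
    · exact ⟨(1, true), fun h => absurd hp h⟩
    · have hne : {i | Q i p}.Nonempty := hQ p hp
      obtain ⟨i, hi, hmin⟩ := (WellFounded.has_min (measure e).wf {i | Q i p} hne)
      refine ⟨i, fun _ => ⟨hi, fun j hj => ?_⟩⟩
      by_contra hlt
      exact hmin j hj (not_le.1 hlt)
  choose c hc using hchoice
  have hc_iff : ∀ p, p ∉ A → ∀ i, c p = i ↔ (Q i p ∧ ∀ j, Q j p → e i ≤ e j) := by
    intro p hp i
    constructor
    · rintro rfl
      exact hc p hp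
    · rintro ⟨h1, h2⟩
      exact he (le_antisymm ((hc p hp).2 i h1) (h2 _ (hc p hp).1))
  -- measurability of d and Q
  have hdm : ∀ n, MeasurableSet {p | d p ≤ n} := by
    intro n
    have : {p | d p ≤ n} = ball Φ A n := by ext p; exact hd_iff p n
    rw [this]; exact measurableSet_ball hm Φ hΦ A hA n
  have hdmeas : Measurable d := measurable_of_Iic (fun n => hdm n)
  have hQm : ∀ i, MeasurableSet {p | Q i p} := by
    intro i
    refine (measurableSet_valid hm Φ hΦ i).inter ?_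
    exact measurableSet_lt (hdmeas.comp (hm _)) hdmeas
  have hcm : ∀ i, MeasurableSet {p | p ∉ A ∧ c p = i} := by
    intro i
    have : {p | p ∉ A ∧ c p = i} = Aᶜ ∩ ({p | Q i p} ∩ ⋂ j : G × Bool, {p | Q j p → e i ≤ e j}) := by
      ext p
      simp only [mem_ofPred_eq, mem_inter_iff, mem_compl_iff, mem_iInter]
      constructor
      · rintro ⟨hp, h⟩
        exact ⟨hp, (hc_iff p hp i).1 h⟩
      · rintro ⟨hp, h⟩
        exact ⟨hp, (hc_iff p hp i).2 h⟩
    rw [this]
    refine hA.compl.inter ((hQm i).inter (MeasurableSet.iInter fun j => ?_))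
    by_cases hij : e i ≤ e j
    · have : {p | Q j p → e i ≤ e j} = univ := by ext p; simp [hij]
      rw [this]; exact MeasurableSet.univ
    · have : {p | Q j p → e i ≤ e j} = {p | Q j p}ᶜ := by ext p; simp [hij]
      rw [this]; exact (hQm j).compl
  -- the next group element
  let nx : Z → G := fun p => if p ∈ A then 1 else elt (c p)
  let _ : MeasurableSpace G := ⊤
  have _ : MeasurableSingletonClass G := ⟨fun _ => trivial⟩
  have hnxm : Measurable nx := by
    refine measurable_to_countable' fun g => ?_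
    have : nx ⁻¹' {g} = (A ∩ {_p | (1 : G) = g}) ∪
        ⋃ i : G × Bool, ({p | p ∉ A ∧ c p = i} ∩ {_p | elt i = g}) := by
      ext p
      simp only [mem_preimage, mem_singleton_iff, mem_union, mem_inter_iff, mem_ofPred_eq,
        mem_iUnion, nx]
      by_cases hp : p ∈ A
      · simp [hp]
      · simp [hp]
    rw [this]
    refine (hA.inter (MeasurableSet.const _)).union (MeasurableSet.iUnion fun i =>
      (hcm i).inter (MeasurableSet.const _))
  have hsmul : Measurable (fun q : G × Z => q.1 • q.2) :=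
    measurable_from_prod_countable_right (fun g => hm g)
  let nxt : Z → Z := fun p => nx p • p
  have hnxtm : Measurable nxt := hsmul.comp (hnxm.prodMk measurable_id)
  -- iterated products
  let Rn : ℕ → Z → G := fun n => Nat.rec (fun _ => 1) (fun _ f p => f (nxt p) * nx p) n
  have hRn0 : ∀ p, Rn 0 p = 1 := fun _ => rfl
  have hRnS : ∀ n p, Rn (n + 1) p = Rn n (nxt p) * nx p := fun _ _ => rfl
  have hRnm : ∀ n, Measurable (Rn n) := by
    intro n
    induction n with
    | zero => exact measurable_const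
    | succ n ih =>
      have hmul : Measurable (fun q : G × G => q.1 * q.2) := measurable_of_countable _
      exact hmul.comp ((ih.comp hnxtm).prodMk hnxm)
  have hnxA : ∀ p, p ∈ A → nx p = 1 := fun p hp => by simp [nx, hp]
  have hnxtA : ∀ p, p ∈ A → nxt p = p := fun p hp => by simp [nxt, hnxA p hp]
  have hRnA : ∀ n p, p ∈ A → Rn n p = 1 := by
    intro n
    induction n with
    | zero => intro p _; rfl
    | succ n ih => intro p hp; rw [hRnS, hnxtA p hp, ih p hp, hnxA p hp, one_mul]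
  have hdnxt : ∀ p, p ∉ A → d (nxt p) < d p := by
    intro p hp
    have := (hc p hp).1.2
    simpa [nxt, nx, hp] using this
  have hRstab : ∀ n p, d p ≤ n → Rn n p = Rn (d p) p := by
    intro n
    induction n using Nat.strong_induction_on with
    | _ n ih =>
      intro p hpn
      by_cases hp : p ∈ A
      · rw [hRnA _ p hp, hRnA _ p hp]
      · have h1 := hdnxt p hp
        obtain ⟨n', rfl⟩ : ∃ n', n = n' + 1 := ⟨n - 1, by omega⟩
        obtain ⟨d', hd'⟩ : ∃ d', d p = d' + 1 := ⟨d p - 1, by omega⟩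
        rw [hd', hRnS, hRnS]
        rcases Nat.lt_or_ge d' n' with hlt | hge
        · rw [ih n' (by omega) (nxt p) (by omega), ← ih d' (by omega) (nxt p) (by omega)]
        · have : d' = n' := by omega
          rw [this]
  let R : Z → G := fun p => Rn (d p) p
  have hRA : ∀ p, p ∈ A → R p = 1 := fun p hp => hRnA _ p hp
  have hRstep : ∀ p, p ∉ A → R p = R (nxt p) * nx p := by
    intro p hp
    have h1 := hdnxt p hp
    obtain ⟨d', hd'⟩ : ∃ d', d p = d' + 1 := ⟨d p - 1, by omega⟩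
    show Rn (d p) p = Rn (d (nxt p)) (nxt p) * nx p
    rw [hd', hRnS, hRstab d' (nxt p) (by omega)]
  have hRm : Measurable R := by
    refine measurable_to_countable' fun g => ?_
    have : R ⁻¹' {g} = ⋃ n : ℕ, ({p | d p = n} ∩ Rn n ⁻¹' {g}) := by
      ext p
      simp only [mem_preimage, mem_singleton_iff, mem_iUnion, mem_inter_iff, mem_ofPred_eq, R]
      constructor
      · intro h; exact ⟨d p, rfl, h⟩
      · rintro ⟨n, rfl, h⟩; exact h
    rw [this]
    exact MeasurableSet.iUnion fun n => (hdmeas (measurableSet_singleton n)).inter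
      (hRnm n (measurableSet_singleton g))
  let r : Z → Z := fun p => R p • p
  have hrA : ∀ p, p ∈ A → r p = p := fun p hp => by simp [r, hRA p hp]
  have hrstep : ∀ p, p ∉ A → r p = r (nxt p) := by
    intro p hp
    show R p • p = R (nxt p) • nx p • p
    rw [hRstep p hp, mul_smul]
  have hrmem : ∀ p, r p ∈ A := by
    intro p
    induction hn : d p using Nat.strong_induction_on generalizing p with
    | _ n ih =>
      by_cases hp : p ∈ A
      · rw [hrA p hp]; exact hp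
      · rw [hrstep p hp]
        exact ih (d (nxt p)) (hn ▸ hdnxt p hp) _ rfl
  -- a move is a generated step
  have hmove : ∀ i p, valid Φ i p → Gen S Φ p (elt i • p) := by
    rintro ⟨g, b⟩ p hv
    cases b
    · refine Relation.EqvGen.symm _ _ (Relation.EqvGen.rel _ _ (Or.inr ⟨g, ?_, ?_⟩))
      · simpa [valid, elt] using hv
      · simp [elt]
    · exact Relation.EqvGen.rel _ _ (Or.inr ⟨g, by simpa [valid] using hv, by simp [elt]⟩)
  have hgenr : ∀ p, Gen S Φ p (r p) := by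
    intro p
    induction hn : d p using Nat.strong_induction_on generalizing p with
    | _ n ih =>
      by_cases hp : p ∈ A
      · rw [hrA p hp]; exact Relation.EqvGen.refl _
      · rw [hrstep p hp]
        have h1 : nxt p = elt (c p) • p := by simp [nxt, nx, hp]
        have h2 : Gen S Φ p (nxt p) := by
          rw [h1]; exact hmove _ _ (hc p hp).1.1
        exact Relation.EqvGen.trans _ _ _ h2 (ih (d (nxt p)) (hn ▸ hdnxt p hp) _ rfl)
  -- removed edges
  let P : G → Set Z := fun g => {q | q ∉ A ∧ c q = (g, true)}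
  let N : G → Set Z := fun g => {q | g • q ∉ A ∧ c (g • q) = (g, false)}
  have hPm : ∀ g, MeasurableSet (P g) := fun g => hcm (g, true)
  have hNm : ∀ g, MeasurableSet (N g) := fun g => hm g (hcm (g, false))
  have hPsub : ∀ g, P g ⊆ Φ g := by
    rintro g q ⟨hq, hcq⟩
    have := (hc q hq).1.1
    rw [hcq] at this
    simpa [valid] using this
  have hNsub : ∀ g, N g ⊆ Φ g := by
    rintro g q ⟨hq, hcq⟩
    have := (hc (g • q) hq).1.1
    rw [hcq] at this
    simpa [valid] using this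
  have hPN : ∀ g, Disjoint (P g) (N g) := by
    intro g
    rw [Set.disjoint_left]
    rintro q ⟨hq, hcq⟩ ⟨hq', hcq'⟩
    have h1 := (hc q hq).1.2
    have h2 := (hc (g • q) hq').1.2
    rw [hcq] at h1
    rw [hcq'] at h2
    simp only [elt, if_true] at h1
    simp only [elt] at h2
    simp only [Bool.false_eq_true, if_false, inv_smul_smul] at h2
    omega
  let K : G → Set Z := fun g => Φ g \ (P g ∪ N g)
  have hKm : ∀ g, MeasurableSet (K g) := fun g => (hΦ g).diff ((hPm g).union (hNm g))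
  -- the new graphing
  let T : G → G → G → Set Z := fun k g h =>
    {q | q ∈ K g ∧ R q = h ∧ k = R (g • q) * g * h⁻¹}
  let Ψ : G → Set Z := fun k => {a | ∃ g h : G, h⁻¹ • a ∈ T k g h}
  have hTm : ∀ k g h, MeasurableSet (T k g h) := by
    intro k g h
    refine (hKm g).inter ((hRm (measurableSet_singleton h)).inter ?_)
    have h2 : Measurable (fun q : Z => R (g • q)) := hRm.comp (hm g)
    have h3 : MeasurableSet {x : G | k = x * g * h⁻¹} := trivial
    exact h2 h3
  have hΨU : ∀ k, Ψ k = ⋃ gh : G × G, (fun a : Z => gh.2⁻¹ • a) ⁻¹' T k gh.1 gh.2 := by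
    intro k
    ext a
    simp [Ψ]
  have hΨm : ∀ k, MeasurableSet (Ψ k) := by
    intro k
    rw [hΨU]
    exact MeasurableSet.iUnion fun gh => hm _ (hTm _ _ _)
  have hΨchar : ∀ k a, a ∈ Ψ k → ∃ g q, q ∈ K g ∧ a = r q ∧ k • a = r (g • q) := by
    rintro k a ⟨g, h, hq, hR, hk⟩
    refine ⟨g, h⁻¹ • a, hq, ?_, ?_⟩
    · show a = R (h⁻¹ • a) • h⁻¹ • a
      rw [hR, smul_inv_smul]
    · show k • a = R (g • h⁻¹ • a) • g • h⁻¹ • a
      rw [← mul_smul, ← mul_smul, ← hk]
  have hΨA : ∀ k, Ψ k ⊆ A := by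
    intro k a ha
    obtain ⟨g, q, _, h1, _⟩ := hΨchar k a ha
    rw [h1]; exact hrmem q
  have hΨA' : ∀ k, ∀ a ∈ Ψ k, k • a ∈ A := by
    intro k a ha
    obtain ⟨g, q, _, _, h1⟩ := hΨchar k a ha
    rw [h1]; exact hrmem _
  have hback : ∀ p q, Gen S Ψ p q → Gen S Φ p q := by
    intro p q h
    induction h with
    | rel p q h =>
      rcases h with h | ⟨k, hk, rfl⟩
      · exact Relation.EqvGen.rel _ _ (Or.inl h)
      · obtain ⟨g, q, hq, h1, h2⟩ := hΨchar k p hk
        rw [h1] at h2 ⊢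
        rw [h2]
        have e1 : Gen S Φ (r q) q := Relation.EqvGen.symm _ _ (hgenr q)
        have e2 : Gen S Φ q (g • q) := Relation.EqvGen.rel _ _ (Or.inr ⟨g, hq.1, rfl⟩)
        exact Relation.EqvGen.trans _ _ _ e1 (Relation.EqvGen.trans _ _ _ e2 (hgenr _))
    | refl p => exact Relation.EqvGen.refl _
    | symm p q _ ih => exact Relation.EqvGen.symm _ _ ih
    | trans p q s _ _ ih1 ih2 => exact Relation.EqvGen.trans _ _ _ ih1 ih2
  have hforw : ∀ p q, Gen S Φ p q → Gen S Ψ (r p) (r q) := by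
    intro p q h
    induction h with
    | rel p q h =>
      rcases h with h | ⟨g, hg, rfl⟩
      · have := hS p q h
        rw [hrA p this.1, hrA q this.2]
        exact Relation.EqvGen.rel _ _ (Or.inl h)
      · by_cases hPg : p ∈ P g
        · obtain ⟨hp, hcp⟩ := hPg
          have : nxt p = g • p := by simp [nxt, nx, hp, hcp, elt]
          rw [hrstep p hp, this]
          exact Relation.EqvGen.refl _
        by_cases hNg : p ∈ N g
        · obtain ⟨hp, hcp⟩ := hNg
          have : nxt (g • p) = p := by simp [nxt, nx, hp, hcp, elt]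
          rw [hrstep _ hp, this]
          exact Relation.EqvGen.refl _
        have hK : p ∈ K g := ⟨hg, by simp only [mem_union, not_or]; exact ⟨hPg, hNg⟩⟩
        refine Relation.EqvGen.rel _ _ (Or.inr ⟨R (g • p) * g * (R p)⁻¹, ?_, ?_⟩)
        · refine ⟨g, R p, ?_⟩
          have : (R p)⁻¹ • r p = p := by simp [r]
          rw [this]
          exact ⟨hK, rfl, rfl⟩
        · simp [r, mul_smul]
    | refl p => exact Relation.EqvGen.refl _
    | symm p q _ ih => exact Relation.EqvGen.symm _ _ ih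
    | trans p q s _ _ ih1 ih2 => exact Relation.EqvGen.trans _ _ _ ih1 ih2
  refine ⟨Ψ, hΨm, hΨA, hΨA', ?_, hback, ?_⟩
  · intro p hp q hq
    constructor
    · intro h
      have := hforw p q h
      rwa [hrA p hp, hrA q hq] at this
    · exact hback p q
  · -- cost
    have hKcost : ∑' k, ν (Ψ k) ≤ ∑' g, ν (K g) := by
      have h1 : ∀ k, ν (Ψ k) ≤ ∑' gh : G × G, ν (T k gh.1 gh.2) := by
        intro k
        rw [hΨU]
        refine (measure_iUnion_le _).trans ?_
        refine ENNReal.tsum_le_tsum fun gh => ?_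
        rw [(hinv gh.2⁻¹).measure_preimage (hTm _ _ _).nullMeasurableSet]
      have h2 : ∀ g, ∑' hk : G × G, ν (T hk.2 g hk.1) = ν (K g) := by
        intro g
        let F : Z → G × G := fun q => (R q, R (g • q) * g * (R q)⁻¹)
        have hF : Measurable F := by
          refine hRm.prodMk ?_
          have hmul : Measurable (fun q : G × G => q.1 * g * q.2⁻¹) := measurable_of_countable _
          exact hmul.comp ((hRm.comp (hm g)).prodMk hRm)
        have hT : ∀ hk : G × G, T hk.2 g hk.1 = F ⁻¹' {hk} ∩ K g := by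
          rintro ⟨h, k⟩
          ext q
          simp only [T, F, mem_ofPred_eq, mem_inter_iff, mem_preimage, mem_singleton_iff, Prod.mk.injEq]
          constructor
          · rintro ⟨h1, h2, h3⟩
            exact ⟨⟨h2, by rw [h3, h2]⟩, h1⟩
          · rintro ⟨⟨h2, h3⟩, h1⟩
            exact ⟨h1, h2, by rw [← h3, h2]⟩
        have h3 : ∀ hk : G × G, ν (T hk.2 g hk.1) = (ν.restrict (K g)) (F ⁻¹' {hk}) := by
          intro hk
          rw [hT, Measure.restrict_apply (hF (measurableSet_singleton _))]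
        simp only [h3]
        have h4 : (ν.restrict (K g)) (F ⁻¹' (univ : Set (G × G))) = ν (K g) := by
          simp
        rw [← h4, ← tsum_measure_preimage_singleton (countable_univ)
          (fun y _ => hF (measurableSet_singleton y))]
        exact (tsum_univ (fun y : G × G => (ν.restrict (K g)) (F ⁻¹' {y}))).symm
      calc ∑' k, ν (Ψ k) ≤ ∑' k, ∑' gh : G × G, ν (T k gh.1 gh.2) := ENNReal.tsum_le_tsum h1
        _ = ∑' k, ∑' g, ∑' h, ν (T k g h) := by
            refine tsum_congr fun k => ?_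
            exact ENNReal.tsum_prod (f := fun g h => ν (T k g h))
        _ = ∑' g, ∑' k, ∑' h, ν (T k g h) := ENNReal.tsum_comm
        _ = ∑' g, ∑' h, ∑' k, ν (T k g h) := by
            refine tsum_congr fun g => ?_
            exact ENNReal.tsum_comm
        _ = ∑' g, ∑' hk : G × G, ν (T hk.2 g hk.1) := by
            refine tsum_congr fun g => ?_
            exact (ENNReal.tsum_prod (f := fun h k => ν (T k g h))).symm
        _ = ∑' g, ν (K g) := tsum_congr h2
    have hΦcost : ∑' g, ν (Φ g) = ∑' g, ν (K g) + (∑' g, ν (P g) + ∑' g, ν (N g)) := by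
      rw [← ENNReal.tsum_add, ← ENNReal.tsum_add]
      refine tsum_congr fun g => ?_
      rw [← measure_union (hPN g) (hNm g)]
      rw [add_comm, ← measure_union disjoint_sdiff_right (hKm g)]
      congr 1
      exact (union_sdiff_cancel (union_subset (hPsub g) (hNsub g))).symm
    have hAc : ν Aᶜ = ∑' g, ν (P g) + ∑' g, ν (N g) := by
      have h1 : ∀ g, ν (N g) = ν {p | p ∉ A ∧ c p = (g, false)} := fun g =>
        (hinv g).measure_preimage (hcm (g, false)).nullMeasurableSet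
      simp only [h1]
      rw [← ENNReal.tsum_add]
      have h2 : Aᶜ = ⋃ i : G × Bool, {p | p ∉ A ∧ c p = i} := by
        ext p; simp
      rw [h2, measure_iUnion ?_ hcm]
      · rw [ENNReal.tsum_prod (f := fun g b => ν {p | p ∉ A ∧ c p = (g, b)})]
        refine tsum_congr fun g => ?_
        rw [tsum_bool]
        rw [add_comm]
      · intro i j hij
        rw [Function.onFun, Set.disjoint_left]
        rintro p ⟨_, h1⟩ ⟨_, h2⟩
        exact hij (h1.symm.trans h2)
    rw [hΦcost, hAc]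
    gcongr

/-- T4: contraction lemma, in the form of the interface. -/
theorem contract {G Z : Type*} [Group G] [Countable G] [MulAction G Z] [MeasurableSpace Z]
    {ν : Measure Z} [IsFiniteMeasure ν]
    (hF : FreeAct G Z ν) {S : Z → Z → Prop} {A : Set Z} (hA : MeasurableSet A)
    (hS : ∀ p q, S p q → p ∈ A ∧ q ∈ A) {Φ : Gr G Z} (hΦ : Φ.Meas)
    (hconn : ∀ p, ∃ q ∈ A, Gen S Φ p q) :
    ∃ Ψ : Gr G Z, Ψ.Meas ∧ (∀ g, Ψ g ⊆ A) ∧ (∀ g, ∀ p ∈ Ψ g, g • p ∈ A) ∧
      (∀ p q, Ψ.Step p q → Gen S Φ p q) ∧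
      (∀ p ∈ A, ∀ q ∈ A, Gen S Φ p q → Gen S Ψ p q) ∧
      Ψ.cost ν + ν Aᶜ ≤ Φ.cost ν := by
  obtain ⟨Ψ, h1, h2, h3, h4, h5, h6⟩ := contraction ν hF.mp Φ hΦ A hA S hS hconn
  exact ⟨Ψ, h1, h2, h3, fun p q h => h5 p q (Relation.EqvGen.rel _ _ (Or.inr h)),
    fun p hp q hq h => (h4 p hp q hq).1 h, h6⟩

end Crest.Agent.R191
end

-- ▼ part R191/CountLemma
section

/-! Row 191, T3: count lemma for graphings (and the two measure-theoretic tools
`exists_selector`, `measure_le_of_inj`). -/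

set_option autoImplicit false

namespace Crest.Agent.R191

open MeasureTheory Set
open scoped ENNReal

/-- measurable selection of an index. -/
lemma exists_selector {ι Z : Type*} [Countable ι] [Nonempty ι] [MeasurableSpace Z]
    (Q : ι → Set Z) (hQ : ∀ i, MeasurableSet (Q i)) :
    ∃ s : Z → ι, (∀ i, MeasurableSet {p | s p = i}) ∧ ∀ p, (∃ i, p ∈ Q i) → p ∈ Q (s p) := by
  classical
  obtain ⟨code, hcode⟩ := Countable.exists_injective_nat ι
  have hex : ∀ p, (∃ i, p ∈ Q i) → ∃ n, ∃ i, code i = n ∧ p ∈ Q i := by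
    rintro p ⟨i, hi⟩
    exact ⟨code i, i, rfl, hi⟩
  let d : ι := Classical.arbitrary ι
  let s : Z → ι := fun p =>
    if h : ∃ i, p ∈ Q i then Classical.choose (Nat.find_spec (hex p h)) else d
  have hs : ∀ p (h : ∃ i, p ∈ Q i), code (s p) = Nat.find (hex p h) ∧ p ∈ Q (s p) := by
    intro p h
    have := Classical.choose_spec (Nat.find_spec (hex p h))
    simp only [s, h, dif_pos]
    exact this
  refine ⟨s, ?_, fun p h => (hs p h).2⟩
  intro i
  have hset : {p | s p = i} = (Q i ∩ ⋂ (j : ι) (_ : code j < code i), (Q j)ᶜ) ∪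
      (if i = d then ⋂ j, (Q j)ᶜ else ∅) := by
    ext p
    simp only [Set.mem_ofPred_eq, Set.mem_union, Set.mem_inter_iff, Set.mem_iInter,
      Set.mem_compl_iff]
    constructor
    · intro hp
      by_cases h : ∃ i, p ∈ Q i
      · left
        have h2 := hs p h
        rw [hp] at h2
        refine ⟨h2.2, ?_⟩
        intro j hj hpj
        rw [h2.1] at hj
        exact Nat.find_min (hex p h) hj ⟨j, rfl, hpj⟩
      · right
        have : s p = d := by simp only [s, h, dif_neg, not_false_eq_true]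
        rw [this] at hp
        subst hp
        simp only [if_true, Set.mem_iInter, Set.mem_compl_iff]
        intro j hj
        exact h ⟨j, hj⟩
    · rintro (⟨h1, h2⟩ | h)
      · have h : ∃ i, p ∈ Q i := ⟨i, h1⟩
        have h3 := hs p h
        apply hcode
        rw [h3.1]
        apply le_antisymm
        · exact Nat.find_min' (hex p h) ⟨i, rfl, h1⟩
        · by_contra hlt
          push Not at hlt
          rw [← h3.1] at hlt
          exact h2 _ hlt h3.2
      · split_ifs at h with hi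
        · subst hi
          simp only [Set.mem_iInter, Set.mem_compl_iff] at h
          have : ¬ ∃ i, p ∈ Q i := by
            rintro ⟨j, hj⟩
            exact h j hj
          simp only [s, this, dif_neg, not_false_eq_true]
        · exact absurd h (Set.notMem_empty _)
  rw [hset]
  apply MeasurableSet.union
  · apply (hQ i).inter
    apply MeasurableSet.iInter
    intro j
    apply MeasurableSet.iInter
    intro _
    exact (hQ j).compl
  · split_ifs
    · exact MeasurableSet.iInter fun j => (hQ j).compl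
    · exact MeasurableSet.empty

section

variable {G Z : Type*} [Group G] [MulAction G Z] [MeasurableSpace Z] {ν : Measure Z}

/-- A measurable injection `p ↦ (gi p, hf p • p)` of `T` into the disjoint union of the `J i`
gives `ν T ≤ ∑ ν (J i)`. -/
lemma measure_le_of_inj {ι : Type*} [Countable ι] [Countable G]
    (hinv : ∀ g : G, MeasurePreserving (fun x : Z => g • x) ν ν)
    {T : Set Z} (hT : MeasurableSet T) (gi : Z → ι) (hf : Z → G)
    (mg : ∀ i, MeasurableSet {p | gi p = i}) (mh : ∀ h, MeasurableSet {p | hf p = h})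
    (J : ι → Set Z)
    (hin : ∀ p ∈ T, hf p • p ∈ J (gi p))
    (hinj : ∀ p ∈ T, ∀ q ∈ T, gi p = gi q → hf p • p = hf q • q → p = q) :
    ν T ≤ ∑' i, ν (J i) := by
  classical
  let Tih : ι → G → Set Z := fun i h => {p | p ∈ T ∧ gi p = i ∧ hf p = h}
  have mT : ∀ i h, MeasurableSet (Tih i h) := by
    intro i h
    exact hT.inter ((mg i).inter (mh h))
  have h1 : ν T ≤ ∑' i, ∑' h, ν (Tih i h) := by
    calc ν T ≤ ν (⋃ i, ⋃ h, Tih i h) := by
          apply measure_mono
          intro p hp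
          simp only [Set.mem_iUnion]
          exact ⟨gi p, hf p, hp, rfl, rfl⟩
      _ ≤ ∑' i, ν (⋃ h, Tih i h) := measure_iUnion_le _
      _ ≤ ∑' i, ∑' h, ν (Tih i h) := ENNReal.tsum_le_tsum fun i => measure_iUnion_le _
  refine h1.trans (ENNReal.tsum_le_tsum fun i => ?_)
  let U : G → Set Z := fun h => (fun x : Z => h⁻¹ • x) ⁻¹' (Tih i h)
  have hU : ∀ h, ν (Tih i h) = ν (U h) := by
    intro h
    exact ((hinv h⁻¹).measure_preimage (mT i h).nullMeasurableSet).symm
  have mU : ∀ h, MeasurableSet (U h) := fun h => (hinv h⁻¹).measurable (mT i h)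
  have hdisj : Pairwise (Function.onFun Disjoint U) := by
    intro h h' hne
    rw [Function.onFun, Set.disjoint_left]
    intro u hu hu'
    simp only [U, Tih, Set.mem_preimage, Set.mem_ofPred_eq] at hu hu'
    obtain ⟨a1, a2, a3⟩ := hu
    obtain ⟨b1, b2, b3⟩ := hu'
    have := hinj _ a1 _ b1 (a2.trans b2.symm) (by rw [a3, b3]; simp)
    rw [this] at a3
    exact hne (a3.symm.trans b3)
  calc ∑' h, ν (Tih i h) = ∑' h, ν (U h) := by simp_rw [hU]
    _ = ν (⋃ h, U h) := (measure_iUnion hdisj mU).symm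
    _ ≤ ν (J i) := by
        apply measure_mono
        intro u hu
        simp only [Set.mem_iUnion] at hu
        obtain ⟨h, hu⟩ := hu
        simp only [U, Tih, Set.mem_preimage, Set.mem_ofPred_eq] at hu
        obtain ⟨a1, a2, a3⟩ := hu
        have := hin _ a1
        rw [a2, a3] at this
        simpa using this

/-- points at which the edge with code `i = (g, s)` starts: `s = true` is the edge
`p → g • p` (`p ∈ Φ g`), `s = false` is the inverse edge `p → g⁻¹ • p` (`g⁻¹ • p ∈ Φ g`). -/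
def EdgeAt (Φ : G → Set Z) (i : G × Bool) : Set Z :=
  if i.2 then Φ i.1 else {p | i.1⁻¹ • p ∈ Φ i.1}

/-- group element moving `p` along the edge `i` -/
def edgeMv (i : G × Bool) : G := if i.2 then i.1 else i.1⁻¹

lemma measurable_EdgeAt (hF : FreeAct G Z ν) {Φ : Gr G Z} (hΦ : Φ.Meas) (i : G × Bool) :
    MeasurableSet (EdgeAt Φ i) := by
  unfold EdgeAt
  split_ifs
  · exact hΦ _
  · exact (hF.mp i.1⁻¹).measurable (hΦ i.1)

/-- the neighbourhoods of `Rt` in the graph of `S`-classes with edges `J` -/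
def Bn (S : Z → Z → Prop) (J : Gr G Z) (Rt : Set Z) : ℕ → Set Z
  | 0 => {p | ∃ q ∈ Rt, S p q}
  | n + 1 => Bn S J Rt n ∪ {p | ∃ (h : G) (i : G × Bool), S p (h • p) ∧
      h • p ∈ EdgeAt J i ∧ edgeMv i • (h • p) ∈ Bn S J Rt n}

omit [MeasurableSpace Z] in
lemma Bn_mono (S : Z → Z → Prop) (J : Gr G Z) (Rt : Set Z) : Monotone (Bn S J Rt) :=
  monotone_nat_of_le_succ fun n => by
    intro p hp
    exact Or.inl hp

lemma Bn_sat {S : Z → Z → Prop} (hS : MRel G S) (hSe : Equivalence S) (J : Gr G Z)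
    (Rt : Set Z) (n : ℕ) : ∀ p p', S p p' → p' ∈ Bn S J Rt n → p ∈ Bn S J Rt n := by
  induction n with
  | zero =>
    rintro p p' hpp' ⟨q, hq, hq'⟩
    exact ⟨q, hq, hSe.trans hpp' hq'⟩
  | succ n ih =>
    intro p p' hpp' hp'
    rcases hp' with hp' | ⟨h, i, h1, h2, h3⟩
    · exact Or.inl (ih p p' hpp' hp')
    · right
      obtain ⟨k, hk⟩ := hS.orb p p' hpp'
      have e1 : (h * k) • p = h • p' := by rw [mul_smul, ← hk]
      refine ⟨h * k, i, ?_, ?_, ?_⟩
      · rw [e1]; exact hSe.trans hpp' h1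
      · rw [e1]; exact h2
      · rw [e1]; exact h3

lemma measurable_Bn [Countable G] (hF : FreeAct G Z ν) {S : Z → Z → Prop} (hS : MRel G S)
    {J : Gr G Z} (hJ : J.Meas) {Rt : Set Z} (hRt : MeasurableSet Rt) (n : ℕ) :
    MeasurableSet (Bn S J Rt n) := by
  induction n with
  | zero =>
    have : Bn S J Rt 0 = ⋃ g : G, ({p | S p (g • p)} ∩ (fun p : Z => g • p) ⁻¹' Rt) := by
      ext p
      simp only [Bn, Set.mem_iUnion, Set.mem_inter_iff, Set.mem_ofPred_eq, Set.mem_preimage]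
      constructor
      · rintro ⟨q, hq, hq'⟩
        obtain ⟨g, rfl⟩ := hS.orb p q hq'
        exact ⟨g, hq', hq⟩
      · rintro ⟨g, h1, h2⟩
        exact ⟨g • p, h2, h1⟩
    rw [this]
    exact MeasurableSet.iUnion fun g => (hS.meas g).inter ((hF.mp g).measurable hRt)
  | succ n ih =>
    have : Bn S J Rt (n + 1) = Bn S J Rt n ∪ ⋃ h : G, ⋃ i : G × Bool,
        ({p | S p (h • p)} ∩ ((fun p : Z => h • p) ⁻¹' (EdgeAt J i) ∩
          (fun p : Z => h • p) ⁻¹' ((fun p : Z => edgeMv i • p) ⁻¹' (Bn S J Rt n)))) := by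
      ext p
      simp only [Bn, Set.mem_union, Set.mem_iUnion, Set.mem_inter_iff, Set.mem_ofPred_eq,
        Set.mem_preimage]
    rw [this]
    refine ih.union (MeasurableSet.iUnion fun h => MeasurableSet.iUnion fun i => ?_)
    exact (hS.meas h).inter (((hF.mp h).measurable (measurable_EdgeAt hF hJ i)).inter
      ((hF.mp h).measurable ((hF.mp (edgeMv i)).measurable ih)))

lemma mem_Bn_of_gen {S : Z → Z → Prop} (hS : MRel G S) (hSe : Equivalence S) (J : Gr G Z)
    (Rt : Set Z) {p q : Z} (h : Gen S J p q) :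
    (∃ n, p ∈ Bn S J Rt n) ↔ (∃ n, q ∈ Bn S J Rt n) := by
  induction h with
  | rel p q h =>
    rcases h with h | ⟨g, hg, rfl⟩
    · constructor
      · rintro ⟨n, hn⟩
        exact ⟨n, Bn_sat hS hSe J Rt n q p (hSe.symm h) hn⟩
      · rintro ⟨n, hn⟩
        exact ⟨n, Bn_sat hS hSe J Rt n p q h hn⟩
    · constructor
      · rintro ⟨n, hn⟩
        refine ⟨n + 1, Or.inr ⟨1, (g, false), ?_, ?_, ?_⟩⟩
        · rw [one_smul]; exact hSe.refl _
        · simpa [EdgeAt] using hg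
        · simpa [edgeMv] using hn
      · rintro ⟨n, hn⟩
        refine ⟨n + 1, Or.inr ⟨1, (g, true), ?_, ?_, ?_⟩⟩
        · rw [one_smul]; exact hSe.refl _
        · simpa [EdgeAt] using hg
        · simpa [edgeMv] using hn
  | refl p => exact Iff.rfl
  | symm p q _ ih => exact ih.symm
  | trans p q r _ _ ih1 ih2 => exact ih1.trans ih2

/-- **Count lemma** (T3). -/
theorem count_le [Countable G] [IsFiniteMeasure ν] (hF : FreeAct G Z ν) {S : Z → Z → Prop}
    (hS : MRel G S) (hSe : Equivalence S)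
    {J : Gr G Z} (hJ : J.Meas) {Rt T : Set Z} (hRt : MeasurableSet Rt) (hT : MeasurableSet T)
    (h1 : ∀ p ∈ T, ∀ q ∈ T, S p q → p = q) (h2 : ∀ p ∈ T, ∀ q ∈ Rt, ¬ S p q)
    (h3 : ∀ p ∈ T, ∃ q ∈ Rt, Gen S J p q) : ν T ≤ J.cost ν := by
  classical
  set B := Bn S J Rt with hB
  have mB : ∀ n, MeasurableSet (B n) := fun n => measurable_Bn hF hS hJ hRt n
  let Q : G × (G × Bool) → Set Z := fun k => ⋃ n : ℕ,
    ((B n)ᶜ ∩ ({p | S p (k.1 • p)} ∩ ((fun p : Z => k.1 • p) ⁻¹' (EdgeAt J k.2) ∩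
          (fun p : Z => k.1 • p) ⁻¹' ((fun p : Z => edgeMv k.2 • p) ⁻¹' (B n)))))
  have mQ : ∀ k, MeasurableSet (Q k) := by
    intro k
    refine MeasurableSet.iUnion fun n => (mB n).compl.inter ?_
    exact (hS.meas k.1).inter (((hF.mp k.1).measurable (measurable_EdgeAt hF hJ k.2)).inter
      ((hF.mp k.1).measurable ((hF.mp (edgeMv k.2)).measurable (mB n))))
  obtain ⟨s, ms, hs⟩ := exists_selector Q mQ
  have hTQ : ∀ p ∈ T, p ∈ Q (s p) := by
    intro p hp
    apply hs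
    obtain ⟨q, hq, hpq⟩ := h3 p hp
    have hex : ∃ n, p ∈ B n := by
      rw [hB, mem_Bn_of_gen hS hSe J Rt hpq]
      exact ⟨0, q, hq, hSe.refl q⟩
    have h0 : p ∉ B 0 := by
      rintro ⟨q', hq', hpq'⟩
      exact h2 p hp q' hq' hpq'
    have hm : Nat.find hex ≠ 0 := by
      intro h
      have := Nat.find_spec hex
      rw [h] at this
      exact h0 this
    obtain ⟨m, hm⟩ := Nat.exists_eq_succ_of_ne_zero hm
    have hmem : p ∈ B (m + 1) := by
      have := Nat.find_spec hex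
      rw [hm] at this
      exact this
    have hnm : p ∉ B m := Nat.find_min hex (by omega)
    rcases hmem with hmem | ⟨h, i, a1, a2, a3⟩
    · exact absurd hmem hnm
    · refine ⟨(h, i), Set.mem_iUnion.mpr ⟨m, hnm, a1, a2, a3⟩⟩
  let gi : Z → G := fun p => (s p).2.1
  let hf : Z → G := fun p => if (s p).2.2 then (s p).1 else (s p).2.1⁻¹ * (s p).1
  have mgen : ∀ (f : G × (G × Bool) → G) (g : G), MeasurableSet {p | f (s p) = g} := by
    intro f g
    have : {p | f (s p) = g} = ⋃ k ∈ {k | f k = g}, {p | s p = k} := by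
      ext p
      simp
    rw [this]
    exact MeasurableSet.biUnion (Set.to_countable _) fun k _ => ms k
  have hmain := measure_le_of_inj (ν := ν) (ι := G) hF.mp hT gi hf (mgen fun k => k.2.1)
    (mgen fun k => if k.2.2 then k.1 else k.2.1⁻¹ * k.1) J ?_ ?_
  · exact hmain
  · intro p hp
    have := hTQ p hp
    simp only [Q, Set.mem_iUnion] at this
    obtain ⟨n, _, a1, a2, a3⟩ := this
    simp only [gi, hf]
    simp only [Set.mem_preimage, EdgeAt] at a2
    split_ifs at a2 ⊢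
    · exact a2
    · rw [mul_smul]; exact a2
  · intro p hp q hq hgi hpt
    have hp' := hTQ p hp
    have hq' := hTQ q hq
    simp only [Q, Set.mem_iUnion] at hp' hq'
    obtain ⟨n, a0, a1, a2, a3⟩ := hp'
    obtain ⟨m, b0, b1, b2, b3⟩ := hq'
    simp only [Set.mem_preimage, Set.mem_compl_iff, Set.mem_ofPred_eq] at a0 a1 a2 a3 b0 b1 b2 b3
    simp only [gi] at hgi
    simp only [hf] at hpt
    have key : ∀ (p q : Z) (h h' g : G) (n m : ℕ), p ∈ T → q ∈ T → p ∉ B n → S p (h • p) →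
        g • (h • p) ∈ B n → q ∉ B m → S q (h' • q) → g⁻¹ • (h' • q) ∈ B m →
        h • p = g⁻¹ • (h' • q) → False := by
      intro p q h h' g n m hp hq a0 a1 a3 b0 b1 b3 heq
      have e1 : h' • q = g • (h • p) := by rw [heq, smul_inv_smul]
      have q1 : q ∈ B n := by
        apply Bn_sat hS hSe J Rt n q (h' • q) b1
        rw [e1]; exact a3
      have p1 : p ∈ B m := by
        apply Bn_sat hS hSe J Rt m p (h • p) a1
        rw [heq]; exact b3
      rcases le_total n m with hnm | hmn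
      · exact b0 (Bn_mono S J Rt hnm q1)
      · exact a0 (Bn_mono S J Rt hmn p1)
    rcases hsp : (s p).2.2 with _ | _
    · rcases hsq : (s q).2.2 with _ | _
      · -- false false
        simp only [hsp, hsq, Bool.false_eq_true, if_false, mul_smul] at hpt
        rw [hgi] at hpt
        have e := smul_left_cancel _ hpt
        apply h1 p hp q hq
        rw [e] at a1
        exact hSe.trans a1 (hSe.symm b1)
      · -- false true
        exfalso
        simp only [hsp, hsq, Bool.false_eq_true, if_false, if_true, mul_smul] at hpt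
        have c3 : (s q).2.1 • ((s q).1 • q) ∈ B m := by
          have := b3
          simp only [edgeMv, hsq, if_true] at this
          exact this
        have d3 : (s q).2.1⁻¹ • ((s p).1 • p) ∈ B n := by
          have := a3
          simp only [edgeMv, hsp, Bool.false_eq_true, if_false] at this
          rw [hgi] at this
          exact this
        rw [hgi] at hpt
        exact key q p (s q).1 (s p).1 (s q).2.1 m n hq hp b0 b1 c3 a0 a1 d3 hpt.symm
    · rcases hsq : (s q).2.2 with _ | _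
      · -- true false
        exfalso
        simp only [hsp, hsq, Bool.false_eq_true, if_false, if_true, mul_smul] at hpt
        have c3 : (s q).2.1 • ((s p).1 • p) ∈ B n := by
          have := a3
          simp only [edgeMv, hsp, if_true] at this
          rw [hgi] at this
          exact this
        have d3 : (s q).2.1⁻¹ • ((s q).1 • q) ∈ B m := by
          have := b3
          simp only [edgeMv, hsq, Bool.false_eq_true, if_false] at this
          exact this
        exact key p q (s p).1 (s q).1 (s q).2.1 n m hp hq a0 a1 c3 b0 b1 d3 hpt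
      · -- true true
        simp only [hsp, hsq, if_true] at hpt
        apply h1 p hp q hq
        rw [hpt] at a1
        exact hSe.trans a1 (hSe.symm b1)

end

end Crest.Agent.R191
private theorem rz_fc8766d0b3 : type_of% @_root_.Crest.Agent.R191.Bn.eq_def := @_root_.Crest.Agent.R191.Bn.eq_def -- L158
private theorem rz_86ce42b671 : type_of% @_root_.Crest.Agent.R191.Bn.eq_1 := @_root_.Crest.Agent.R191.Bn.eq_1 -- L158
end

-- ▼ part R191/Round
section

/-!
# Row 191, T5: one round of the relation exchange (Theorem I)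
-/

set_option autoImplicit false
set_option linter.unusedSectionVars false
set_option linter.deprecated false

namespace Crest.Agent.R191.Rd

open MeasureTheory Set
open scoped ENNReal

section basic
variable {G Z : Type*} [Group G] [MulAction G Z]

theorem gen_equivalence (S : Z → Z → Prop) (Φ : Gr G Z) : Equivalence (Gen S Φ) :=
  Relation.EqvGen.is_equivalence _

theorem gen_le {S R : Z → Z → Prop} {Φ : Gr G Z} (hR : Equivalence R)
    (h1 : ∀ p q, S p q → R p q) (h2 : ∀ p q, Φ.Step p q → R p q) {p q : Z}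
    (h : Gen S Φ p q) : R p q := by
  induction h with
  | rel x y h => exact h.elim (h1 x y) (h2 x y)
  | refl x => exact hR.refl x
  | symm x y _ ih => exact hR.symm ih
  | trans x y z _ _ ih1 ih2 => exact hR.trans ih1 ih2

theorem gen_of_rel {S : Z → Z → Prop} {Φ : Gr G Z} {p q : Z} (h : S p q) : Gen S Φ p q :=
  Relation.EqvGen.rel _ _ (Or.inl h)

theorem gen_of_step {S : Z → Z → Prop} {Φ : Gr G Z} {p q : Z} (h : Φ.Step p q) :
    Gen S Φ p q :=
  Relation.EqvGen.rel _ _ (Or.inr h)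

/-- The empty graphing. -/
def eG (G Z : Type*) : Gr G Z := fun _ => ∅

/-- The union of two graphings. -/
def un {G Z : Type*} (Φ Ψ : Gr G Z) : Gr G Z := fun g => Φ g ∪ Ψ g

theorem step_empty {p q : Z} (h : (eG G Z).Step p q) : False := by
  obtain ⟨g, hg, _⟩ := h
  exact hg

theorem step_un {Φ Ψ : Gr G Z} {p q : Z} :
    (un Φ Ψ).Step p q ↔ Φ.Step p q ∨ Ψ.Step p q := by
  constructor
  · rintro ⟨g, hg | hg, rfl⟩
    · exact Or.inl ⟨g, hg, rfl⟩
    · exact Or.inr ⟨g, hg, rfl⟩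
  · rintro (⟨g, hg, rfl⟩ | ⟨g, hg, rfl⟩)
    · exact ⟨g, Or.inl hg, rfl⟩
    · exact ⟨g, Or.inr hg, rfl⟩

theorem or_equivalence (H : Subgroup G) : Equivalence (OR H : Z → Z → Prop) where
  refl p := ⟨1, H.one_mem, (one_smul _ _).symm⟩
  symm := by
    rintro p q ⟨h, hh, rfl⟩
    exact ⟨h⁻¹, H.inv_mem hh, by rw [inv_smul_smul]⟩
  trans := by
    rintro p q s ⟨h, hh, rfl⟩ ⟨k, hk, rfl⟩
    exact ⟨k * h, H.mul_mem hk hh, by rw [mul_smul]⟩

theorem or_mono {H K : Subgroup G} (h : H ≤ K) {p q : Z} (hp : OR H p q) : OR K p q := by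
  obtain ⟨g, hg, rfl⟩ := hp
  exact ⟨g, h hg, rfl⟩

theorem eq_of_smul (hfree : ∀ (g : G) (p : Z), g • p = p → g = 1) {g h : G} {p : Z}
    (hgh : g • p = h • p) : g = h := by
  have : (h⁻¹ * g) • p = p := by rw [mul_smul, hgh, inv_smul_smul]
  have := hfree _ _ this
  rw [inv_mul_eq_one] at this
  exact this.symm

theorem or_inf (hfree : ∀ (g : G) (p : Z), g • p = p → g = 1) {B C : Subgroup G} {p q : Z}
    (h1 : OR B p q) (h2 : OR C p q) : OR (B ⊓ C) p q := by
  obtain ⟨b, hb, rfl⟩ := h1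
  obtain ⟨c, hc, hbc⟩ := h2
  have : b = c := eq_of_smul hfree hbc
  exact ⟨b, ⟨hb, this ▸ hc⟩, rfl⟩

/-- mins of classes -/
def Mins (ρ : Z → Z → Prop) (f : Z → ℝ) : Set Z := {p | ∀ q, ρ p q → f p ≤ f q}

/-- edges from points of `K` along `r` -/
def retr (r : Z → G) (K : Set Z) : Gr G Z := fun g => {p | p ∈ K ∧ r p = g}

/-- edges from points of `K` to the minimum of the class -/
def toMin (G : Type*) {Z : Type*} [Group G] [MulAction G Z] (ρ : Z → Z → Prop) (f : Z → ℝ)
    (K : Set Z) : Gr G Z :=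
  fun g => {p | p ∈ K ∧ ρ p (g • p) ∧ (g • p) ∈ Mins ρ f}

theorem step_retr {r : Z → G} {K : Set Z} {p q : Z} :
    (retr r K).Step p q ↔ p ∈ K ∧ q = r p • p := by
  constructor
  · rintro ⟨g, ⟨hp, rfl⟩, rfl⟩
    exact ⟨hp, rfl⟩
  · rintro ⟨hp, rfl⟩
    exact ⟨r p, ⟨hp, rfl⟩, rfl⟩

theorem mins_unique {ρ : Z → Z → Prop} (hρ : Equivalence ρ) {f : Z → ℝ}
    (hf : Function.Injective f) {p q : Z} (hp : p ∈ Mins ρ f) (hq : q ∈ Mins ρ f) (h : ρ p q) :
    p = q :=
  hf (le_antisymm (hp q h) (hq p (hρ.symm h)))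

theorem exists_min {ρ : Z → Z → Prop} (hρ : Equivalence ρ)
    (hρo : ∀ p q, ρ p q → ∃ g : G, q = g • p) (f : Z → ℝ) {p : Z}
    (hfin : {g : G | ρ p (g • p)}.Finite) : ∃ q, ρ p q ∧ q ∈ Mins ρ f := by
  obtain ⟨g, hg, hmin⟩ := hfin.exists_minimalFor (fun g => f (g • p)) _
    ⟨1, by rw [mem_ofPred_eq, one_smul]; exact hρ.refl p⟩
  refine ⟨g • p, hg, fun s hs => ?_⟩
  have hps : ρ p s := hρ.trans hg hs
  obtain ⟨h, rfl⟩ := hρo p s hps
  by_contra hlt
  rw [not_le] at hlt
  exact absurd (hmin hps hlt.le) (not_le.mpr hlt)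

theorem step_toMin {ρ : Z → Z → Prop} {f : Z → ℝ} {K : Set Z}
    (hρo : ∀ p q, ρ p q → ∃ g : G, q = g • p) {p q : Z} :
    (toMin G ρ f K).Step p q ↔ p ∈ K ∧ ρ p q ∧ q ∈ Mins ρ f := by
  constructor
  · rintro ⟨g, ⟨hp, h1, h2⟩, rfl⟩
    exact ⟨hp, h1, h2⟩
  · rintro ⟨hp, h1, h2⟩
    obtain ⟨g, rfl⟩ := hρo p q h1
    exact ⟨g, ⟨hp, h1, h2⟩, rfl⟩

theorem and_equivalence {ρ σ : Z → Z → Prop} (h1 : Equivalence ρ) (h2 : Equivalence σ) :
    Equivalence (fun p q => ρ p q ∧ σ p q) where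
  refl p := ⟨h1.refl p, h2.refl p⟩
  symm h := ⟨h1.symm h.1, h2.symm h.2⟩
  trans h h' := ⟨h1.trans h.1 h'.1, h2.trans h.2 h'.2⟩

/-- The relation `(p ∈ N ↔ q ∈ N) ∧ (p ∈ N → ρ p q)` is an equivalence relation. -/
theorem split_equivalence {ρ : Z → Z → Prop} (h : Equivalence ρ) (N : Set Z) :
    Equivalence (fun p q => (p ∈ N ↔ q ∈ N) ∧ (p ∈ N → ρ p q)) where
  refl p := ⟨Iff.rfl, fun _ => h.refl p⟩
  symm h1 := ⟨h1.1.symm, fun hq => h.symm (h1.2 (h1.1.mpr hq))⟩
  trans h1 h2 := ⟨h1.1.trans h2.1, fun hp => h.trans (h1.2 hp) (h2.2 (h1.1.mp hp))⟩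

/-- If `p` is not joined to `A` by `ρ`, then its class under the relation generated by `ρ` and
pairs inside `A` is its `ρ`-class. -/
theorem gen_restr {ρ τ : Z → Z → Prop} (hρ : Equivalence ρ) {A : Set Z}
    {p q : Z} (hp : ∀ a ∈ A, ¬ ρ p a) (hτ : ∀ p q, τ p q → p ∈ A ∧ q ∈ A)
    (h : Relation.EqvGen (fun p q => τ p q ∨ ρ p q) p q) : ρ p q := by
  have key : (fun p q => (p ∈ {p | ∀ a ∈ A, ¬ ρ p a} ↔ q ∈ {p | ∀ a ∈ A, ¬ ρ p a}) ∧
      (p ∈ {p | ∀ a ∈ A, ¬ ρ p a} → ρ p q)) p q := by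
    refine (split_equivalence hρ {p | ∀ a ∈ A, ¬ ρ p a}).eqvGen_iff.mp (h.mono ?_)
    rintro x y (hxy | hxy)
    · obtain ⟨hx, hy⟩ := hτ x y hxy
      refine ⟨⟨fun h => absurd (hρ.refl x) (h x hx), fun h => absurd (hρ.refl y) (h y hy)⟩,
        fun h => absurd (hρ.refl x) (h x hx)⟩
    · exact ⟨⟨fun h a ha hya => h a ha (hρ.trans hxy hya),
        fun h a ha hya => h a ha (hρ.trans (hρ.symm hxy) hya)⟩, fun _ => hxy⟩
  exact key.2 hp

end basic

section measurable
variable {G Z : Type*} [Group G] [MulAction G Z] [Countable G] [MeasurableSpace Z] {ν : Measure Z}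

theorem cost_un_le (Φ Ψ : Gr G Z) : (un Φ Ψ).cost ν ≤ Φ.cost ν + Ψ.cost ν := by
  unfold Gr.cost
  rw [← ENNReal.tsum_add]
  exact ENNReal.tsum_le_tsum fun g => measure_union_le _ _

theorem cost_le_of_disjoint {Φ : Gr G Z} (hΦ : Φ.Meas)
    (hd : ∀ p g h, p ∈ Φ g → p ∈ Φ h → g = h) {K : Set Z} (hK : ∀ g, Φ g ⊆ K) :
    Φ.cost ν ≤ ν K := by
  unfold Gr.cost
  rw [← measure_iUnion _ hΦ]
  · exact measure_mono (iUnion_subset hK)
  · intro g h hgh
    rw [Function.onFun, Set.disjoint_left]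
    intro p hp hp'
    exact hgh (hd p g h hp hp')

theorem cost_retr_le {r : Z → G} (hr : ∀ g, MeasurableSet {p | r p = g}) {K : Set Z}
    (hK : MeasurableSet K) : (retr r K).cost ν ≤ ν K := by
  apply cost_le_of_disjoint
  · intro g
    exact hK.inter (hr g)
  · rintro p g h ⟨_, h1⟩ ⟨_, h2⟩
    rw [← h1, h2]
  · rintro g p ⟨hp, _⟩
    exact hp

theorem mins_meas {ρ : Z → Z → Prop} (hF : FreeAct G Z ν) (hρ : MRel G ρ) {f : Z → ℝ}
    (hf : Measurable f) : MeasurableSet (Mins ρ f) := by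
  have : Mins ρ f = ⋂ g : G, ({p | ρ p (g • p)}ᶜ ∪ {p | f p ≤ f (g • p)}) := by
    ext p
    simp only [Mins, mem_ofPred_eq, mem_iInter, mem_union, mem_compl_iff]
    constructor
    · intro h g
      by_cases hg : ρ p (g • p)
      · exact Or.inr (h _ hg)
      · exact Or.inl hg
    · intro h q hq
      obtain ⟨g, rfl⟩ := hρ.orb p q hq
      exact (h g).resolve_left (fun h => h hq)
  rw [this]
  refine MeasurableSet.iInter fun g => ?_
  exact (hρ.meas g).compl.union (measurableSet_le hf (hf.comp (hF.mp g).measurable))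

theorem toMin_meas {ρ : Z → Z → Prop} (hF : FreeAct G Z ν) (hρ : MRel G ρ) {f : Z → ℝ}
    (hf : Measurable f) {K : Set Z} (hK : MeasurableSet K) : (toMin G ρ f K).Meas := fun g =>
  hK.inter ((hρ.meas g).inter ((hF.mp g).measurable (mins_meas hF hρ hf)))

theorem cost_toMin_le {ρ : Z → Z → Prop} (hF : FreeAct G Z ν) (hρe : Equivalence ρ)
    (hρ : MRel G ρ) {f : Z → ℝ}
    (hf : Measurable f) (hfinj : Function.Injective f) {K : Set Z} (hK : MeasurableSet K) :
    (toMin G ρ f K).cost ν ≤ ν K := by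
  apply cost_le_of_disjoint (toMin_meas hF hρ hf hK)
  · rintro p g h ⟨_, h1, h2⟩ ⟨_, h3, h4⟩
    have := mins_unique hρe hfinj h2 h4 (hρe.trans (hρe.symm h1) h3)
    exact eq_of_smul hF.free this
  · rintro g p ⟨hp, _⟩
    exact hp

end measurable

end Crest.Agent.R191.Rd

namespace Crest.Agent.R191

open MeasureTheory Set Rd
open scoped ENNReal

section Round
variable {G Z : Type*} [Group G] [Countable G] [MulAction G Z] [MeasurableSpace Z]
  [StandardBorelSpace Z] {ν : Measure Z} [IsFiniteMeasure ν]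

/-- **T5**: one round of the relation exchange. -/
theorem oneRound (hF : FreeAct G Z ν) (B C : Subgroup G) {A : Set Z} (hA : MeasurableSet A)
    {r : Z → G} (hr : ∀ g, MeasurableSet {p | r p = g}) (hrE : ∀ p, r p ∈ B ⊓ C)
    (hrA : ∀ p, r p • p ∈ A)
    {b w : Z → Z → Prop} (hb : MRel G b) (hbe : Equivalence b) (hbB : ∀ p q, b p q → OR B p q)
    (hbA : ∀ p q, ORon (B ⊓ C) A p q → b p q)
    (hw : MRel G w) (_hwe : Equivalence w) (hwC : ∀ p q, w p q → OR C p q)
    (hwA : ∀ p q, ORon C A p q → w p q)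
    {J : Gr G Z} (hJ : J.Meas)
    (hJw : ∀ p q, w p q ↔ Gen (fun p q => ORon C A p q ∨ (b p q ∧ w p q)) J p q)
    {η : ENNReal} (hη : η ≠ 0) :
    ∃ (w' : Z → Z → Prop) (M J' : Gr G Z), MRel G w' ∧ Equivalence w' ∧
      (∀ p q, w' p q → OR C p q) ∧ (∀ p q, w p q → w' p q) ∧
      (∀ p q, b p q → OR C p q → w' p q) ∧
      M.Meas ∧ M.SuppIn (B ⊓ C) ∧ J'.Meas ∧
      (∀ p q, OR B p q → w' p q → Gen b M p q) ∧
      (∀ p q, w' p q ↔ Gen (fun p q => ORon C A p q ∨ (Gen b M p q ∧ w' p q)) J' p q) ∧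
      M.cost ν + J'.cost ν ≤ J.cost ν + η := by
  classical
  obtain ⟨f, hfe⟩ := exists_measurableEmbedding_real Z
  have hf : Measurable f := hfe.measurable
  have hfinj : Function.Injective f := hfe.injective
  have hEC : B ⊓ C ≤ C := inf_le_right
  have hη2 : η / 2 ≠ 0 := by
    simp [ENNReal.div_eq_zero_iff, hη]
  have hempty : (eG G Z).Meas := fun _ => MeasurableSet.empty
  -- the relation w ∨ (b ∩ R_C)
  set S1 : Z → Z → Prop := fun p q => w p q ∨ (b p q ∧ OR C p q) with hS1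
  have hS1m : MRel G S1 := hw.or (hb.and (MRel.OR hF C))
  have hS1o : ∀ p q, S1 p q → OR C p q := by
    rintro p q (h | h)
    · exact hwC p q h
    · exact h.2
  set W1 : Z → Z → Prop := Gen S1 (eG G Z) with hW1
  have hW1e : Equivalence W1 := gen_equivalence _ _
  have hW1m : MRel G W1 := MRel.gen hF hS1m hempty
  have hW1o : ∀ p q, W1 p q → OR C p q := fun p q h =>
    gen_le (or_equivalence C) hS1o (fun _ _ h => (step_empty h).elim) h
  have hWW1 : ∀ p q, w p q → W1 p q := fun p q h => gen_of_rel (Or.inl h)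
  have hBW1 : ∀ p q, b p q → OR C p q → W1 p q := fun p q h h' => gen_of_rel (Or.inr ⟨h, h'⟩)
  -- infinite classes not meeting A
  set D : Set Z := {p | ∃ q ∈ A, W1 p q}ᶜ ∩ {p | {g : G | W1 p (g • p)}.Finite}ᶜ with hD
  have hDm : MeasurableSet D :=
    (MRel.measurable_meets hF hW1m hA).compl.inter (MRel.measurable_finite hF hW1m).compl
  -- finiteness is invariant
  have hfininv : ∀ {ρ : Z → Z → Prop}, Equivalence ρ → (∀ p q, ρ p q → ∃ g : G, q = g • p) →
      ∀ {p q : Z}, ρ p q → {g : G | ρ p (g • p)}.Finite → {g : G | ρ q (g • q)}.Finite := by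
    intro ρ hρ hρo p q h hfin
    obtain ⟨k, rfl⟩ := hρo p q h
    refine (hfin.preimage (f := fun g => g * k) (mul_left_injective k).injOn).subset ?_
    intro g hg
    rw [mem_preimage, mem_ofPred_eq, mul_smul]
    exact hρ.trans h hg
  have hDinv : ∀ p q, W1 p q → p ∈ D → q ∈ D := by
    rintro p q h ⟨h1, h2⟩
    refine ⟨?_, ?_⟩
    · rintro ⟨a, ha, hqa⟩
      exact h1 ⟨a, ha, hW1e.trans h hqa⟩
    · intro hq
      exact h2 (hfininv hW1e hW1m.orb (hW1e.symm h) hq)
  obtain ⟨K, hKD, hKm, hKν, hKs⟩ := marker hF hW1m hW1e hDm hDinv (fun p hp => hp.2) hη2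
  -- W2
  set W2 : Z → Z → Prop := Gen W1 (retr r K) with hW2
  have hretrm : (retr r K).Meas := fun g => hKm.inter (hr g)
  have hW2e : Equivalence W2 := gen_equivalence _ _
  have hW2m : MRel G W2 := MRel.gen hF hW1m hretrm
  have hrC : ∀ p : Z, OR C p (r p • p) := fun p => ⟨r p, hEC (hrE p), rfl⟩
  have hrEo : ∀ p : Z, OR (B ⊓ C) p (r p • p) := fun p => ⟨r p, hrE p, rfl⟩
  have hW2o : ∀ p q, W2 p q → OR C p q := fun p q h =>
    gen_le (or_equivalence C) hW1o (fun x y h => by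
      rw [step_retr] at h
      rw [h.2]; exact hrC x) h
  have hW1W2 : ∀ p q, W1 p q → W2 p q := fun p q h => gen_of_rel h
  have hWW2 : ∀ p q, w p q → W2 p q := fun p q h => hW1W2 p q (hWW1 p q h)
  have hRCW2 : ∀ p q, p ∈ A → q ∈ A → OR C p q → W2 p q := fun p q hp hq h =>
    hWW2 p q (hwA p q ⟨hp, hq, h⟩)
  have hKA : ∀ p ∈ K, W2 p (r p • p) := fun p hp => gen_of_step (step_retr.mpr ⟨hp, rfl⟩)
  -- nonactual W2-classes are finite
  have hfinN : ∀ p, (∀ a ∈ A, ¬ W2 p a) → {g : G | W2 p (g • p)}.Finite := by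
    intro p hp
    have hcl : ∀ q, W2 p q → W1 p q := by
      intro q hq
      have key := gen_le (split_equivalence hW1e {p | ∀ a ∈ A, ¬ W2 p a}) ?_ ?_ hq
      · exact key.2 hp
      · intro x y hxy
        have hxy2 := hW1W2 x y hxy
        exact ⟨⟨fun h a ha hya => h a ha (hW2e.trans hxy2 hya),
          fun h a ha hxa => h a ha (hW2e.trans (hW2e.symm hxy2) hxa)⟩, fun _ => hxy⟩
      · intro x y hxy
        rw [step_retr] at hxy
        obtain ⟨hxK, rfl⟩ := hxy
        have h1 : ¬ ∀ a ∈ A, ¬ W2 x a := fun h => h _ (hrA x) (hKA x hxK)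
        have h2 : ¬ ∀ a ∈ A, ¬ W2 (r x • x) a := fun h => h _ (hrA x) (hW2e.refl _)
        exact ⟨⟨fun h => absurd h h1, fun h => absurd h h2⟩, fun h => absurd h h1⟩
    by_contra hinf
    have hinf1 : ¬ {g : G | W1 p (g • p)}.Finite := by
      intro hfin
      exact hinf (hfin.subset fun g hg => hcl _ hg)
    have hpD : p ∈ D := by
      refine ⟨?_, hinf1⟩
      rintro ⟨a, ha, hpa⟩
      exact hp a ha (hW1W2 _ _ hpa)
    obtain ⟨k, hkK, hpk⟩ := hKs p hpD
    exact hp _ (hrA k) (hW2e.trans (hW1W2 _ _ hpk) (hKA k hkK))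
  -- the new graphing J1 generates W2
  set J1 : Gr G Z := un J (retr r K) with hJ1
  have hJ1m : J1.Meas := fun g => (hJ g).union (hretrm g)
  have hJ1c : J1.cost ν ≤ J.cost ν + η / 2 :=
    (cost_un_le _ _).trans (add_le_add le_rfl ((cost_retr_le hr hKm).trans hKν))
  set ε : Z → Z → Prop := fun p q => b p q ∧ W2 p q with hε
  set σ : Z → Z → Prop := fun p q => W2 p q ∧ OR (B ⊓ C) p q with hσ
  have hεe : Equivalence ε := and_equivalence hbe hW2e
  have hσe : Equivalence σ := and_equivalence hW2e (or_equivalence _)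
  have hεm : MRel G ε := hb.and hW2m
  have hσm : MRel G σ := hW2m.and (MRel.OR hF _)
  have hεσ : ∀ p q, ε p q → σ p q := fun p q h =>
    ⟨h.2, or_inf hF.free (hbB p q h.1) (hW2o p q h.2)⟩
  have hgenJ1 : ∀ p q, W2 p q →
      Gen (fun p q => ORon C A p q ∨ ε p q) J1 p q := by
    intro p q h
    refine gen_le (gen_equivalence _ _) ?_ ?_ h
    · intro x y hxy
      refine gen_le (gen_equivalence _ _) ?_ (fun _ _ h => (step_empty h).elim) hxy
      rintro x y (hxy | hxy)
      · refine gen_le (gen_equivalence _ _) ?_ ?_ ((hJw x y).mp hxy)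
        · rintro x y (h | h)
          · exact gen_of_rel (Or.inl h)
          · exact gen_of_rel (Or.inr ⟨h.1, hWW2 _ _ h.2⟩)
        · intro x y h
          exact gen_of_step (step_un.mpr (Or.inl h))
      · exact gen_of_rel (Or.inr ⟨hxy.1, hW1W2 _ _ (hBW1 _ _ hxy.1 hxy.2)⟩)
    · intro x y h
      exact gen_of_step (step_un.mpr (Or.inr h))
  -- the actual part
  set Act : Set Z := {p | ∃ q ∈ A, W2 p q} with hAct
  have hActm : MeasurableSet Act := MRel.measurable_meets hF hW2m hA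
  have hActinv : ∀ {p q}, W2 p q → p ∈ Act → q ∈ Act := by
    rintro p q h ⟨a, ha, hpa⟩
    exact ⟨a, ha, hW2e.trans (hW2e.symm h) hpa⟩
  have hactr : ∀ p ∈ Act, W2 p (r p • p) := by
    rintro p ⟨a, ha, hpa⟩
    refine hW2e.trans hpa (hRCW2 _ _ ha (hrA p) ?_)
    exact (or_equivalence C).trans ((or_equivalence C).symm (hW2o _ _ hpa)) (hrC p)
  have hσr : ∀ p ∈ Act, σ p (r p • p) := fun p hp => ⟨hactr p hp, hrEo p⟩
  set N : Set Z := {p | ∃ q ∈ A, ε p q}ᶜ with hN
  have hNm : MeasurableSet N := (MRel.measurable_meets hF hεm hA).compl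
  have hNinv : ∀ {p q}, ε p q → p ∈ N → q ∈ N := by
    rintro p q h hp ⟨a, ha, hqa⟩
    exact hp ⟨a, ha, hεe.trans h hqa⟩
  set Fi : Set Z := {p | {g : G | ε p (g • p)}.Finite} with hFi
  have hFim : MeasurableSet Fi := MRel.measurable_finite hF hεm
  set D2 : Set Z := (Act ∩ N) ∩ Fiᶜ with hD2
  have hD2m : MeasurableSet D2 := (hActm.inter hNm).inter hFim.compl
  have hD2inv : ∀ p q, ε p q → p ∈ D2 → q ∈ D2 := by
    rintro p q h ⟨⟨h1, h2⟩, h3⟩
    exact ⟨⟨hActinv h.2 h1, hNinv h h2⟩, fun hq => h3 (hfininv hεe hεm.orb (hεe.symm h) hq)⟩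
  obtain ⟨K2, hK2D, hK2m, hK2ν, hK2s⟩ := marker hF hεm hεe hD2m hD2inv (fun p hp => hp.2) hη2
  set Tε : Set Z := Mins ε f with hTε
  set Tσ : Set Z := Mins σ f with hTσ
  set TW : Set Z := Mins W2 f with hTW
  have hTεm : MeasurableSet Tε := mins_meas hF hεm hf
  have hTσm : MeasurableSet Tσ := mins_meas hF hσm hf
  have hTWm : MeasurableSet TW := mins_meas hF hW2m hf
  have hTσε : Tσ ⊆ Tε := fun p hp q hq => hp q (hεσ p q hq)
  have hTWσ : TW ⊆ Tσ := fun p hp q hq => hp q hq.1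
  set N1 : Set Z := ((Act ∩ N) ∩ Fi) ∩ Tε with hN1
  have hN1m : MeasurableSet N1 := ((hActm.inter hNm).inter hFim).inter hTεm
  set P1 : Set Z := Actᶜ ∩ (Tε \ Tσ) with hP1
  set P2 : Set Z := Actᶜ ∩ (Tσ \ TW) with hP2
  have hP1m : MeasurableSet P1 := hActm.compl.inter (hTεm.diff hTσm)
  have hP2m : MeasurableSet P2 := hActm.compl.inter (hTσm.diff hTWm)
  have hNK : MeasurableSet (N1 ∪ K2) := hN1m.union hK2m
  set M : Gr G Z := un (retr r (N1 ∪ K2)) (toMin G σ f P1) with hM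
  set J' : Gr G Z := toMin G W2 f P2 with hJ'
  have hMm : M.Meas := fun g =>
    (hNK.inter (hr g)).union (toMin_meas hF hσm hf hP1m g)
  have hJ'm : J'.Meas := toMin_meas hF hW2m hf hP2m
  have hNKAct : N1 ∪ K2 ⊆ Act := by
    rintro p (hp | hp)
    · exact hp.1.1.1
    · exact (hK2D hp).1.1
  have hMσ : ∀ p q, M.Step p q → σ p q := by
    intro p q h
    rw [hM, step_un] at h
    rcases h with h | h
    · rw [step_retr] at h
      obtain ⟨hp, rfl⟩ := h
      exact hσr p (hNKAct hp)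
    · rw [step_toMin hσm.orb] at h
      exact h.2.1
  have hBGen : ∀ p q, b p q → Gen b M p q := fun p q h => gen_of_rel h
  have hGe : Equivalence (Gen b M) := gen_equivalence _ _
  -- σ is contained in Gen b M
  have hkeyAct : ∀ p ∈ Act, ∃ a ∈ A, Gen b M p a ∧ σ p a := by
    intro p hp
    by_cases hpN : ∃ a ∈ A, ε p a
    · obtain ⟨a, ha, hpa⟩ := hpN
      exact ⟨a, ha, hBGen _ _ hpa.1, hεσ _ _ hpa⟩
    · have hpN' : p ∈ N := hpN
      by_cases hfin : p ∈ Fi
      · obtain ⟨k, hpk, hk⟩ := exists_min hεe hεm.orb f hfin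
        have hkN1 : k ∈ N1 :=
          ⟨⟨⟨hActinv hpk.2 hp, hNinv hpk hpN'⟩, hfininv hεe hεm.orb hpk hfin⟩, hk⟩
        refine ⟨r k • k, hrA k, hGe.trans (hBGen _ _ hpk.1) (gen_of_step ?_), ?_⟩
        · exact step_un.mpr (Or.inl (step_retr.mpr ⟨Or.inl hkN1, rfl⟩))
        · exact hσe.trans (hεσ _ _ hpk) (hσr k (hActinv hpk.2 hp))
      · obtain ⟨k, hk, hpk⟩ := hK2s p ⟨⟨hp, hpN'⟩, hfin⟩
        refine ⟨r k • k, hrA k, hGe.trans (hBGen _ _ hpk.1) (gen_of_step ?_), ?_⟩
        · exact step_un.mpr (Or.inl (step_retr.mpr ⟨Or.inr hk, rfl⟩))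
        · exact hσe.trans (hεσ _ _ hpk) (hσr k (hActinv hpk.2 hp))
  have hfinsub : ∀ {ρ : Z → Z → Prop}, (∀ p q, ρ p q → W2 p q) → ∀ p, p ∉ Act →
      {g : G | ρ p (g • p)}.Finite := by
    intro ρ hρ p hp
    refine (hfinN p (fun a ha hpa => hp ⟨a, ha, hpa⟩)).subset ?_
    intro q hq
    exact hρ _ _ hq
  have hkeyN : ∀ p, p ∉ Act → ∃ m, σ p m ∧ m ∈ Tσ ∧ Gen b M p m := by
    intro p hp
    obtain ⟨t, hpt, ht⟩ := exists_min hεe hεm.orb f (hfinsub (fun _ _ h => h.2) p hp)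
    obtain ⟨m, hpm, hm⟩ := exists_min hσe hσm.orb f (hfinsub (ρ := σ) (fun _ _ h => h.1) p hp)
    refine ⟨m, hpm, hm, ?_⟩
    have htm : σ t m := hσe.trans (hσe.symm (hεσ _ _ hpt)) hpm
    by_cases htσ : t ∈ Tσ
    · have := mins_unique hσe hfinj htσ hm htm
      rw [← this]; exact hBGen _ _ hpt.1
    · refine hGe.trans (hBGen _ _ hpt.1) (gen_of_step ?_)
      refine step_un.mpr (Or.inr ((step_toMin hσm.orb).mpr ⟨⟨?_, ht, htσ⟩, htm, hm⟩))
      intro htA
      exact hp (hActinv (hW2e.symm hpt.2) htA)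
  have hσG : ∀ p q, σ p q → Gen b M p q := by
    intro p q h
    by_cases hp : p ∈ Act
    · obtain ⟨a, ha, h1, h2⟩ := hkeyAct p hp
      obtain ⟨a', ha', h3, h4⟩ := hkeyAct q (hActinv h.1 hp)
      have hab : b a a' := hbA a a' ⟨ha, ha',
        (hσe.trans (hσe.symm h2) (hσe.trans h h4)).2⟩
      exact hGe.trans h1 (hGe.trans (hBGen _ _ hab) (hGe.symm h3))
    · have hq : q ∉ Act := fun hq => hp (hActinv (hW2e.symm h.1) hq)
      obtain ⟨m, h1, h2, h3⟩ := hkeyN p hp
      obtain ⟨m', h1', h2', h3'⟩ := hkeyN q hq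
      have := mins_unique hσe hfinj h2 h2' (hσe.trans (hσe.symm h1) (hσe.trans h h1'))
      subst this
      exact hGe.trans h3 (hGe.symm h3')
  -- the new generation property
  have hgen' : ∀ p q, W2 p q →
      Gen (fun p q => ORon C A p q ∨ (Gen b M p q ∧ W2 p q)) J' p q := by
    intro p q h
    have hGe' := gen_equivalence
      (fun p q => ORon C A p q ∨ (Gen b M p q ∧ W2 p q)) J'
    by_cases hp : p ∈ Act
    · have hq : q ∈ Act := hActinv h hp
      refine hGe'.trans (gen_of_rel (Or.inr ⟨hσG _ _ (hσr p hp), hactr p hp⟩))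
        (hGe'.trans (gen_of_rel (Or.inl ⟨hrA p, hrA q, ?_⟩))
          (hGe'.symm (gen_of_rel (Or.inr ⟨hσG _ _ (hσr q hq), hactr q hq⟩))))
      have hC := or_equivalence (Z := Z) C
      exact hC.trans (hC.symm (hrC p)) (hC.trans (hW2o _ _ h) (hrC q))
    · have hq : q ∉ Act := fun hq => hp (hActinv (hW2e.symm h) hq)
      have key : ∀ x, x ∉ Act → ∃ m, W2 x m ∧ m ∈ TW ∧
          Gen (fun p q => ORon C A p q ∨ (Gen b M p q ∧ W2 p q)) J' x m := by
        intro x hx
        obtain ⟨t, hxt, ht, hxt'⟩ := hkeyN x hx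
        obtain ⟨m, hxm, hm⟩ := exists_min hW2e hW2m.orb f
          (hfinsub (ρ := W2) (fun _ _ h => h) x hx)
        refine ⟨m, hxm, hm, ?_⟩
        have htm : W2 t m := hW2e.trans (hW2e.symm hxt.1) hxm
        refine hGe'.trans (gen_of_rel (Or.inr ⟨hxt', hxt.1⟩)) ?_
        by_cases htW : t ∈ TW
        · have := mins_unique hW2e hfinj htW hm htm
          rw [this]; exact hGe'.refl _
        · refine gen_of_step ((step_toMin hW2m.orb).mpr ⟨⟨?_, ht, htW⟩, htm, hm⟩)
          intro htA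
          exact hx (hActinv (hW2e.symm hxt.1) htA)
      obtain ⟨m, h1, h2, h3⟩ := key p hp
      obtain ⟨m', h1', h2', h3'⟩ := key q hq
      have := mins_unique hW2e hfinj h2 h2' (hW2e.trans (hW2e.symm h1) (hW2e.trans h h1'))
      subst this
      exact hGe'.trans h3 (hGe'.symm h3')
  -- the cost estimate
  set T' : Set Z := N1 ∪ (P1 ∪ P2) with hT'
  have hT'm : MeasurableSet T' := hN1m.union (hP1m.union hP2m)
  set Rt : Set Z := A ∪ (Actᶜ ∩ TW) with hRt
  have hRtm : MeasurableSet Rt := hA.union (hActm.compl.inter hTWm)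
  set S2 : Z → Z → Prop := Relation.EqvGen (fun p q => ORon C A p q ∨ ε p q) with hS2
  have hS2m : MRel G S2 := MRel.eqvGen hF ((MRel.ORon hF C hA).or hεm)
  have hS2e : Equivalence S2 := Relation.EqvGen.is_equivalence _
  have hT'ε : T' ⊆ Tε := by
    rintro p (hp | hp | hp)
    · exact hp.2
    · exact hp.2.1
    · exact hTσε hp.2.1
  have hT'N : ∀ p ∈ T', ∀ a ∈ A, ¬ ε p a := by
    rintro p hp a ha hpa
    rcases hp with hp | hp | hp
    · exact hp.1.1.2 ⟨a, ha, hpa⟩
    · exact hp.1 ⟨a, ha, hpa.2⟩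
    · exact hp.1 ⟨a, ha, hpa.2⟩
  have hS2ε : ∀ p ∈ T', ∀ q, S2 p q → ε p q := fun p hp q hq =>
    gen_restr hεe (hT'N p hp) (fun x y h => ⟨h.1, h.2.1⟩) hq
  have hcount : ν T' ≤ J1.cost ν := by
    refine count_le hF hS2m hS2e hJ1m hRtm hT'm ?_ ?_ ?_
    · intro p hp q hq h
      exact mins_unique hεe hfinj (hT'ε hp) (hT'ε hq) (hS2ε p hp q h)
    · intro p hp q hq h
      have hpq := hS2ε p hp q h
      rcases hq with hq | hq
      · exact hT'N p hp q hq hpq
      · have hqε : q ∈ Tε := hTσε (hTWσ hq.2)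
        have := mins_unique hεe hfinj (hT'ε hp) hqε hpq
        subst this
        rcases hp with hp | hp | hp
        · exact hq.1 hp.1.1.1
        · exact hp.2.2 (hTWσ hq.2)
        · exact hp.2.2 hq.2
    · intro p hp
      have hG2 : ∀ x y, W2 x y → Gen S2 J1 x y := by
        intro x y hxy
        refine gen_le (gen_equivalence _ _) ?_ ?_ (hgenJ1 x y hxy)
        · intro x y h
          exact gen_of_rel (Relation.EqvGen.rel _ _ h)
        · intro x y h
          exact gen_of_step h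
      by_cases hpA : p ∈ Act
      · obtain ⟨a, ha, hpa⟩ := hpA
        exact ⟨a, Or.inl ha, hG2 _ _ hpa⟩
      · obtain ⟨m, hpm, hm⟩ := exists_min hW2e hW2m.orb f
          (hfinsub (ρ := W2) (fun _ _ h => h) p hpA)
        exact ⟨m, Or.inr ⟨fun h => hpA (hActinv (hW2e.symm hpm) h), hm⟩, hG2 _ _ hpm⟩
  have hcostM : M.cost ν + J'.cost ν ≤ J.cost ν + η := by
    have h1 : M.cost ν ≤ (ν N1 + ν K2) + ν P1 :=
      (cost_un_le _ _).trans (add_le_add ((cost_retr_le hr hNK).trans (measure_union_le _ _))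
        (cost_toMin_le hF hσe hσm hf hfinj hP1m))
    have h2 : J'.cost ν ≤ ν P2 := cost_toMin_le hF hW2e hW2m hf hfinj hP2m
    have hd12 : Disjoint P1 P2 := by
      rw [Set.disjoint_left]
      rintro p hp hp'
      exact hp.2.2 hp'.2.1
    have hd : Disjoint N1 (P1 ∪ P2) := by
      rw [Set.disjoint_left]
      rintro p hp (hp' | hp')
      · exact hp'.1 hp.1.1.1
      · exact hp'.1 hp.1.1.1
    have h3 : ν T' = ν N1 + (ν P1 + ν P2) := by
      rw [hT', measure_union hd (hP1m.union hP2m), measure_union hd12 hP2m]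
    calc M.cost ν + J'.cost ν ≤ ((ν N1 + ν K2) + ν P1) + ν P2 := add_le_add h1 h2
      _ = ν T' + ν K2 := by rw [h3]; ring
      _ ≤ (J.cost ν + η / 2) + η / 2 := add_le_add (hcount.trans hJ1c) hK2ν
      _ = J.cost ν + η := by rw [add_assoc, ENNReal.add_halves]
  refine ⟨W2, M, J', hW2m, hW2e, hW2o, hWW2, fun p q h h' => hW1W2 _ _ (hBW1 _ _ h h'),
    hMm, ?_, hJ'm, ?_, ?_, hcostM⟩
  · -- support of M
    intro g hg
    rw [Set.eq_empty_iff_forall_notMem]
    intro p hp
    obtain ⟨k, hk, hkp⟩ := (hMσ p (g • p) ⟨g, hp, rfl⟩).2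
    exact hg (eq_of_smul hF.free hkp ▸ hk)
  · intro p q h h'
    exact hσG p q ⟨h', or_inf hF.free h (hW2o _ _ h')⟩
  · intro p q
    refine ⟨hgen' p q, fun h => gen_le hW2e ?_ ?_ h⟩
    · rintro x y (h | h)
      · exact hRCW2 x y h.1 h.2.1 h.2.2
      · exact h.2
    · intro x y h
      exact ((step_toMin hW2m.orb).mp h).2.1

end Round

end Crest.Agent.R191
end

-- ▼ part R191/PartICore
section

/-!
# Row 191, task T7 (core): iteration and limit of the rounds of Theorem I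

The inputs (measurability of generated relations, one round, the amalgam lemma) are hypotheses
here; `PartI.lean` plugs in the proved statements.
-/

set_option autoImplicit false

namespace Crest.Agent.R191

open MeasureTheory

namespace PartI

section Basic

variable {G Z : Type*} [Group G] [MulAction G Z]

theorem gen_equiv (S : Z → Z → Prop) (Φ : Gr G Z) : Equivalence (Gen S Φ) :=
  Relation.EqvGen.is_equivalence _

theorem gen_of_rel {S : Z → Z → Prop} {Φ : Gr G Z} {p q : Z} (h : S p q) : Gen S Φ p q :=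
  Relation.EqvGen.rel _ _ (Or.inl h)

theorem gen_of_step {S : Z → Z → Prop} {Φ : Gr G Z} {p q : Z} (h : Φ.Step p q) :
    Gen S Φ p q :=
  Relation.EqvGen.rel _ _ (Or.inr h)

/-- A generated relation is contained in any equivalence relation containing the generators. -/
theorem gen_le {S : Z → Z → Prop} {Φ : Gr G Z} {T : Z → Z → Prop} (hT : Equivalence T)
    (h1 : ∀ p q, S p q → T p q) (h2 : ∀ p q, Φ.Step p q → T p q) {p q : Z}
    (h : Gen S Φ p q) : T p q := by
  induction h with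
  | rel x y hxy => exact hxy.elim (h1 _ _) (h2 _ _)
  | refl x => exact hT.refl x
  | symm x y _ ih => exact hT.symm ih
  | trans x y z _ _ ih1 ih2 => exact hT.trans ih1 ih2

theorem or_equiv (H : Subgroup G) : Equivalence (OR (Z := Z) H) where
  refl p := ⟨1, H.one_mem, (one_smul G p).symm⟩
  symm := by
    rintro p q ⟨h, hh, rfl⟩
    exact ⟨h⁻¹, H.inv_mem hh, (inv_smul_smul h p).symm⟩
  trans := by
    rintro p q s ⟨h, hh, rfl⟩ ⟨k, hk, rfl⟩
    exact ⟨k * h, H.mul_mem hk hh, (mul_smul k h p).symm⟩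

theorem or_mono {H K : Subgroup G} (hHK : H ≤ K) {p q : Z} (h : OR H p q) : OR K p q := by
  obtain ⟨g, hg, rfl⟩ := h
  exact ⟨g, hHK hg, rfl⟩

theorem step_or {Φ : Gr G Z} {H : Subgroup G} (hΦ : Φ.SuppIn H) {p q : Z}
    (h : Φ.Step p q) : OR H p q := by
  obtain ⟨g, hg, rfl⟩ := h
  refine ⟨g, ?_, rfl⟩
  by_contra hgH
  have := hΦ g hgH
  rw [this] at hg
  exact hg

theorem step_mono {Φ Φ' : Gr G Z} (hΦ : ∀ g, Φ g ⊆ Φ' g) {p q : Z}
    (h : Φ.Step p q) : Φ'.Step p q := by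
  obtain ⟨g, hg, rfl⟩ := h
  exact ⟨g, hΦ g hg, rfl⟩

theorem gen_mono {S S' : Z → Z → Prop} {Φ Φ' : Gr G Z}
    (h1 : ∀ p q, S p q → Gen S' Φ' p q) (h2 : ∀ p q, Φ.Step p q → Gen S' Φ' p q) {p q : Z}
    (h : Gen S Φ p q) : Gen S' Φ' p q :=
  gen_le (gen_equiv _ _) h1 h2 h

end Basic

section Main

variable {G Z : Type*} [Group G] [MulAction G Z] [MeasurableSpace Z]

/-- State of the iteration. -/
structure St (B C : Subgroup G) (A : Set Z) where
  b : Z → Z → Prop
  w : Z → Z → Prop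
  J : Gr G Z
  hb : MRel G b
  hbe : Equivalence b
  hbB : ∀ p q, b p q → OR B p q
  hbA : ∀ p q, ORon (B ⊓ C) A p q → b p q
  hw : MRel G w
  hwe : Equivalence w
  hwC : ∀ p q, w p q → OR C p q
  hwA : ∀ p q, ORon C A p q → w p q
  hJ : J.Meas
  hJw : ∀ p q, w p q ↔ Gen (fun p q => ORon C A p q ∨ (b p q ∧ w p q)) J p q

/-- `s'` is obtained from `s` by one round with error `η`, with added graphing `M`. -/
structure Rd (ν : Measure Z) {B C : Subgroup G} {A : Set Z} (η : ENNReal)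
    (s s' : St B C A) (M : Gr G Z) : Prop where
  hMm : M.Meas
  hMs : M.SuppIn (B ⊓ C)
  hww : ∀ p q, s.w p q → s'.w p q
  hbw : ∀ p q, s.b p q → OR C p q → s'.w p q
  hwb : ∀ p q, OR B p q → s'.w p q → s'.b p q
  hbb : ∀ p q, s'.b p q ↔ Gen s.b M p q
  hcost : M.cost ν + s'.J.cost ν ≤ s.J.cost ν + η

/-- Core of Theorem I, with the inputs as hypotheses. -/
theorem core {ν : Measure Z} {B C : Subgroup G} {A : Set Z}
    (hMgen : ∀ {S : Z → Z → Prop} (_ : MRel G S) {Φ : Gr G Z} (_ : Φ.Meas), MRel G (Gen S Φ))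
    (hMORon : ∀ H : Subgroup G, MRel G (R191.ORon (Z := Z) H A))
    (hround : ∀ {b w : Z → Z → Prop} (_ : MRel G b) (_ : Equivalence b)
      (_ : ∀ p q, b p q → OR B p q) (_ : ∀ p q, ORon (B ⊓ C) A p q → b p q)
      (_ : MRel G w) (_ : Equivalence w) (_ : ∀ p q, w p q → OR C p q)
      (_ : ∀ p q, ORon C A p q → w p q) {J : Gr G Z} (_ : J.Meas)
      (_ : ∀ p q, w p q ↔ Gen (fun p q => ORon C A p q ∨ (b p q ∧ w p q)) J p q)
      {η : ENNReal} (_ : η ≠ 0),
      ∃ (w' : Z → Z → Prop) (M J' : Gr G Z), MRel G w' ∧ Equivalence w' ∧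
        (∀ p q, w' p q → OR C p q) ∧ (∀ p q, w p q → w' p q) ∧
        (∀ p q, b p q → OR C p q → w' p q) ∧
        M.Meas ∧ M.SuppIn (B ⊓ C) ∧ J'.Meas ∧
        (∀ p q, OR B p q → w' p q → Gen b M p q) ∧
        (∀ p q, w' p q ↔ Gen (fun p q => ORon C A p q ∨ (Gen b M p q ∧ w' p q)) J' p q) ∧
        M.cost ν + J'.cost ν ≤ J.cost ν + η)
    (hamalg : ∀ {b w : Z → Z → Prop} (_ : Equivalence b) (_ : Equivalence w)
      (_ : ∀ p q, b p q → OR B p q) (_ : ∀ p q, w p q → OR C p q)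
      (_ : ∀ p q, b p q → OR C p q → w p q) (_ : ∀ p q, w p q → OR B p q → b p q)
      (_ : ∀ p q, (∃ g : G, q = g • p) → Relation.EqvGen (fun p q => b p q ∨ w p q) p q),
      ∀ p q, OR B p q → b p q)
    {ΦB ΦC : Gr G Z} (hB : ΦB.Meas) (hC : ΦC.Meas) (hBs : ΦB.SuppIn B) (hCs : ΦC.SuppIn C)
    (hgen : ∀ (p : Z) (g : G), Gen (ORon C A) (fun g => ΦB g ∪ ΦC g) p (g • p))
    {η : ENNReal} (hη : η ≠ 0) :
    ∃ Φ' : Gr G Z, Φ'.Meas ∧ Φ'.SuppIn B ∧ (∀ p q, OR B p q → Gen (ORon (B ⊓ C) A) Φ' p q) ∧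
      Φ'.cost ν ≤ ΦB.cost ν + ΦC.cost ν + η := by
  classical
  -- errors
  obtain ⟨ε, hε0, hεsum⟩ : ∃ ε : ℕ → ENNReal, (∀ n, ε n ≠ 0) ∧ ∑' n, ε n ≤ η := by
    obtain ⟨ε', hε', hs⟩ := ENNReal.exists_pos_sum_of_countable' hη ℕ
    exact ⟨ε', fun n => (hε' n).ne', hs.le⟩
  -- ORon inside OR
  have hORon : ∀ (H : Subgroup G) (p q : Z), ORon H A p q → OR H p q := fun H p q h => h.2.2
  -- initial state
  let s0 : St B C A :=
    { b := Gen (ORon (B ⊓ C) A) ΦB
      w := Gen (ORon C A) ΦC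
      J := ΦC
      hb := hMgen (hMORon _) hB
      hbe := gen_equiv _ _
      hbB := fun p q h => gen_le (or_equiv B)
        (fun p q h => or_mono inf_le_left (hORon _ p q h)) (fun p q h => step_or hBs h) h
      hbA := fun p q h => gen_of_rel h
      hw := hMgen (hMORon _) hC
      hwe := gen_equiv _ _
      hwC := fun p q h => gen_le (or_equiv C)
        (fun p q h => hORon _ p q h) (fun p q h => step_or hCs h) h
      hwA := fun p q h => gen_of_rel h
      hJ := hC
      hJw := fun p q => ⟨fun h => gen_mono (fun p q h => gen_of_rel (Or.inl h))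
          (fun p q h => gen_of_step h) h,
        fun h => gen_le (gen_equiv _ _)
          (fun p q h => h.elim gen_of_rel (fun h => h.2)) (fun p q h => gen_of_step h) h⟩ }
  -- one round
  have hstep : ∀ (n : ℕ) (s : St B C A), ∃ (t : St B C A × Gr G Z), Rd ν (ε n) s t.1 t.2 := by
    intro n s
    obtain ⟨w', M, J', h1, h2, h3, h4, h5, h6, h7, h8, h9, h10, h11⟩ :=
      hround s.hb s.hbe s.hbB s.hbA s.hw s.hwe s.hwC s.hwA s.hJ s.hJw (hε0 n)
    refine ⟨⟨{ b := Gen s.b M, w := w', J := J', hb := hMgen s.hb h6, hbe := gen_equiv _ _,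
               hbB := fun p q h => gen_le (or_equiv B) s.hbB
                 (fun p q h => or_mono inf_le_left (step_or h7 h)) h,
               hbA := fun p q h => gen_of_rel (s.hbA p q h),
               hw := h1, hwe := h2, hwC := h3, hwA := fun p q h => h4 p q (s.hwA p q h),
               hJ := h8, hJw := h10 }, M⟩, ?_⟩
    exact ⟨h6, h7, h4, h5, h9, fun p q => Iff.rfl, h11⟩
  choose! F hF using hstep
  let s : ℕ → St B C A := fun n => Nat.rec s0 (fun n t => (F n t).1) n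
  let M : ℕ → Gr G Z := fun n => (F n (s n)).2
  have hR : ∀ n, Rd ν (ε n) (s n) (s (n + 1)) (M n) := fun n => hF n (s n)
  -- monotonicity
  have hbmono1 : ∀ n p q, (s n).b p q → (s (n + 1)).b p q := fun n p q h =>
    ((hR n).hbb p q).2 (gen_of_rel h)
  have hbmono : ∀ {m n : ℕ}, m ≤ n → ∀ p q, (s m).b p q → (s n).b p q := by
    intro m n hmn
    induction hmn with
    | refl => exact fun p q h => h
    | step _ ih => exact fun p q h => hbmono1 _ p q (ih p q h)
  have hwmono : ∀ {m n : ℕ}, m ≤ n → ∀ p q, (s m).w p q → (s n).w p q := by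
    intro m n hmn
    induction hmn with
    | refl => exact fun p q h => h
    | step _ ih => exact fun p q h => (hR _).hww p q (ih p q h)
  -- limits
  let b : Z → Z → Prop := fun p q => ∃ n, (s n).b p q
  let w : Z → Z → Prop := fun p q => ∃ n, (s n).w p q
  have hbe : Equivalence b :=
    { refl := fun p => ⟨0, (s 0).hbe.refl p⟩
      symm := fun ⟨n, h⟩ => ⟨n, (s n).hbe.symm h⟩
      trans := fun ⟨n, h⟩ ⟨m, h'⟩ => ⟨max n m, (s _).hbe.trans
        (hbmono (le_max_left n m) _ _ h) (hbmono (le_max_right n m) _ _ h')⟩ }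
  have hwe : Equivalence w :=
    { refl := fun p => ⟨0, (s 0).hwe.refl p⟩
      symm := fun ⟨n, h⟩ => ⟨n, (s n).hwe.symm h⟩
      trans := fun ⟨n, h⟩ ⟨m, h'⟩ => ⟨max n m, (s _).hwe.trans
        (hwmono (le_max_left n m) _ _ h) (hwmono (le_max_right n m) _ _ h')⟩ }
  have hbfin : ∀ p q, OR B p q → b p q := by
    refine hamalg (w := w) hbe hwe (fun p q ⟨n, h⟩ => (s n).hbB p q h)
      (fun p q ⟨n, h⟩ => (s n).hwC p q h)
      (fun p q ⟨n, h⟩ hc => ⟨n + 1, (hR n).hbw p q h hc⟩)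
      (fun p q ⟨n, h⟩ hc => ⟨n + 1, (hR n).hwb p q hc ((hR n).hww p q h)⟩) ?_
    rintro p q ⟨g, rfl⟩
    refine gen_le (Relation.EqvGen.is_equivalence _) ?_ ?_ (hgen p g)
    · intro p q h
      exact Relation.EqvGen.rel _ _ (Or.inr ⟨0, (s 0).hwA p q h⟩)
    · rintro p q ⟨g, hg, rfl⟩
      rcases hg with hg | hg
      · exact Relation.EqvGen.rel _ _ (Or.inl ⟨0, gen_of_step ⟨g, hg, rfl⟩⟩)
      · exact Relation.EqvGen.rel _ _ (Or.inr ⟨0, gen_of_step ⟨g, hg, rfl⟩⟩)
  -- the graphing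
  refine ⟨fun g => ΦB g ∪ ⋃ n, M n g, ?_, ?_, ?_, ?_⟩
  · intro g
    exact (hB g).union (MeasurableSet.iUnion fun n => (hR n).hMm g)
  · intro g hg
    have h1 := hBs g hg
    have h2 : ∀ n, M n g = ∅ := fun n => (hR n).hMs g (fun h => hg h.1)
    simp [h1, h2]
  · intro p q hpq
    obtain ⟨n, hn⟩ := hbfin p q hpq
    have key : ∀ n p q, (s n).b p q →
        Gen (ORon (B ⊓ C) A) (fun g => ΦB g ∪ ⋃ n, M n g) p q := by
      intro n
      induction n with
      | zero =>
        intro p q h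
        exact gen_mono (fun p q h => gen_of_rel h)
          (fun p q h => gen_of_step (step_mono (fun g => Set.subset_union_left) h)) h
      | succ n ih =>
        intro p q h
        refine gen_le (gen_equiv _ _) ih ?_ (((hR n).hbb p q).1 h)
        intro p q h
        exact gen_of_step (step_mono
          (fun g => (Set.subset_iUnion (fun n => M n g) n).trans Set.subset_union_right) h)
    exact key n p q hn
  · -- cost
    have htel : ∀ N, ∑ n ∈ Finset.range N, (M n).cost ν + (s N).J.cost ν ≤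
        ΦC.cost ν + ∑ n ∈ Finset.range N, ε n := by
      intro N
      induction N with
      | zero => simp; exact le_rfl
      | succ N ih =>
        rw [Finset.sum_range_succ, Finset.sum_range_succ]
        calc ∑ n ∈ Finset.range N, (M n).cost ν + (M N).cost ν + (s (N + 1)).J.cost ν
            = ∑ n ∈ Finset.range N, (M n).cost ν
              + ((M N).cost ν + (s (N + 1)).J.cost ν) := by rw [add_assoc]
          _ ≤ ∑ n ∈ Finset.range N, (M n).cost ν + ((s N).J.cost ν + ε N) := by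
              exact add_le_add le_rfl (hR N).hcost
          _ = (∑ n ∈ Finset.range N, (M n).cost ν + (s N).J.cost ν) + ε N := by
              rw [add_assoc]
          _ ≤ (ΦC.cost ν + ∑ n ∈ Finset.range N, ε n) + ε N := by gcongr
          _ = _ := by rw [add_assoc]
    have hsum : ∑' n, (M n).cost ν ≤ ΦC.cost ν + η := by
      refine ENNReal.tsum_le_of_sum_range_le ?_
      intro N
      calc ∑ n ∈ Finset.range N, (M n).cost ν
          ≤ ∑ n ∈ Finset.range N, (M n).cost ν + (s N).J.cost ν := le_self_add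
        _ ≤ ΦC.cost ν + ∑ n ∈ Finset.range N, ε n := htel N
        _ ≤ ΦC.cost ν + η := by
            gcongr
            exact (ENNReal.sum_le_tsum _).trans hεsum
    calc Gr.cost ν (fun g => ΦB g ∪ ⋃ n, M n g)
        = ∑' g, ν (ΦB g ∪ ⋃ n, M n g) := rfl
      _ ≤ ∑' g, (ν (ΦB g) + ∑' n, ν (M n g)) := by
          refine ENNReal.tsum_le_tsum fun g => ?_
          exact (measure_union_le _ _).trans (add_le_add le_rfl (measure_iUnion_le _))
      _ = ∑' g, ν (ΦB g) + ∑' g, ∑' n, ν (M n g) := ENNReal.tsum_add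
      _ = ΦB.cost ν + ∑' n, (M n).cost ν := by
          rw [ENNReal.tsum_comm]; rfl
      _ ≤ ΦB.cost ν + (ΦC.cost ν + η) := by gcongr
      _ = ΦB.cost ν + ΦC.cost ν + η := by rw [add_assoc]

end Main

end PartI

end Crest.Agent.R191
end

-- ▼ part R191/PartI
section

/-!
# Row 191, task T7: Theorem I for graphings in `B ∪ C`
-/

set_option autoImplicit false

namespace Crest.Agent.R191

open MeasureTheory

section PartI
variable {G Z : Type*} [Group G] [Countable G] [MulAction G Z] [MeasurableSpace Z]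
  [StandardBorelSpace Z] {ν : Measure Z} [IsFiniteMeasure ν]

theorem partI (hF : FreeAct G Z ν) {B C : Subgroup G} (hAP : AmalgProp B C)
    {A : Set Z} (hA : MeasurableSet A)
    {r : Z → G} (hr : ∀ g, MeasurableSet {p | r p = g}) (hrE : ∀ p, r p ∈ B ⊓ C)
    (hrA : ∀ p, r p • p ∈ A)
    {ΦB ΦC : Gr G Z} (hB : ΦB.Meas) (hC : ΦC.Meas) (hBs : ΦB.SuppIn B) (hCs : ΦC.SuppIn C)
    (hgen : ∀ (p : Z) (g : G), Gen (ORon C A) (fun g => ΦB g ∪ ΦC g) p (g • p))
    {η : ENNReal} (hη : η ≠ 0) :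
    ∃ Φ' : Gr G Z, Φ'.Meas ∧ Φ'.SuppIn B ∧ (∀ p q, OR B p q → Gen (ORon (B ⊓ C) A) Φ' p q) ∧
      Φ'.cost ν ≤ ΦB.cost ν + ΦC.cost ν + η :=
  PartI.core (ν := ν) (fun hS _ hΦ => MRel.gen hF hS hΦ) (fun H => MRel.ORon hF H hA)
    (fun hb hbe hbB hbA hw hwe hwC hwA _ hJ hJw _ hη =>
      oneRound hF B C hA hr hrE hrA hb hbe hbB hbA hw hwe hwC hwA hJ hJw hη)
    (fun hbe hwe hbB hwC hbw hwb hg => amalgam_closed hF.free hAP hbe hwe hbB hwC hbw hwb hg)
    hB hC hBs hCs hgen hη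

end PartI

end Crest.Agent.R191
end

-- ▼ part R191/Sheets

/-!
# Row 191, T8: Theorem I for general graphings (chords), via sheets

`Z = X × H` with `H` a finite group; the interior points of the chords live on the sheets.
-/

set_option autoImplicit false

namespace Crest.Agent.R191

open MeasureTheory Set

namespace Sheets

/-! ## words -/
section Words
variable {G : Type*} [Group G]

/-- `g` has a path of length `n` with steps in `B ∪ C`. -/
theorem exists_path {B C : Subgroup G} (hBC : B ⊔ C = ⊤) (g : G) :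
    ∃ (n : ℕ) (P : ℕ → G), P 0 = 1 ∧ (∀ k, n ≤ k → P k = g) ∧
      ∀ k, P (k + 1) * (P k)⁻¹ ∈ B ∨ P (k + 1) * (P k)⁻¹ ∈ C := by
  have hg : g ∈ Subgroup.closure ((B : Set G) ∪ C) := by
    rw [Subgroup.closure_union, Subgroup.closure_eq, Subgroup.closure_eq, hBC]
    exact Subgroup.mem_top g
  have key : ∀ l : List G, (∀ x ∈ l, x ∈ B ∨ x ∈ C) →
      ∃ (n : ℕ) (P : ℕ → G), P 0 = 1 ∧ (∀ k, n ≤ k → P k = l.prod) ∧
      ∀ k, P (k + 1) * (P k)⁻¹ ∈ B ∨ P (k + 1) * (P k)⁻¹ ∈ C := by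
    intro l
    induction l with
    | nil =>
      intro _
      exact ⟨0, fun _ => 1, rfl, fun _ _ => by simp, fun _ => Or.inl (by simp [B.one_mem])⟩
    | cons a l ih =>
      intro hl
      obtain ⟨n, P, h0, h1, h2⟩ := ih (fun x hx => hl x (List.mem_cons_of_mem _ hx))
      refine ⟨n + 1, fun k => if k ≤ n then P k else a * l.prod, ?_, ?_, ?_⟩
      · simp [h0]
      · intro k hk
        have : ¬ k ≤ n := by omega
        simp [this]
      · intro k
        rcases lt_trichotomy k n with h | h | h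
        · have h3 : k ≤ n := h.le
          have h4 : k + 1 ≤ n := h
          simp only [h3, h4, if_true]
          exact h2 k
        · subst h
          have h4 : ¬ k + 1 ≤ k := by omega
          simp only [le_refl, h4, if_true, if_false, h1 k le_rfl]
          rw [mul_assoc, mul_inv_cancel, mul_one]
          exact hl a (by simp)
        · have h3 : ¬ k ≤ n := by omega
          have h4 : ¬ k + 1 ≤ n := by omega
          simp only [h3, h4, if_false, mul_inv_cancel]
          exact Or.inl B.one_mem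
  rw [← Subgroup.mem_toSubmonoid, Subgroup.closure_toSubmonoid] at hg
  obtain ⟨l, hl, rfl⟩ := Submonoid.exists_list_of_mem_closure hg
  refine key l (fun x hx => ?_)
  rcases hl x hx with h | h
  · exact h
  · rw [Set.mem_inv] at h
    rcases h with h | h
    · exact Or.inl (by simpa using B.inv_mem h)
    · exact Or.inr (by simpa using C.inv_mem h)

end Words

/-- a finite group with enough sheets -/
theorem exists_sheets {α : Type*} (F : Finset α) (L : ℕ) :
    ∃ (H : Type) (_ : Group H) (_ : Finite H) (sh : α → ℕ → H),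
      (∀ g ∈ F, ∀ k, 1 ≤ k → k ≤ L → sh g k ≠ 1) ∧
      (∀ g ∈ F, ∀ k, 1 ≤ k → k ≤ L → ∀ g' ∈ F, ∀ k', 1 ≤ k' → k' ≤ L →
        sh g k = sh g' k' → g = g' ∧ k = k') ∧
      (∀ g, sh g 0 = 1) ∧ ∀ g, sh g (L + 1) = 1 := by
  classical
  -- index set
  let e : F × Fin L ≃ Fin (Fintype.card (F × Fin L)) := Fintype.equivFin _
  let n := Fintype.card (F × Fin L)
  refine ⟨Equiv.Perm (Option (Fin n)), inferInstance, inferInstance,
    fun g k => if h : g ∈ F ∧ 1 ≤ k ∧ k ≤ L then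
      Equiv.swap none (some (e (⟨g, h.1⟩, ⟨k - 1, by omega⟩))) else 1, ?_, ?_, ?_, ?_⟩
  · intro g hg k h1 h2 h
    simp only [dif_pos (show g ∈ F ∧ 1 ≤ k ∧ k ≤ L from ⟨hg, h1, h2⟩)] at h
    have := congrArg (fun σ : Equiv.Perm (Option (Fin n)) => σ none) h
    simp at this
  · intro g hg k h1 h2 g' hg' k' h1' h2' h
    simp only [dif_pos (show g ∈ F ∧ 1 ≤ k ∧ k ≤ L from ⟨hg, h1, h2⟩),
      dif_pos (show g' ∈ F ∧ 1 ≤ k' ∧ k' ≤ L from ⟨hg', h1', h2'⟩)] at h
    have := congrArg (fun σ : Equiv.Perm (Option (Fin n)) => σ none) h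
    simp only [Equiv.swap_apply_left, Option.some.injEq, EmbeddingLike.apply_eq_iff_eq,
      Prod.mk.injEq, Subtype.mk.injEq, Fin.mk.injEq] at this
    exact ⟨this.1, by omega⟩
  · intro g
    exact dif_neg (by omega)
  · intro g
    exact dif_neg (by omega)

section Main
variable {G X H : Type*} [Group G] [MulAction G X] [Group H]

/-- the action of `G × H` on `X × H` -/
@[reducible] def act (G X H : Type*) [Group G] [MulAction G X] [Group H] :
    MulAction (G × H) (X × H) where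
  smul γ p := (γ.1 • p.1, γ.2 * p.2)
  one_smul p := by
    show ((1 : G) • p.1, (1 : H) * p.2) = p
    rw [one_smul, one_mul]
  mul_smul γ δ p := by
    show ((γ.1 * δ.1) • p.1, (γ.2 * δ.2) * p.2) = (γ.1 • δ.1 • p.1, γ.2 * (δ.2 * p.2))
    rw [mul_smul, mul_assoc]

attribute [local instance] act

theorem smul_def (γ : G × H) (p : X × H) : γ • p = (γ.1 • p.1, γ.2 * p.2) := rfl

theorem freeAct [MeasurableSpace X] [MeasurableSpace H] [DiscreteMeasurableSpace H]
    [Countable H] {μ : Measure X} [SFinite μ] (hF : FreeAct G X μ) :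
    FreeAct (G × H) (X × H) (μ.prod (Measure.count : Measure H)) where
  free γ p h := by
    rw [smul_def, Prod.ext_iff] at h
    obtain ⟨h1, h2⟩ := h
    refine Prod.ext (hF.free _ _ h1) ?_
    exact mul_eq_right.mp h2
  mp γ := by
    have h1 := hF.mp γ.1
    have h2 : MeasurePreserving (fun h : H => γ.2 * h) (Measure.count : Measure H)
        Measure.count := by
      refine ⟨measurable_of_countable _, ?_⟩
      ext s hs
      rw [Measure.map_apply (measurable_of_countable _) hs,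
        Measure.count_apply (measurable_of_countable _ hs), Measure.count_apply hs]
      have e : (fun h : H => γ.2 * h) ⁻¹' s = (Equiv.mulLeft γ.2).symm '' s := by
        rw [Equiv.image_symm_eq_preimage]
        rfl
      rw [e, (Equiv.mulLeft γ.2).symm.injective.encard_image]
    exact h1.prod h2

theorem altMap {B C : Subgroup G} (s : Bool) (l : List (G × H))
    (h : Alt (B.prod (⊤ : Subgroup H)) (C.prod (⊤ : Subgroup H)) s l) :
    Alt B C s (l.map Prod.fst) := by
  induction l generalizing s with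
  | nil => cases s <;> trivial
  | cons a l ih =>
    cases s
    · obtain ⟨⟨h1, h2⟩, h3⟩ := h
      rw [Subgroup.mem_prod] at h1 h2
      exact ⟨⟨h1.1, fun h => h2 ⟨h, Subgroup.mem_top _⟩⟩, ih _ h3⟩
    · obtain ⟨⟨h1, h2⟩, h3⟩ := h
      rw [Subgroup.mem_prod] at h1 h2
      exact ⟨⟨h1.1, fun h => h2 ⟨h, Subgroup.mem_top _⟩⟩, ih _ h3⟩

theorem amalgProp {B C : Subgroup G} (h : AmalgProp B C) :
    AmalgProp (B.prod (⊤ : Subgroup H)) (C.prod (⊤ : Subgroup H)) := by
  intro s l hl h2 h3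
  refine h s (l.map Prod.fst) (altMap s l hl) (by simpa using h2) ?_
  have : (l.map Prod.fst).prod = (l.prod).1 := by
    exact (map_list_prod (MonoidHom.fst G H) l).symm
  rw [this]
  exact h3.1

/-- the group element of the `k`-th step of the chord `g` -/
def el (P : G → ℕ → G) (sh : G → ℕ → H) (g : G) (k : ℕ) : G × H :=
  (P g (k + 1) * (P g k)⁻¹, sh g (k + 1) * (sh g k)⁻¹)

/-- the points where the `k`-th steps of the chords `g` start -/
def D (Ψ : Gr G X) (P : G → ℕ → G) (sh : G → ℕ → H) (g : G) (k : ℕ) : Set (X × H) :=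
  {p | p.2 = sh g k ∧ (P g k)⁻¹ • p.1 ∈ Ψ g}

/-- the unused points of the sheets -/
def J (F : Finset G) (L : ℕ) (Ψ : Gr G X) (P : G → ℕ → G) (sh : G → ℕ → H) : Set (X × H) :=
  {p | p.2 ≠ 1 ∧ ∀ g ∈ F, ∀ k, 1 ≤ k → k ≤ L → p ∉ D Ψ P sh g k}

/-- the subdivided graphing -/
def Phi (F : Finset G) (L : ℕ) (Ψ : Gr G X) (P : G → ℕ → G) (sh : G → ℕ → H) :
    Gr (G × H) (X × H) := fun γ =>
  {p | (∃ g ∈ F, ∃ k, k ≤ L ∧ el P sh g k = γ ∧ p ∈ D Ψ P sh g k) ∨
    (p ∈ J F L Ψ P sh ∧ γ = (1, p.2⁻¹))}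

omit [Group H] in
theorem D_meas [MeasurableSpace X] [MeasurableSpace H] [DiscreteMeasurableSpace H]
    {μ : Measure X} (hF : FreeAct G X μ) {Ψ : Gr G X} (hΨ : Ψ.Meas) (P : G → ℕ → G)
    (sh : G → ℕ → H) (g : G) (k : ℕ) : MeasurableSet (D Ψ P sh g k) := by
  have h1 : MeasurableSet {p : X × H | p.2 = sh g k} :=
    measurable_snd (MeasurableSet.of_discrete (s := {h : H | h = sh g k}))
  have h2 : MeasurableSet {p : X × H | (P g k)⁻¹ • p.1 ∈ Ψ g} :=
    ((hF.measurable_smul (P g k)⁻¹).comp measurable_fst) (hΨ g)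
  exact h1.inter h2

theorem J_meas [Countable G] [MeasurableSpace X] [MeasurableSpace H]
    [DiscreteMeasurableSpace H]
    {μ : Measure X} (hF : FreeAct G X μ) {Ψ : Gr G X} (hΨ : Ψ.Meas) (F : Finset G) (L : ℕ)
    (P : G → ℕ → G) (sh : G → ℕ → H) : MeasurableSet (J F L Ψ P sh) := by
  have h1 : MeasurableSet {p : X × H | p.2 ≠ 1} :=
    measurable_snd (MeasurableSet.of_discrete (s := {h : H | h ≠ 1}))
  have h2 : J F L Ψ P sh = {p : X × H | p.2 ≠ 1} ∩
      ⋂ g : G, ⋂ _ : g ∈ F, ⋂ k : ℕ, ⋂ _ : 1 ≤ k, ⋂ _ : k ≤ L, (D Ψ P sh g k)ᶜ := by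
    ext p
    simp only [J, Set.mem_ofPred_eq, Set.mem_inter_iff, Set.mem_iInter, Set.mem_compl_iff]
  rw [h2]
  exact h1.inter (MeasurableSet.iInter fun g => MeasurableSet.iInter fun _ =>
    MeasurableSet.iInter fun k => MeasurableSet.iInter fun _ => MeasurableSet.iInter fun _ =>
      (D_meas hF hΨ P sh g k).compl)

theorem Phi_meas [Countable G] [MeasurableSpace X] [MeasurableSpace H]
    [DiscreteMeasurableSpace H]
    {μ : Measure X} (hF : FreeAct G X μ) {Ψ : Gr G X} (hΨ : Ψ.Meas) (F : Finset G) (L : ℕ)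
    (P : G → ℕ → G) (sh : G → ℕ → H) : (Phi F L Ψ P sh).Meas := by
  intro γ
  have h1 : MeasurableSet {p : X × H | γ = (1, p.2⁻¹)} :=
    measurable_snd (MeasurableSet.of_discrete (s := {h : H | γ = (1, h⁻¹)}))
  have h2 : Phi F L Ψ P sh γ = (⋃ g : G, ⋃ _ : g ∈ F, ⋃ k : ℕ, ⋃ _ : k ≤ L,
      ⋃ _ : el P sh g k = γ, D Ψ P sh g k) ∪ (J F L Ψ P sh ∩ {p : X × H | γ = (1, p.2⁻¹)}) := by
    ext p
    simp only [Phi, Set.mem_ofPred_eq, Set.mem_union, Set.mem_inter_iff, Set.mem_iUnion,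
      exists_prop]
  rw [h2]
  refine MeasurableSet.union ?_ ((J_meas hF hΨ F L P sh).inter h1)
  exact (MeasurableSet.iUnion fun g => MeasurableSet.iUnion fun _ =>
    MeasurableSet.iUnion fun k => MeasurableSet.iUnion fun _ => MeasurableSet.iUnion fun _ =>
      (D_meas hF hΨ P sh g k))

theorem Phi_cost [Countable G] [Countable H] [MeasurableSpace X] [MeasurableSpace H]
    [DiscreteMeasurableSpace H]
    {μ : Measure X} [SFinite μ] (hF : FreeAct G X μ) {Ψ : Gr G X} (hΨ : Ψ.Meas) (F : Finset G)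
    (L : ℕ) (P : G → ℕ → G) (sh : G → ℕ → H) (hP0 : ∀ g, P g 0 = 1)
    (h1 : ∀ g ∈ F, ∀ k, 1 ≤ k → k ≤ L → sh g k ≠ 1)
    (h2 : ∀ g ∈ F, ∀ k, 1 ≤ k → k ≤ L → ∀ g' ∈ F, ∀ k', 1 ≤ k' → k' ≤ L →
        sh g k = sh g' k' → g = g' ∧ k = k')
    (h3 : ∀ g, sh g 0 = 1) :
    (Phi F L Ψ P sh).cost (μ.prod (Measure.count : Measure H)) ≤
      Ψ.cost μ + (μ.prod (Measure.count : Measure H)) {p : X × H | p.2 = 1}ᶜ := by
  classical
  set ν := μ.prod (Measure.count : Measure H) with hν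
  have hDm := D_meas hF hΨ P sh
  have hJm := J_meas hF hΨ F L P sh
  set JJ : Gr (G × H) (X × H) := fun γ => J F L Ψ P sh ∩ {p : X × H | γ = (1, p.2⁻¹)} with hJJ
  have hJJm : JJ.Meas := fun γ => hJm.inter
    (measurable_snd (MeasurableSet.of_discrete (s := {h : H | γ = (1, h⁻¹)})))
  have hJJc : JJ.cost ν ≤ ν (J F L Ψ P sh) := by
    refine Rd.cost_le_of_disjoint hJJm ?_ (fun γ => Set.inter_subset_left)
    rintro p γ δ ⟨_, hγ⟩ ⟨_, hδ⟩
    rw [Set.mem_ofPred_eq] at hγ hδ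
    rw [hγ, hδ]
  have hstep : ∀ γ, ν (Phi F L Ψ P sh γ) ≤
      (∑ i ∈ F ×ˢ Finset.range (L + 1), if el P sh i.1 i.2 = γ then ν (D Ψ P sh i.1 i.2) else 0)
        + ν (JJ γ) := by
    intro γ
    have hsub : Phi F L Ψ P sh γ ⊆ (⋃ i ∈ F ×ˢ Finset.range (L + 1),
        if el P sh i.1 i.2 = γ then D Ψ P sh i.1 i.2 else ∅) ∪ JJ γ := by
      rintro p (⟨g, hg, k, hk, he, hp⟩ | hp)
      · refine Or.inl (Set.mem_biUnion (x := (g, k)) ?_ ?_)
        · simp only [Finset.coe_product, Set.mem_prod, Finset.mem_coe, Finset.mem_range]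
          exact ⟨hg, by omega⟩
        · rw [if_pos he]
          exact hp
      · exact Or.inr hp
    refine (measure_mono hsub).trans ((measure_union_le _ _).trans ?_)
    refine add_le_add_left ((measure_biUnion_finset_le _ _).trans (le_of_eq ?_)) _
    refine Finset.sum_congr rfl fun i _ => ?_
    split_ifs
    · rfl
    · simp
  have hcost : (Phi F L Ψ P sh).cost ν ≤
      (∑ i ∈ F ×ˢ Finset.range (L + 1), ν (D Ψ P sh i.1 i.2)) + ν (J F L Ψ P sh) := by
    calc (Phi F L Ψ P sh).cost ν ≤ ∑' γ, ((∑ i ∈ F ×ˢ Finset.range (L + 1),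
          if el P sh i.1 i.2 = γ then ν (D Ψ P sh i.1 i.2) else 0) + ν (JJ γ)) :=
          ENNReal.tsum_le_tsum hstep
      _ = (∑ i ∈ F ×ˢ Finset.range (L + 1), ν (D Ψ P sh i.1 i.2)) + JJ.cost ν := by
          rw [ENNReal.tsum_add, Summable.tsum_finsetSum (fun i _ => ENNReal.summable)]
          congr 1
          refine Finset.sum_congr rfl fun i _ => ?_
          rw [tsum_eq_single (el P sh i.1 i.2) (fun γ hγ => if_neg (Ne.symm hγ)), if_pos rfl]
      _ ≤ _ := add_le_add_right hJJc _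
  have hsplit : (∑ i ∈ F ×ˢ Finset.range (L + 1), ν (D Ψ P sh i.1 i.2)) =
      (∑ i ∈ F ×ˢ Finset.range L, ν (D Ψ P sh i.1 (i.2 + 1))) + ∑ g ∈ F, ν (D Ψ P sh g 0) := by
    rw [Finset.sum_product, Finset.sum_product, ← Finset.sum_add_distrib]
    exact Finset.sum_congr rfl fun g _ => Finset.sum_range_succ' _ _
  have hzero : ∀ g, ν (D Ψ P sh g 0) = μ (Ψ g) := by
    intro g
    have : D Ψ P sh g 0 = Ψ g ×ˢ {(1 : H)} := by
      ext p
      simp only [D, hP0, h3, inv_one, one_smul, Set.mem_ofPred_eq, Set.mem_prod,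
        Set.mem_singleton_iff]
      exact and_comm
    rw [this, hν, Measure.prod_prod, Measure.count_singleton, mul_one]
  have hbase : ∑ g ∈ F, ν (D Ψ P sh g 0) ≤ Ψ.cost μ := by
    simp only [hzero]
    exact ENNReal.sum_le_tsum F
  have hrest : (∑ i ∈ F ×ˢ Finset.range L, ν (D Ψ P sh i.1 (i.2 + 1))) + ν (J F L Ψ P sh) ≤
      ν {p : X × H | p.2 = 1}ᶜ := by
    have hpd : Set.PairwiseDisjoint (↑(F ×ˢ Finset.range L) : Set (G × ℕ))
        (fun i => D Ψ P sh i.1 (i.2 + 1)) := by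
      rintro ⟨g, k⟩ hi ⟨g', k'⟩ hj hij
      simp only [Finset.coe_product, Set.mem_prod, Finset.mem_coe, Finset.mem_range] at hi hj
      rw [Function.onFun, Set.disjoint_left]
      rintro p ⟨hp, _⟩ ⟨hp', _⟩
      have := h2 g hi.1 (k + 1) (by omega) (by omega) g' hj.1 (k' + 1) (by omega) (by omega)
        (hp.symm.trans hp')
      exact hij (Prod.ext this.1 (by omega))
    rw [← measure_biUnion_finset hpd (fun i _ => hDm _ _), ← measure_union _ hJm]
    · refine measure_mono ?_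
      rintro p (hp | hp)
      · rw [Set.mem_iUnion₂] at hp
        obtain ⟨⟨g, k⟩, hi, hp⟩ := hp
        rw [Finset.mem_product, Finset.mem_range] at hi
        intro h
        exact h1 g hi.1 (k + 1) (by omega) (by omega) (hp.1.symm.trans h)
      · exact hp.1
    · rw [Set.disjoint_left]
      intro p hp hpJ
      rw [Set.mem_iUnion₂] at hp
      obtain ⟨⟨g, k⟩, hi, hp⟩ := hp
      rw [Finset.mem_product, Finset.mem_range] at hi
      exact hpJ.2 g hi.1 (k + 1) (by omega) (by omega) hp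
  calc (Phi F L Ψ P sh).cost ν ≤ _ := hcost
    _ = (∑ g ∈ F, ν (D Ψ P sh g 0)) +
        ((∑ i ∈ F ×ˢ Finset.range L, ν (D Ψ P sh i.1 (i.2 + 1))) + ν (J F L Ψ P sh)) := by
        rw [hsplit]; ring
    _ ≤ _ := add_le_add hbase hrest


/-- the splitting of `Phi` -/
theorem Phi_mem (F : Finset G) (L : ℕ) (Ψ : Gr G X) (P : G → ℕ → G) (sh : G → ℕ → H)
    {B C : Subgroup G} (hP : ∀ g k, P g (k + 1) * (P g k)⁻¹ ∈ B ∨ P g (k + 1) * (P g k)⁻¹ ∈ C)
    (γ : G × H) (hγ : γ ∉ B.prod (⊤ : Subgroup H)) (hγ' : γ ∉ C.prod (⊤ : Subgroup H)) :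
    Phi F L Ψ P sh γ = ∅ := by
  ext p
  simp only [Set.mem_empty_iff_false, iff_false]
  rintro (⟨g, hg, k, hk, rfl, hp⟩ | ⟨_, rfl⟩)
  · rcases hP g k with h | h
    · exact hγ ⟨h, Subgroup.mem_top _⟩
    · exact hγ' ⟨h, Subgroup.mem_top _⟩
  · exact hγ ⟨B.one_mem, Subgroup.mem_top _⟩

section Conn
variable {F : Finset G} {L : ℕ} {Ψ : Gr G X} {P : G → ℕ → G} {sh : G → ℕ → H}
  {C : Subgroup G}

/-- the forward path of a chord -/
theorem forward (hP0 : ∀ g, P g 0 = 1) (h3 : ∀ g, sh g 0 = 1)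
    (S : X × H → X × H → Prop) {g : G} (hg : g ∈ F) {x : X} (hx : x ∈ Ψ g) (j : ℕ)
    (hj : j ≤ L + 1) :
    Gen S (Phi F L Ψ P sh) (x, 1) (P g j • x, sh g j) := by
  induction j with
  | zero =>
    rw [hP0, h3, one_smul]
    exact Relation.EqvGen.refl _
  | succ j ih =>
    refine Relation.EqvGen.trans _ _ _ (ih (by omega)) (Relation.EqvGen.rel _ _ (Or.inr ?_))
    refine ⟨el P sh g j, Or.inl ⟨g, hg, j, by omega, rfl, rfl, ?_⟩, ?_⟩
    · show (P g j)⁻¹ • P g j • x ∈ Ψ g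
      rw [inv_smul_smul]
      exact hx
    · show (P g (j + 1) • x, sh g (j + 1)) =
        ((P g (j + 1) * (P g j)⁻¹) • P g j • x, (sh g (j + 1) * (sh g j)⁻¹) * sh g j)
      rw [mul_smul, inv_smul_smul, inv_mul_cancel_right]

theorem toBase (hP0 : ∀ g, P g 0 = 1) (h3 : ∀ g, sh g 0 = 1)
    (S : X × H → X × H → Prop) (p : X × H) :
    ∃ g : G, Gen S (Phi F L Ψ P sh) p (g • p.1, 1) := by
  by_cases h1 : p.2 = 1
  · refine ⟨1, ?_⟩
    rw [one_smul, ← h1]
    exact Relation.EqvGen.refl _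
  by_cases h2 : p ∈ J F L Ψ P sh
  · refine ⟨1, Relation.EqvGen.rel _ _ (Or.inr ⟨(1, p.2⁻¹), Or.inr ⟨h2, rfl⟩, ?_⟩)⟩
    show (((1 : G) • p.1, (1 : H)) : X × H) = ((1 : G) • p.1, p.2⁻¹ * p.2)
    rw [inv_mul_cancel]
  · have h2' : ∃ g ∈ F, ∃ k, 1 ≤ k ∧ k ≤ L ∧ p ∈ D Ψ P sh g k := by
      by_contra hcon
      push Not at hcon
      exact h2 ⟨h1, hcon⟩
    obtain ⟨g, hg, k, hk1, hk, hp1, hp2⟩ := h2'
    refine ⟨(P g k)⁻¹, Relation.EqvGen.symm _ _ ?_⟩
    have := forward (L := L) (sh := sh) hP0 h3 S hg hp2 k (by omega)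
    rw [smul_inv_smul, ← hp1] at this
    exact this

theorem base_conn (hP0 : ∀ g, P g 0 = 1) (h3 : ∀ g, sh g 0 = 1) (h4 : ∀ g, sh g (L + 1) = 1)
    (hPL : ∀ g ∈ F, P g (L + 1) = g) (hsup : ∀ g, (Ψ g).Nonempty → g ∈ F)
    {p q : X} (h : Gen (OR C) Ψ p q) :
    Gen (ORon (C.prod (⊤ : Subgroup H)) {p : X × H | p.2 = 1}) (Phi F L Ψ P sh)
      (p, 1) (q, 1) := by
  induction h with
  | rel p q h =>
    rcases h with ⟨c, hc, rfl⟩ | ⟨g, hp, rfl⟩
    · refine Relation.EqvGen.rel _ _ (Or.inl ⟨rfl, rfl, (c, 1), ⟨hc, Subgroup.mem_top _⟩, ?_⟩)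
      show ((c • p, (1 : H)) : X × H) = (c • p, 1 * 1)
      rw [mul_one]
    · have hg := hsup g ⟨p, hp⟩
      have := forward (L := L) (sh := sh) hP0 h3
        (ORon (C.prod (⊤ : Subgroup H)) {p : X × H | p.2 = 1}) hg hp (L + 1) le_rfl
      rwa [hPL g hg, h4] at this
  | refl p => exact Relation.EqvGen.refl _
  | symm p q _ ih => exact Relation.EqvGen.symm _ _ ih
  | trans p q r _ _ ih1 ih2 => exact Relation.EqvGen.trans _ _ _ ih1 ih2

theorem conn (hP0 : ∀ g, P g 0 = 1) (h3 : ∀ g, sh g 0 = 1) (h4 : ∀ g, sh g (L + 1) = 1)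
    (hPL : ∀ g ∈ F, P g (L + 1) = g) (hsup : ∀ g, (Ψ g).Nonempty → g ∈ F)
    (hgen : ∀ (p : X) (g : G), Gen (OR C) Ψ p (g • p)) (p : X × H) (γ : G × H) :
    Gen (ORon (C.prod (⊤ : Subgroup H)) {p : X × H | p.2 = 1}) (Phi F L Ψ P sh)
      p (γ • p) := by
  obtain ⟨g1, hg1⟩ := toBase (F := F) (L := L) (Ψ := Ψ) hP0 h3
    (ORon (C.prod (⊤ : Subgroup H)) {p : X × H | p.2 = 1}) p
  obtain ⟨g2, hg2⟩ := toBase (F := F) (L := L) (Ψ := Ψ) hP0 h3
    (ORon (C.prod (⊤ : Subgroup H)) {p : X × H | p.2 = 1}) (γ • p)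
  refine Relation.EqvGen.trans _ _ _ hg1
    (Relation.EqvGen.trans _ _ _ ?_ (Relation.EqvGen.symm _ _ hg2))
  apply base_conn hP0 h3 h4 hPL hsup
  have := hgen (g1 • p.1) (g2 * γ.1 * g1⁻¹)
  have e : (g2 * γ.1 * g1⁻¹) • g1 • p.1 = g2 • (γ • p).1 := by
    rw [smul_def, mul_smul, inv_smul_smul, mul_smul]
  rwa [e] at this

end Conn

end Main

attribute [local instance] act

theorem main {G X H : Type*} [Group G] [Countable G] [MulAction G X] [MeasurableSpace X]
    [StandardBorelSpace X] {μ : Measure X} [IsFiniteMeasure μ] [Group H] [Finite H]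
    [MeasurableSpace H] [DiscreteMeasurableSpace H] (hF : FreeAct G X μ) {B C : Subgroup G}
    (hAP : AmalgProp B C) {Ψ : Gr G X} (hΨ : Ψ.Meas)
    (hgen : ∀ (p : X) (g : G), Gen (OR C) Ψ p (g • p)) {η : ENNReal} (hη : η ≠ 0)
    (F : Finset G) (L : ℕ) (P : G → ℕ → G) (sh : G → ℕ → H)
    (hsup : ∀ g, (Ψ g).Nonempty → g ∈ F)
    (hP0 : ∀ g, P g 0 = 1) (hPL : ∀ g ∈ F, P g (L + 1) = g)
    (hP : ∀ g k, P g (k + 1) * (P g k)⁻¹ ∈ B ∨ P g (k + 1) * (P g k)⁻¹ ∈ C)
    (h1 : ∀ g ∈ F, ∀ k, 1 ≤ k → k ≤ L → sh g k ≠ 1)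
    (h2 : ∀ g ∈ F, ∀ k, 1 ≤ k → k ≤ L → ∀ g' ∈ F, ∀ k', 1 ≤ k' → k' ≤ L →
        sh g k = sh g' k' → g = g' ∧ k = k')
    (h3 : ∀ g, sh g 0 = 1) (h4 : ∀ g, sh g (L + 1) = 1) :
    ∃ Ψ' : Gr G X, Ψ'.Meas ∧ Ψ'.SuppIn B ∧ (∀ p q, OR B p q → Gen (OR (B ⊓ C)) Ψ' p q) ∧
      Ψ'.cost μ ≤ Ψ.cost μ + η := by
  classical
  set ν := μ.prod (Measure.count : Measure H) with hν
  have hFZ : FreeAct (G × H) (X × H) ν := freeAct hF
  set A : Set (X × H) := {p | p.2 = 1} with hA
  have hAm : MeasurableSet A := measurable_snd (MeasurableSet.of_discrete (s := {h : H | h = 1}))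
  set B' : Subgroup (G × H) := B.prod ⊤ with hB'
  set C' : Subgroup (G × H) := C.prod ⊤ with hC'
  set Φ := Phi F L Ψ P sh with hΦ
  have hΦm : Φ.Meas := Phi_meas hF hΨ F L P sh
  have hΦc : Φ.cost ν ≤ Ψ.cost μ + ν Aᶜ := Phi_cost hF hΨ F L P sh hP0 h1 h2 h3
  -- splitting
  let ΦB : Gr (G × H) (X × H) := fun γ => if γ ∈ B' then Φ γ else ∅
  let ΦC : Gr (G × H) (X × H) := fun γ => if γ ∈ B' then ∅ else Φ γ
  have hBm : ΦB.Meas := fun γ => by
    simp only [ΦB]; split_ifs
    · exact hΦm γ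
    · exact MeasurableSet.empty
  have hCm : ΦC.Meas := fun γ => by
    simp only [ΦC]; split_ifs
    · exact MeasurableSet.empty
    · exact hΦm γ
  have hBs : ΦB.SuppIn B' := fun γ hγ => if_neg hγ
  have hCs : ΦC.SuppIn C' := fun γ hγ => by
    simp only [ΦC]; split_ifs with h
    · rfl
    · exact Phi_mem F L Ψ P sh hP γ h hγ
  have hun : (fun γ => ΦB γ ∪ ΦC γ) = Φ := by
    funext γ
    simp only [ΦB, ΦC]; split_ifs <;> simp
  have hsum : ΦB.cost ν + ΦC.cost ν = Φ.cost ν := by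
    unfold Gr.cost
    rw [← ENNReal.tsum_add]
    refine tsum_congr fun γ => ?_
    simp only [ΦB, ΦC]; split_ifs <;> simp
  obtain ⟨Φ', hm', hs', hg', hc'⟩ := partI (ν := ν) hFZ (amalgProp (H := H) hAP) hAm
    (r := fun p => (1, p.2⁻¹))
    (fun γ => measurable_snd (MeasurableSet.of_discrete (s := {h : H | ((1 : G), h⁻¹) = γ})))
    (fun p => ⟨⟨B.one_mem, Subgroup.mem_top _⟩, ⟨C.one_mem, Subgroup.mem_top _⟩⟩)
    (fun p => by
      show p.2⁻¹ * p.2 = 1
      exact inv_mul_cancel _)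
    hBm hCm hBs hCs (fun p γ => by
      rw [hun]
      exact conn hP0 h3 h4 hPL hsup hgen p γ) hη
  rw [hsum] at hc'
  -- contraction
  have hS' : ∀ p q, ORon (B' ⊓ C') A p q → p ∈ A ∧ q ∈ A := fun p q h => ⟨h.1, h.2.1⟩
  obtain ⟨Ψ1, k1, k2, k3, k4, k5, k6⟩ := contract (ν := ν) hFZ hAm hS' hm' (fun p => by
    refine ⟨((1 : G), p.2⁻¹) • p, ?_, hg' _ _ ⟨((1 : G), p.2⁻¹),
      ⟨B.one_mem, Subgroup.mem_top _⟩, rfl⟩⟩
    show p.2⁻¹ * p.2 = 1
    exact inv_mul_cancel _)
  have hGenB : ∀ p q, Gen (ORon (B' ⊓ C') A) Φ' p q → OR B' p q := by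
    intro p q h
    refine PartI.gen_le (PartI.or_equiv B') ?_ (fun a b hab => PartI.step_or hs' hab) h
    rintro a b ⟨_, _, hab⟩
    exact PartI.or_mono inf_le_left hab
  refine ⟨fun g => {x | (x, (1 : H)) ∈ Ψ1 (g, 1)}, ?_, ?_, ?_, ?_⟩
  · intro g
    exact (measurable_id.prodMk measurable_const) (k1 (g, 1))
  · intro g hg
    ext x
    simp only [Set.mem_ofPred_eq, Set.mem_empty_iff_false, iff_false]
    intro hx
    obtain ⟨β, hβ, hβ'⟩ := hGenB _ _ (k4 _ _ ⟨(g, 1), hx, rfl⟩)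
    have : g = β.1 := hF.eq_of_smul_eq (congrArg Prod.fst hβ')
    rw [this] at hg
    exact hg hβ.1
  · intro p q hpq
    obtain ⟨b, hb, rfl⟩ := hpq
    have hor : OR B' (p, (1 : H)) (b • p, 1) := by
      refine ⟨(b, 1), ⟨hb, Subgroup.mem_top _⟩, ?_⟩
      show ((b • p, (1 : H)) : X × H) = (b • p, 1 * 1)
      rw [mul_one]
    have h := k5 (p, 1) rfl (b • p, 1) rfl (hg' _ _ hor)
    have key : ∀ u v : X × H, Gen (ORon (B' ⊓ C') A) Ψ1 u v →
        Gen (OR (B ⊓ C)) (fun g => {x | (x, (1 : H)) ∈ Ψ1 (g, 1)}) u.1 v.1 := by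
      intro u v huv
      induction huv with
      | rel u v h =>
        rcases h with ⟨_, _, e, he, rfl⟩ | ⟨γ, hu, rfl⟩
        · exact Relation.EqvGen.rel _ _ (Or.inl ⟨e.1, ⟨he.1.1, he.2.1⟩, rfl⟩)
        · have hu1 : u.2 = 1 := k2 γ hu
          have hv1 : γ.2 * u.2 = 1 := k3 γ u hu
          have hγ : γ.2 = 1 := by rwa [hu1, mul_one] at hv1
          refine Relation.EqvGen.rel _ _ (Or.inr ⟨γ.1, ?_, rfl⟩)
          show (u.1, (1 : H)) ∈ Ψ1 (γ.1, 1)
          rw [← hγ, show (u.1, γ.2) = u from Prod.ext rfl (hγ.trans hu1.symm)]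
          exact hu
      | refl u => exact Relation.EqvGen.refl _
      | symm u v _ ih => exact Relation.EqvGen.symm _ _ ih
      | trans u v w _ _ ih1 ih2 => exact Relation.EqvGen.trans _ _ _ ih1 ih2
    exact key _ _ h
  · have hc1 : Gr.cost μ (fun g => {x | (x, (1 : H)) ∈ Ψ1 (g, 1)}) ≤ Ψ1.cost ν := by
      unfold Gr.cost
      calc ∑' g, μ {x | (x, (1 : H)) ∈ Ψ1 (g, 1)} ≤ ∑' g, ν (Ψ1 (g, 1)) := by
            refine ENNReal.tsum_le_tsum fun g => ?_
            have : {x | (x, (1 : H)) ∈ Ψ1 (g, 1)} ×ˢ {(1 : H)} ⊆ Ψ1 (g, 1) := by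
              rintro ⟨x, h⟩ ⟨hx, hh⟩
              rw [Set.mem_singleton_iff] at hh
              simp only at hh
              subst hh
              exact hx
            calc μ {x | (x, (1 : H)) ∈ Ψ1 (g, 1)} =
                ν ({x | (x, (1 : H)) ∈ Ψ1 (g, 1)} ×ˢ {(1 : H)}) := by
                  rw [hν, Measure.prod_prod, Measure.count_singleton, mul_one]
              _ ≤ _ := measure_mono this
        _ ≤ ∑' γ, ν (Ψ1 γ) := ENNReal.tsum_comp_le_tsum_of_injective
            (f := fun g : G => (g, (1 : H))) (fun a b h => congrArg Prod.fst h) _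
    have hfinA : ν Aᶜ ≠ ⊤ := measure_ne_top _ _
    have htot : Gr.cost μ (fun g => {x | (x, (1 : H)) ∈ Ψ1 (g, 1)}) + ν Aᶜ ≤
        (Ψ.cost μ + η) + ν Aᶜ := by
      calc _ ≤ Ψ1.cost ν + ν Aᶜ := add_le_add_left hc1 _
        _ ≤ Φ'.cost ν := k6
        _ ≤ Φ.cost ν + η := hc'
        _ ≤ (Ψ.cost μ + ν Aᶜ) + η := add_le_add_left hΦc _
        _ = _ := by ring
    exact (ENNReal.add_le_add_iff_right hfinA).mp htot

end Sheets

section Sheets
variable {G X : Type*} [Group G] [Countable G] [MulAction G X] [MeasurableSpace X]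
  [StandardBorelSpace X] {μ : Measure X} [IsFiniteMeasure μ]

theorem relcost_amalgam (hF : FreeAct G X μ) {B C : Subgroup G} (hAP : AmalgProp B C)
    (hBC : B ⊔ C = ⊤) {Ψ : Gr G X} (hΨ : Ψ.Meas) (hfin : Ψ.FinSupp)
    (hgen : ∀ (p : X) (g : G), Gen (OR C) Ψ p (g • p)) {η : ENNReal} (hη : η ≠ 0) :
    ∃ Ψ' : Gr G X, Ψ'.Meas ∧ Ψ'.SuppIn B ∧ (∀ p q, OR B p q → Gen (OR (B ⊓ C)) Ψ' p q) ∧
      Ψ'.cost μ ≤ Ψ.cost μ + η := by
  classical
  choose n P hP0 hP1 hP2 using fun g => Sheets.exists_path hBC g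
  set F : Finset G := hfin.toFinset with hFdef
  set L := F.sup n with hL
  obtain ⟨H, _, _, sh, s1, s2, s3, s4⟩ := Sheets.exists_sheets F L
  let _ : MeasurableSpace H := ⊤
  have : DiscreteMeasurableSpace H := ⟨fun _ => trivial⟩
  refine Sheets.main hF hAP hΨ hgen hη F L P sh (fun g hg => (Set.Finite.mem_toFinset hfin).mpr hg) hP0
    (fun g hg => hP1 g _ ?_) hP2 s1 s2 s3 s4
  have := Finset.le_sup (f := n) hg
  omega

end Sheets

end Crest.Agent.R191
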