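import Crest.Agent.R191.Rel
import Crest.Agent.R191.IIDefs
import Crest.Agent.R191.Defs
import Crest.Agent.R191.BuildTG_Mg
import Crest.Agent.R191.Sheets
import Mathlib
import Crest.Prelude.Def_Cost

-- ▼ part R191/Truncate
section

/-!
# Row 191, T9: truncation to finitely many group elements
-/

set_option autoImplicit false

namespace Crest.Agent.R191

open MeasureTheory Filter Topology

section Truncate

variable {G X : Type*} [Group G] [MulAction G X]

theorem gen_mono {S : X → X → Prop} {Φ Ψ : Gr G X} (h : ∀ g, Φ g ⊆ Ψ g) {p q : X}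
    (hpq : Gen S Φ p q) : Gen S Ψ p q := by
  refine Relation.EqvGen.mono (fun a b => ?_) _ _ hpq
  rintro (hab | ⟨g, hg, hb⟩)
  · exact Or.inl hab
  · exact Or.inr ⟨g, h g hg, hb⟩

theorem gen_le_of {S : X → X → Prop} {Φ Ψ : Gr G X}
    (h : ∀ g, ∀ p ∈ Φ g, Gen S Ψ p (g • p)) {p q : X} (hpq : Gen S Φ p q) : Gen S Ψ p q := by
  induction hpq with
  | rel a b hab =>
    rcases hab with hab | ⟨g, hg, rfl⟩
    · exact Relation.EqvGen.rel _ _ (Or.inl hab)
    · exact h g a hg
  | refl a => exact Relation.EqvGen.refl _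
  | symm a b _ ih => exact Relation.EqvGen.symm _ _ ih
  | trans a b c _ _ ih1 ih2 => exact Relation.EqvGen.trans _ _ _ ih1 ih2

open Classical in
/-- Restriction of a graphing to finitely many group elements. -/
def Gr.restr (Ψ : Gr G X) (s : Finset G) : Gr G X := fun g => if g ∈ s then Ψ g else ∅

theorem Gr.restr_subset (Ψ : Gr G X) (s : Finset G) (g : G) : Ψ.restr s g ⊆ Ψ g := by
  unfold Gr.restr
  split_ifs
  · exact subset_rfl
  · exact Set.empty_subset _

theorem Gr.restr_mono (Ψ : Gr G X) {s t : Finset G} (hst : s ⊆ t) (g : G) :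
    Ψ.restr s g ⊆ Ψ.restr t g := by
  unfold Gr.restr
  by_cases h : g ∈ s
  · rw [if_pos h, if_pos (hst h)]
  · rw [if_neg h]
    exact Set.empty_subset _

/-- A generated pair is already generated by finitely many group elements. -/
theorem exists_restr_gen {S : X → X → Prop} {Ψ : Gr G X} {s : ℕ → Finset G} (hs : Monotone s)
    (hsu : ∀ g, ∃ n, g ∈ s n) {p q : X} (hpq : Gen S Ψ p q) :
    ∃ n, Gen S (Ψ.restr (s n)) p q := by
  induction hpq with
  | rel a b hab =>
    rcases hab with hab | ⟨g, hg, rfl⟩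
    · exact ⟨0, Relation.EqvGen.rel _ _ (Or.inl hab)⟩
    · obtain ⟨n, hn⟩ := hsu g
      refine ⟨n, Relation.EqvGen.rel _ _ (Or.inr ⟨g, ?_, rfl⟩)⟩
      unfold Gr.restr
      rw [if_pos hn]
      exact hg
  | refl a => exact ⟨0, Relation.EqvGen.refl _⟩
  | symm a b _ ih =>
    obtain ⟨n, hn⟩ := ih
    exact ⟨n, Relation.EqvGen.symm _ _ hn⟩
  | trans a b c _ _ ih1 ih2 =>
    obtain ⟨n, hn⟩ := ih1
    obtain ⟨m, hm⟩ := ih2
    refine ⟨max n m, Relation.EqvGen.trans _ b _ ?_ ?_⟩
    · exact gen_mono (Ψ.restr_mono (hs (le_max_left n m))) hn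
    · exact gen_mono (Ψ.restr_mono (hs (le_max_right n m))) hm

end Truncate

section Truncate

variable {G X : Type*} [Group G] [Countable G] [MulAction G X] [MeasurableSpace X]
  {μ : Measure X} [IsFiniteMeasure μ]

theorem truncate (hF : FreeAct G X μ) {S : X → X → Prop} (hS : MRel G S) (F : Finset G)
    {H : Subgroup G} (hFH : ∀ g ∈ F, g ∈ H)
    (hgenF : ∀ p q, OR H p q → Gen S (fun g => {_p : X | g ∈ F}) p q)
    {Ψ : Gr G X} (hΨ : Ψ.Meas) (hsupp : Ψ.SuppIn H)
    (hgen : ∀ p, ∀ g ∈ F, Gen S Ψ p (g • p)) {η : ENNReal} (hη : η ≠ 0) :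
    ∃ Ψ' : Gr G X, Ψ'.Meas ∧ Ψ'.FinSupp ∧ Ψ'.SuppIn H ∧ (∀ p q, OR H p q → Gen S Ψ' p q) ∧
      Ψ'.cost μ ≤ Ψ.cost μ + η := by
  classical
  obtain ⟨e, he⟩ := exists_injective_nat G
  have hfin : ∀ n : ℕ, {g : G | e g < n}.Finite := fun n =>
    Set.Finite.preimage he.injOn (Set.finite_Iio n)
  let s : ℕ → Finset G := fun n => (hfin n).toFinset
  have hs : Monotone s := by
    intro n m hnm g hg
    simp only [s, Set.Finite.mem_toFinset, Set.mem_ofPred_eq] at hg ⊢
    omega
  have hsu : ∀ g, ∃ n, g ∈ s n := fun g => ⟨e g + 1, by simp [s]⟩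
  have hmeas : ∀ n, (Ψ.restr (s n)).Meas := by
    intro n g
    unfold Gr.restr
    split_ifs
    · exact hΨ g
    · exact MeasurableSet.empty
  let D : ℕ → G → Set X := fun n g => {p | ¬ Gen S (Ψ.restr (s n)) p (g • p)}
  have hDm : ∀ n g, MeasurableSet (D n g) := fun n g =>
    ((MRel.gen hF hS (hmeas n)).meas g).compl
  have hDanti : ∀ g, Antitone (fun n => D n g) := by
    intro g n m hnm p hp hp'
    exact hp (gen_mono (Ψ.restr_mono (hs hnm)) hp')
  have hDempty : ∀ g ∈ F, ⋂ n, D n g = ∅ := by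
    intro g hg
    rw [Set.eq_empty_iff_forall_notMem]
    intro p hp
    obtain ⟨n, hn⟩ := exists_restr_gen hs hsu (hgen p g hg)
    exact (Set.mem_iInter.mp hp n) hn
  have hlim : ∀ g ∈ F, Tendsto (fun n => μ (D n g)) atTop (𝓝 0) := by
    intro g hg
    have := tendsto_measure_iInter_atTop (μ := μ) (fun n => (hDm n g).nullMeasurableSet)
      (hDanti g) ⟨0, measure_ne_top μ _⟩
    rwa [hDempty g hg, measure_empty] at this
  have hsum : Tendsto (fun n => ∑ g ∈ F, μ (D n g)) atTop (𝓝 0) := by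
    have := tendsto_finsetSum F hlim
    simpa using this
  obtain ⟨n, hn⟩ : ∃ n, ∑ g ∈ F, μ (D n g) ≤ η := by
    have := hsum.eventually (gt_mem_nhds (pos_iff_ne_zero.mpr hη))
    obtain ⟨n, hn⟩ := this.exists
    exact ⟨n, le_of_lt hn⟩
  let Ψ' : Gr G X := fun g => Ψ.restr (s n) g ∪ (if g ∈ F then D n g else ∅)
  refine ⟨Ψ', ?_, ?_, ?_, ?_, ?_⟩
  · intro g
    refine (hmeas n g).union ?_
    split_ifs
    · exact hDm n g
    · exact MeasurableSet.empty
  · refine (Set.Finite.union (s n).finite_toSet F.finite_toSet).subset ?_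
    rintro g ⟨p, hp⟩
    rcases hp with hp | hp
    · left
      unfold Gr.restr at hp
      by_contra h
      rw [if_neg (by simpa using h)] at hp
      exact hp
    · right
      by_contra h
      rw [if_neg (by simpa using h)] at hp
      exact hp
  · intro g hg
    have h1 : Ψ.restr (s n) g = ∅ := by
      rw [← Set.subset_empty_iff, ← hsupp g hg]
      exact Ψ.restr_subset _ g
    have h2 : g ∉ F := fun h => hg (hFH g h)
    simp only [Ψ', h1, if_neg h2, Set.union_empty]
  · intro p q hpq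
    refine gen_le_of ?_ (hgenF p q hpq)
    intro g p hp
    have hgF : g ∈ F := hp
    by_cases h : Gen S (Ψ.restr (s n)) p (g • p)
    · exact gen_mono (fun g => Set.subset_union_left) h
    · refine Relation.EqvGen.rel _ _ (Or.inr ⟨g, Or.inr ?_, rfl⟩)
      rw [if_pos hgF]
      exact h
  · calc Ψ'.cost μ ≤ ∑' g, (μ (Ψ g) + μ (if g ∈ F then D n g else ∅)) := by
          refine ENNReal.tsum_le_tsum fun g => ?_
          refine (measure_union_le _ _).trans ?_
          gcongr
          exact Ψ.restr_subset _ g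
      _ = Ψ.cost μ + ∑' g, μ (if g ∈ F then D n g else ∅) := ENNReal.tsum_add
      _ = Ψ.cost μ + ∑ g ∈ F, μ (D n g) := by
          congr 1
          rw [tsum_eq_sum (s := F)]
          · exact Finset.sum_congr rfl fun g hg => by rw [if_pos hg]
          · intro g hg
            rw [if_neg hg, measure_empty]
      _ ≤ Ψ.cost μ + η := by gcongr

end Truncate

end Crest.Agent.R191
end

-- ▼ part R191/Folded
section

/-!
# Row 191, T13: a fold-closed quotient of a connected graph over the forest is injective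

The partial injections between the classes over the P-node `y` and over the e-node `gam j • y` are
extended to permutations of a big type `W × ℕ`; this gives an action of the free group on
`X × (W × ℕ)` covering the free action on `X`, and connected nodes lie in one orbit.
-/

set_option autoImplicit false

namespace Crest.Agent.R191

/-- A partial injection of a type `W` extends to a permutation of `W × ℕ`. -/
theorem exists_perm_extends_nat {W : Type*} (R : W → W → Prop)
    (h1 : ∀ p c c', R p c → R p c' → c = c') (h2 : ∀ p p' c, R p c → R p' c → p = p') :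
    ∃ σ : Equiv.Perm (W × ℕ), ∀ p c, R p c → σ (p, 0) = (c, 0) := by
  classical
  let D : Set (W × ℕ) := {u | u.2 = 0 ∧ ∃ c, R u.1 c}
  let I : Set (W × ℕ) := {v | v.2 = 0 ∧ ∃ p, R p v.1}
  let f : D → I := fun u => ⟨(u.2.2.choose, 0), rfl, u.1.1, u.2.2.choose_spec⟩
  have hf : ∀ u : D, R u.1.1 (f u).1.1 := fun u => u.2.2.choose_spec
  have hf0 : ∀ u : D, (f u).1.2 = 0 := fun u => rfl
  have hbij : Function.Bijective f := by
    constructor
    · intro u v huv
      have h := hf u
      rw [huv] at h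
      apply Subtype.ext
      apply Prod.ext
      · exact h2 _ _ _ h (hf v)
      · rw [u.2.1, v.2.1]
    · rintro ⟨v, hv0, p, hp⟩
      refine ⟨⟨(p, 0), rfl, v.1, hp⟩, ?_⟩
      apply Subtype.ext
      apply Prod.ext
      · exact h1 _ _ _ (hf _) hp
      · exact hv0.symm
  let e : D ≃ I := Equiv.ofBijective f hbij
  -- the complements are equivalent
  let shift : W × ℕ → W × ℕ := fun u => (u.1, u.2 + 1)
  have hshift : Function.Injective shift := by
    intro u v h
    apply Prod.ext
    · have : (shift u).1 = (shift v).1 := by rw [h]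
      exact this
    · have : (shift u).2 = (shift v).2 := by rw [h]
      have : u.2 + 1 = v.2 + 1 := this
      omega
  have hex : Nonempty ((Dᶜ : Set (W × ℕ)) ≃ (Iᶜ : Set (W × ℕ))) := by
    have e1 : (Dᶜ : Set (W × ℕ)) ↪ (Iᶜ : Set (W × ℕ)) :=
      ⟨fun u => ⟨shift u.1, fun h => Nat.succ_ne_zero _ h.1⟩, fun u v h =>
        Subtype.ext (hshift (congrArg Subtype.val h))⟩
    have e2 : (Iᶜ : Set (W × ℕ)) ↪ (Dᶜ : Set (W × ℕ)) :=
      ⟨fun u => ⟨shift u.1, fun h => Nat.succ_ne_zero _ h.1⟩, fun u v h =>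
        Subtype.ext (hshift (congrArg Subtype.val h))⟩
    obtain ⟨g, hg⟩ := Function.Embedding.schroeder_bernstein e1.injective e2.injective
    exact ⟨Equiv.ofBijective g hg⟩
  obtain ⟨ec⟩ := hex
  let σ : Equiv.Perm (W × ℕ) :=
    (Equiv.Set.sumCompl D).symm.trans ((Equiv.sumCongr e ec).trans (Equiv.Set.sumCompl I))
  refine ⟨σ, fun p c hpc => ?_⟩
  have hp : ((p, 0) : W × ℕ) ∈ D := ⟨rfl, c, hpc⟩
  show (Equiv.Set.sumCompl I) ((Equiv.sumCongr e ec) ((Equiv.Set.sumCompl D).symm (p, 0))) = (c, 0)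
  rw [Equiv.Set.sumCompl_symm_apply_of_mem hp]
  show ((e ⟨(p, 0), hp⟩ : I) : W × ℕ) = (c, 0)
  apply Prod.ext
  · exact h1 _ _ _ (hf ⟨(p, 0), hp⟩) hpc
  · rfl

/-- An immersed coloured graph over the forest of a free action of `F₂` is injective. -/
theorem forest_merge_nat {X W : Type*} [MulAction F2 X]
    (hfree : ∀ (w : F2) (x : X), w • x = x → w = 1)
    (R : X → Fin 3 → W → W → Prop)
    (h1 : ∀ y j p c c', R y j p c → R y j p c' → c = c')
    (h2 : ∀ y j p p' c, R y j p c → R y j p' c → p = p') {x : X} {c c' : W}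
    (h : Relation.EqvGen (fun u v : (X × W) ⊕ (X × W) =>
      ∃ y j p c, R y j p c ∧ u = .inr (y, p) ∧ v = .inl (gam j • y, c))
        (.inl (x, c)) (.inl (x, c'))) : c = c' := by
  classical
  choose σ hσ using fun (y : X) (j : Fin 3) => exists_perm_extends_nat (R y j) (h1 y j) (h2 y j)
  let φ : Fin 3 → Equiv.Perm (X × (W × ℕ)) := fun j =>
    { toFun := fun u => (gam j • u.1, σ u.1 j u.2)
      invFun := fun v => ((gam j)⁻¹ • v.1, (σ ((gam j)⁻¹ • v.1) j).symm v.2)
      left_inv := fun u => by simp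
      right_inv := fun v => by simp }
  let Φ : F2 →* Equiv.Perm (X × (W × ℕ)) :=
    FreeGroup.lift ![φ 1 * (φ 0)⁻¹, φ 2 * (φ 0)⁻¹]
  have hφ1 : ∀ j u, (φ j u).1 = gam j • u.1 := fun j u => rfl
  have hinv : ∀ v, (φ 0)⁻¹ (φ 0 v) = v := fun v => (φ 0).symm_apply_apply v
  have hΦ : ∀ j, φ j * (φ 0)⁻¹ = Φ (gam j) := by
    intro j
    fin_cases j
    · simp [gam]
    · simp [gam, la, Φ]
    · simp [gam, lb, Φ]
  have hcov : ∀ w : F2, ∀ u, (Φ w u).1 = w • u.1 := by
    intro w
    induction w using FreeGroup.induction_on with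
    | C1 => intro u; simp
    | of i =>
      intro u
      have key : ∀ j, ∀ u, (Φ (gam j) u).1 = gam j • u.1 := by
        intro j u
        rw [← hΦ j]
        obtain ⟨v, rfl⟩ := (φ 0).surjective u
        simp only [Equiv.Perm.mul_apply, hinv, hφ1]
        simp [gam]
      fin_cases i
      · exact key 1 u
      · exact key 2 u
    | inv_of i hi =>
      intro u
      have h := hi (Φ (FreeGroup.of i)⁻¹ u)
      rw [← Equiv.Perm.mul_apply, ← map_mul, mul_inv_cancel, map_one, Equiv.Perm.one_apply] at h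
      rw [h, inv_smul_smul]
    | mul w₁ w₂ h₁ h₂ =>
      intro u
      rw [map_mul, Equiv.Perm.mul_apply, h₁, h₂, mul_smul]
  -- node potential
  let pot : (X × W) ⊕ (X × W) → X × (W × ℕ) :=
    Sum.elim (fun v => (v.1, (v.2, 0))) (fun u => φ 0 (u.1, (u.2, 0)))
  have hstep : ∀ u v, Relation.EqvGen (fun u v : (X × W) ⊕ (X × W) =>
      ∃ y j p c, R y j p c ∧ u = .inr (y, p) ∧ v = .inl (gam j • y, c)) u v →
      ∃ w : F2, pot v = Φ w (pot u) := by
    intro u v huv
    induction huv with
    | rel u v h =>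
      obtain ⟨y, j, p, c, hR, rfl, rfl⟩ := h
      refine ⟨gam j, ?_⟩
      rw [← hΦ j]
      show (gam j • y, (c, 0)) = (φ j * (φ 0)⁻¹) (φ 0 (y, (p, 0)))
      rw [Equiv.Perm.mul_apply, hinv]
      show _ = (gam j • y, σ y j (p, 0))
      rw [hσ y j p c hR]
    | refl u => exact ⟨1, by simp⟩
    | symm u v _ ih =>
      obtain ⟨w, hw⟩ := ih
      exact ⟨w⁻¹, by rw [hw, ← Equiv.Perm.mul_apply, ← map_mul]; simp⟩
    | trans u v t _ _ ih₁ ih₂ =>
      obtain ⟨w₁, hw₁⟩ := ih₁
      obtain ⟨w₂, hw₂⟩ := ih₂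
      exact ⟨w₂ * w₁, by rw [hw₂, hw₁, map_mul, Equiv.Perm.mul_apply]⟩
  obtain ⟨w, hw⟩ := hstep _ _ h
  have hw' : ((x, (c', 0)) : X × (W × ℕ)) = Φ w (x, (c, 0)) := hw
  have hx : w • x = x := by
    have := hcov w (x, (c, 0))
    rw [← hw'] at this
    exact this.symm
  have := hfree w x hx
  subst this
  have h3 := congrArg (fun u : X × (W × ℕ) => u.2.1) hw'
  simpa using h3.symm

theorem folded {X : Type*} [MulAction F2 X] (hfree : ∀ (g : F2) (x : X), g • x = x → g = 1)
    {Ke Kp : Type} (T : TG X Ke Kp) (re : X → Ie Ke → Ie Ke → Prop) (rp : X → Ip Kp → Ip Kp → Prop)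
    (hre : ∀ x, Equivalence (re x)) (hrp : ∀ y, Equivalence (rp y))
    (hcle : ∀ x a a' j q q', (gam j)⁻¹ • x ∈ T.ed j q a → (gam j)⁻¹ • x ∈ T.ed j q' a' →
      rp ((gam j)⁻¹ • x) q q' → re x a a')
    (hclp : ∀ y q q' j a a', y ∈ T.ed j q a → y ∈ T.ed j q' a' →
      re (gam j • y) a a' → rp y q q')
    (x : X) (a a' : Ie Ke)
    (hconn : Relation.EqvGen T.Adj (Sum.inl (x, a)) (Sum.inl (x, a'))) : re x a a' := by
  classical
  let W : Type := Set (Ie Ke) ⊕ Set (Ip Kp)
  let ke : X → Ie Ke → W := fun x a => Sum.inl {b | re x a b}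
  let kp : X → Ip Kp → W := fun y q => Sum.inr {r | rp y q r}
  have hke : ∀ x a a', ke x a = ke x a' → re x a a' := by
    intro x a a' h
    have h' : {b | re x a b} = {b | re x a' b} := Sum.inl_injective h
    have : a' ∈ {b | re x a b} := by rw [h']; exact (hre x).refl a'
    exact this
  have hke' : ∀ x a a', re x a a' → ke x a = ke x a' := by
    intro x a a' h
    have : {b | re x a b} = {b | re x a' b} := by
      ext b
      exact ⟨fun hb => (hre x).trans ((hre x).symm h) hb, fun hb => (hre x).trans h hb⟩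
    show Sum.inl _ = Sum.inl _
    rw [this]
  have hkp : ∀ x a a', kp x a = kp x a' → rp x a a' := by
    intro x a a' h
    have h' : {b | rp x a b} = {b | rp x a' b} := Sum.inr_injective h
    have : a' ∈ {b | rp x a b} := by rw [h']; exact (hrp x).refl a'
    exact this
  have hkp' : ∀ x a a', rp x a a' → kp x a = kp x a' := by
    intro x a a' h
    have : {b | rp x a b} = {b | rp x a' b} := by
      ext b
      exact ⟨fun hb => (hrp x).trans ((hrp x).symm h) hb, fun hb => (hrp x).trans h hb⟩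
    show Sum.inr _ = Sum.inr _
    rw [this]
  let R : X → Fin 3 → W → W → Prop := fun y j P A =>
    ∃ q a, y ∈ T.ed j q a ∧ P = kp y q ∧ A = ke (gam j • y) a
  refine hke x a a' (forest_merge_nat hfree R ?_ ?_ (x := x) ?_)
  · rintro y j P A A' ⟨q, a, h, rfl, rfl⟩ ⟨q', a', h', hq, rfl⟩
    refine hke' _ _ _ (hcle (gam j • y) a a' j q q' ?_ ?_ ?_)
    · rwa [inv_smul_smul]
    · rwa [inv_smul_smul]
    · rw [inv_smul_smul]; exact hkp _ _ _ hq
  · rintro y j P P' A ⟨q, a, h, rfl, rfl⟩ ⟨q', a', h', rfl, ha⟩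
    exact hkp' _ _ _ (hclp y q q' j a a' h h' (hke _ _ _ ha))
  · have key : ∀ m n, Relation.EqvGen T.Adj m n →
      Relation.EqvGen (fun u v : (X × W) ⊕ (X × W) =>
        ∃ y j p c, R y j p c ∧ u = .inr (y, p) ∧ v = .inl (gam j • y, c))
        (Sum.map (fun u : X × Ie Ke => (u.1, ke u.1 u.2)) (fun u : X × Ip Kp => (u.1, kp u.1 u.2)) m)
        (Sum.map (fun u : X × Ie Ke => (u.1, ke u.1 u.2)) (fun u : X × Ip Kp => (u.1, kp u.1 u.2)) n) := by
      intro m n hmn
      induction hmn with
      | rel m n h =>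
        obtain ⟨j, y, q, a, h, rfl, rfl⟩ := h
        exact Relation.EqvGen.rel _ _ ⟨y, j, kp y q, ke (gam j • y) a, ⟨q, a, h, rfl, rfl⟩, rfl, rfl⟩
      | refl m => exact Relation.EqvGen.refl _
      | symm m n _ ih => exact Relation.EqvGen.symm _ _ ih
      | trans m n k _ _ ih₁ ih₂ => exact Relation.EqvGen.trans _ _ _ ih₁ ih₂
    exact key _ _ hconn

end Crest.Agent.R191
end

-- ▼ part R191/PartII
section

/-!
# Row 191 (S0291), T15 : assembly of Theorem II (helper111)
-/

set_option autoImplicit false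

open MeasureTheory

namespace Crest.Agent.R191

/-- a sequence starting at `0`, with jumps at most `1/4` and tending to `1`, visits `[1/4, 1/2]` -/
lemma exists_window {u : ℕ → ℝ} (h0 : u 0 = 0) (hjump : ∀ n, u (n + 1) ≤ u n + 1 / 4)
    (hlim : ∃ n, 1 / 4 ≤ u n) : ∃ n, 1 / 4 ≤ u n ∧ u n ≤ 1 / 2 := by
  classical
  refine ⟨Nat.find hlim, Nat.find_spec hlim, ?_⟩
  obtain ⟨m, hm⟩ : ∃ m, Nat.find hlim = m + 1 := by
    refine Nat.exists_eq_succ_of_ne_zero (fun h => ?_)
    have := Nat.find_spec hlim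
    rw [h, h0] at this
    norm_num at this
  have h1 : ¬ 1 / 4 ≤ u m := Nat.find_min hlim (by omega)
  have := hjump m
  rw [hm]
  linarith

/-- T15 `PartII.lean` : assembly of Theorem II. -/
theorem partII {X : Type*} [MulAction F2 X] [MeasurableSpace X] {μ : Measure X}
    [IsProbabilityMeasure μ] (hF : FreeAct F2 X μ)
    (hgap : ∀ S : Set X, MeasurableSet S → 1 / 100 * (μ.real S * (1 - μ.real S)) ≤
      μ.real S - μ.real {y | y ∈ S ∧ la • y ∈ S ∧ lb • y ∈ S})
    {U : Fin 4 → Set X} (hU : ∀ i, MeasurableSet (U i))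
    (hUμ : ∀ i, μ (U i) ≤ 1 / 4) (hUc : ⋃ i, U i = Set.univ)
    {Ψ : Gr F2 X} (hΨ : Ψ.Meas) (hfin : Ψ.FinSupp)
    (hgen : ∀ x : X, Gen (OR EF) Ψ x (la • x)) :
    ENNReal.ofReal (1 / 1000) ≤ Ψ.cost μ := by
  by_contra hcon
  rw [not_le] at hcon
  have hcost : Ψ.cost μ ≠ ⊤ := ne_top_of_lt hcon
  have hκ : (Ψ.cost μ).toReal < 1 / 1000 := by
    have := (ENNReal.toReal_lt_toReal hcost ENNReal.ofReal_ne_top).2 hcon
    rwa [ENNReal.toReal_ofReal (by norm_num)] at this
  obtain ⟨Ke, Kp, iKe, iKp, dKe, dKp, T, L₀, hT, hL₀, hS0, hExc0, hconn⟩ :=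
    build hF hΨ hfin hcost hgen
  obtain ⟨L, hL0, hLG, hdec, hjump, hmce, hmcp, hfe, hfp⟩ := process hF hT hL₀ hU hUμ hUc
  -- monotonicity
  have hce : ∀ n m, n ≤ m → ∀ x a a', (L n).ce x a = (L n).ce x a' →
      (L m).ce x a = (L m).ce x a' := by
    intro n m hnm
    induction m, hnm using Nat.le_induction with
    | base => intro x a a' h; exact h
    | succ m _ ih => intro x a a' h; exact hmce m x a a' (ih x a a' h)
  have hcp : ∀ n m, n ≤ m → ∀ y q q', (L n).cp y q = (L n).cp y q' →
      (L m).cp y q = (L m).cp y q' := by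
    intro n m hnm
    induction m, hnm using Nat.le_induction with
    | base => intro x a a' h; exact h
    | succ m _ ih => intro x a a' h; exact hmcp m x a a' (ih x a a' h)
  -- the limit relations
  have hfold : ∀ x : X, ∃ n, (L n).ce x (Sum.inl true) = (L n).ce x (Sum.inl false) := by
    intro x
    refine folded (X := X) hF.free T (fun x a a' => ∃ n, (L n).ce x a = (L n).ce x a')
      (fun y q q' => ∃ n, (L n).cp y q = (L n).cp y q') ?_ ?_ ?_ ?_ x _ _ (hconn x)
    · intro x
      refine ⟨fun a => ⟨0, rfl⟩, fun ⟨n, h⟩ => ⟨n, h.symm⟩, ?_⟩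
      rintro a b c ⟨n, h⟩ ⟨m, h'⟩
      exact ⟨max n m, (hce n _ (le_max_left _ _) x _ _ h).trans
        (hce m _ (le_max_right _ _) x _ _ h')⟩
    · intro y
      refine ⟨fun a => ⟨0, rfl⟩, fun ⟨n, h⟩ => ⟨n, h.symm⟩, ?_⟩
      rintro a b c ⟨n, h⟩ ⟨m, h'⟩
      exact ⟨max n m, (hcp n _ (le_max_left _ _) y _ _ h).trans
        (hcp m _ (le_max_right _ _) y _ _ h')⟩
    · rintro x a a' j q q' h1 h2 ⟨n, h⟩
      exact hfe n x a a' j q q' h1 h2 h
    · rintro y q q' j a a' h1 h2 ⟨n, h⟩
      exact hfp n y q q' j a a' h1 h2 h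
  have hSmono : Monotone (fun n => (L n).S) :=
    monotone_nat_of_le_succ (fun n x hx => hmce n x _ _ hx)
  have hSmeas : ∀ n, MeasurableSet (L n).S := fun n => Key.measurableSet_S (hLG n)
  have hSunion : ⋃ n, (L n).S = Set.univ := by
    rw [Set.eq_univ_iff_forall]
    intro x
    obtain ⟨n, hn⟩ := hfold x
    exact Set.mem_iUnion.2 ⟨n, hn⟩
  have hlim : Filter.Tendsto (fun n => μ (L n).S) Filter.atTop (nhds 1) := by
    have := tendsto_measure_iUnion_atTop (μ := μ) hSmono
    rwa [hSunion, measure_univ] at this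
  have hlim' : ∃ n, 1 / 4 ≤ μ.real (L n).S := by
    obtain ⟨n, hn⟩ := (hlim.eventually (lt_mem_nhds (show (1 / 4 : ENNReal) < 1 by
      rw [one_div]; exact ENNReal.inv_lt_one.2 (by norm_num)))).exists
    refine ⟨n, ?_⟩
    have h := ENNReal.toReal_mono (measure_ne_top μ _) hn.le
    have h4 : (1 / 4 : ENNReal).toReal = 1 / 4 := by simp
    rw [h4] at h
    exact h
  obtain ⟨n, hn1, hn2⟩ := exists_window (u := fun n => μ.real (L n).S)
    (by simp [hL0, hS0]) (by
      intro n
      have h1 : (L (n + 1)).S = (L n).S ∪ ((L (n + 1)).S \ (L n).S) :=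
        (Set.union_sdiff_cancel (hSmono (Nat.le_succ n))).symm
      have h2 : μ.real ((L (n + 1)).S \ (L n).S) ≤ 1 / 4 := by
        have h := ENNReal.toReal_mono (by simp) (hjump n)
        have h4 : (1 / 4 : ENNReal).toReal = 1 / 4 := by simp
        rw [h4] at h
        exact h
      calc μ.real (L (n + 1)).S ≤ μ.real (L n).S + μ.real ((L (n + 1)).S \ (L n).S) := by
            conv_lhs => rw [h1]
            exact measureReal_union_le _ _
        _ ≤ _ := by linarith) hlim'
  have hExc : ∀ n, Exc μ T (L n) ≤ 1 + (Ψ.cost μ).toReal := by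
    intro n
    induction n with
    | zero => rw [hL0]; exact hExc0
    | succ n ih => exact (hdec n).trans ih
  have hkey := key_ineq hF hT (hLG n)
  have hg := hgap _ (hSmeas n)
  have hE := hExc n

  nlinarith [mul_nonneg (sub_nonneg.2 hn1) (sub_nonneg.2 hn2)]

end Crest.Agent.R191
end

-- ▼ part R191/Lower
section

set_option autoImplicit false

namespace Crest.Agent.R191

open MeasureTheory

/-! ### small general facts on `Gen` -/

section
variable {G Z : Type*} [Group G] [MulAction G Z]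

theorem Gen.low_equiv (S : Z → Z → Prop) (Φ : Gr G Z) : Equivalence (Gen S Φ) :=
  Relation.EqvGen.is_equivalence _

theorem Gen.low_mono {G' : Type*} [Group G'] [MulAction G' Z] {S S' : Z → Z → Prop} {Φ : Gr G Z}
    {Φ' : Gr G' Z}
    (h : ∀ p q, S p q ∨ Φ.Step p q → Gen S' Φ' p q) {p q : Z} (hpq : Gen S Φ p q) :
    Gen S' Φ' p q := by
  induction hpq with
  | rel x y hxy => exact h x y hxy
  | refl x => exact (Gen.low_equiv S' Φ').refl x
  | symm x y _ ih => exact (Gen.low_equiv S' Φ').symm ih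
  | trans x y z _ _ ih1 ih2 => exact (Gen.low_equiv S' Φ').trans ih1 ih2

theorem Gen.low_of_rel {S : Z → Z → Prop} {Φ : Gr G Z} {p q : Z} (h : S p q) : Gen S Φ p q :=
  Relation.EqvGen.rel _ _ (Or.inl h)

theorem Gen.low_of_step {S : Z → Z → Prop} {Φ : Gr G Z} {p q : Z} (h : Φ.Step p q) : Gen S Φ p q :=
  Relation.EqvGen.rel _ _ (Or.inr h)


theorem OR.low_equiv (H : Subgroup G) : Equivalence (OR (Z := Z) H) where
  refl p := ⟨1, H.one_mem, (one_smul _ _).symm⟩
  symm := by
    rintro p q ⟨h, hh, rfl⟩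
    exact ⟨h⁻¹, H.inv_mem hh, (inv_smul_smul _ _).symm⟩
  trans := by
    rintro p q s ⟨h, hh, rfl⟩ ⟨k, hk, rfl⟩
    exact ⟨k * h, H.mul_mem hk hh, (mul_smul _ _ _).symm⟩

end

section
variable {G Z : Type*} [Group G] [MulAction G Z]

/-- the subgroup of elements moving every point inside its `r`-class -/
def lowStabRel {r : Z → Z → Prop} (he : Equivalence r) : Subgroup G where
  carrier := {g | ∀ p, r p (g • p)}
  mul_mem' := by
    intro x y hx hy p
    rw [mul_smul]
    exact he.trans (hy p) (hx (y • p))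
  one_mem' := by intro p; rw [one_smul]; exact he.refl p
  inv_mem' := by
    intro x hx p
    have := hx (x⁻¹ • p)
    rw [smul_inv_smul] at this
    exact he.symm this

end

/-- `F2` is generated by `EF` and `la`. -/
theorem low_range_le_of {G : Type*} [Group G] (ι : F2 →* G) (K : Subgroup G)
    (h1 : ∀ e ∈ EF, ι e ∈ K) (h2 : ι la ∈ K) : ι.range ≤ K := by
  rintro _ ⟨b, rfl⟩
  have hlb : ι lb ∈ K := by
    have h3 : la * lb ∈ EF := Subgroup.subset_closure (by simp)
    have h4 := h1 _ h3
    rw [map_mul] at h4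
    exact (Subgroup.mul_mem_cancel_left K h2).1 h4
  have : (⊤ : Subgroup F2) ≤ K.comap ι := by
    rw [← FreeGroup.closure_range_of, Subgroup.closure_le]
    rintro _ ⟨i, rfl⟩
    fin_cases i
    · exact h2
    · exact hlb
  exact this (Subgroup.mem_top b)

theorem lower {Γ X : Type} [Group Γ] [Countable Γ] [MulAction Γ X] [MeasurableSpace X]
    [StandardBorelSpace X] {μ : Measure X} [IsProbabilityMeasure μ] (hF : FreeAct Γ X μ)
    (ι : F2 →* Γ) (hι : Function.Injective ι) (z : Γ)
    (hz : Function.Injective (fun n : ℤ => z ^ n))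
    (htop : Subgroup.closure (insert z (Set.range ι)) = ⊤)
    (hAP : AmalgProp ι.range (Subgroup.closure (insert z (ι '' EF))))
    (hint : ∀ g ∈ ι.range, g ∈ Subgroup.closure (insert z (ι '' EF)) → g ∈ EF.map ι)
    (hgap : ∀ S : Set X, MeasurableSet S → 1 / 100 * (μ.real S * (1 - μ.real S)) ≤
        μ.real S - μ.real {y | y ∈ S ∧ ι la • y ∈ S ∧ ι lb • y ∈ S})
    {U : Fin 4 → Set X} (hU : ∀ i, MeasurableSet (U i))
    (hUμ : ∀ i, μ (U i) ≤ 1 / 4) (hUc : ⋃ i, U i = Set.univ)
    {Φ : Gr Γ X} (hΦ : Φ.Meas) (hgen : ∀ (p : X) (g : Γ), Gen (fun _ _ => False) Φ p (g • p)) :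
    1 + ENNReal.ofReal (1 / 20000) ≤ Φ.cost μ := by
  set B : Subgroup Γ := ι.range with hBdef
  set C : Subgroup Γ := Subgroup.closure (insert z (ι '' EF)) with hCdef
  set η : ENNReal := ENNReal.ofReal (1 / 10000) with hη
  have hη0 : η ≠ 0 := by rw [hη]; simp
  have hzC : z ∈ C := Subgroup.subset_closure (Set.mem_insert _ _)
  have hEC : ∀ e ∈ EF, ι e ∈ C := fun e he =>
    Subgroup.subset_closure (Set.mem_insert_of_mem _ ⟨e, he, rfl⟩)
  have hEB : ∀ e ∈ EF, ι e ∈ B := fun e _ => ⟨e, rfl⟩
  -- Step 1: a small complete section of `OR C`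
  obtain ⟨A, -, hAm, hAμ, hAs⟩ := marker hF (MRel.OR hF C) (OR.low_equiv C) (D := Set.univ)
    MeasurableSet.univ (fun _ _ _ _ => Set.mem_univ _)
    (fun p _ => (Set.infinite_range_of_injective hz).mono (by
      rintro _ ⟨n, rfl⟩
      exact ⟨z ^ n, C.zpow_mem hzC n, rfl⟩)) hη0
  -- Step 2: contraction
  obtain ⟨Ψ₁, hΨ₁m, -, -, -, hΨ₁g, hΨ₁c⟩ := contract hF hAm (S := fun _ _ => False)
    (fun _ _ h => h.elim) hΦ (fun p => by
      obtain ⟨q, hq, g, _, rfl⟩ := hAs p (Set.mem_univ p)
      exact ⟨_, hq, hgen p g⟩)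
  have hgen1 : ∀ (p : X) (g : Γ), Gen (OR C) Ψ₁ p (g • p) := by
    intro p g
    obtain ⟨a, ha, ha'⟩ := hAs p (Set.mem_univ p)
    obtain ⟨b, hb, hb'⟩ := hAs (g • p) (Set.mem_univ _)
    have h1 : Gen (fun _ _ => False) Φ a b := by
      obtain ⟨c, _, rfl⟩ := ha'
      obtain ⟨d, _, rfl⟩ := hb'
      have := hgen (c • p) (d * g * c⁻¹)
      rwa [← mul_smul, inv_mul_cancel_right, mul_smul] at this
    have h2 : Gen (OR C) Ψ₁ a b := (hΨ₁g a ha b hb h1).low_mono (by
      rintro p q (h | h)
      · exact h.elim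
      · exact Gen.low_of_step h)
    exact (Gen.low_equiv _ _).trans (Gen.low_of_rel ha')
      ((Gen.low_equiv _ _).trans h2 ((Gen.low_equiv _ _).symm (Gen.low_of_rel hb')))
  -- Step 3: truncate
  obtain ⟨Ψ₂, hΨ₂m, hΨ₂f, -, hΨ₂g, hΨ₂c⟩ := truncate hF (MRel.OR hF C) {ι la} (H := ⊤)
    (fun _ _ => Subgroup.mem_top _) (by
      rintro p q ⟨g, -, rfl⟩
      have he := Gen.low_equiv (OR C) (fun g => {_p : X | g ∈ ({ι la} : Finset Γ)})
      have hK : ∀ c ∈ C, c ∈ lowStabRel (G := Γ) he := fun c hc p => Gen.low_of_rel ⟨c, hc, rfl⟩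
      have hla : ι la ∈ lowStabRel (G := Γ) he := fun p =>
        Gen.low_of_step ⟨ι la, by simp, rfl⟩
      have htop' : (⊤ : Subgroup Γ) ≤ lowStabRel he := by
        rw [← htop, Subgroup.closure_le]
        rintro x (rfl | hx)
        · exact hK _ hzC
        · exact low_range_le_of ι _ (fun e he' => hK _ (hEC e he')) hla hx
      exact htop' (Subgroup.mem_top g) p)
    hΨ₁m (fun g hg => (hg (Subgroup.mem_top g)).elim) (fun p g _ => hgen1 p g) hη0
  -- Step 4: amalgam
  have hBC : B ⊔ C = ⊤ := by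
    rw [eq_top_iff, ← htop, Subgroup.closure_le]
    rintro x (rfl | hx)
    · exact (le_sup_right : C ≤ B ⊔ C) hzC
    · exact (le_sup_left : B ≤ B ⊔ C) hx
  obtain ⟨Ψ₃, hΨ₃m, hΨ₃s, hΨ₃g, hΨ₃c⟩ := relcost_amalgam hF hAP hBC hΨ₂m hΨ₂f
    (fun p g => hΨ₂g p _ ⟨g, Subgroup.mem_top g, rfl⟩) hη0
  -- Step 5: truncate again
  obtain ⟨Ψ₄, hΨ₄m, hΨ₄f, hΨ₄s, hΨ₄g, hΨ₄c⟩ := truncate hF (MRel.OR hF (B ⊓ C)) {ι la} (H := B)
    (fun g hg => by
      rw [Finset.mem_singleton] at hg
      exact ⟨la, hg.symm⟩) (by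
      rintro p q ⟨g, hg, rfl⟩
      have he := Gen.low_equiv (OR (B ⊓ C)) (fun g => {_p : X | g ∈ ({ι la} : Finset Γ)})
      have hK : ∀ c ∈ B ⊓ C, c ∈ lowStabRel (G := Γ) he := fun c hc p => Gen.low_of_rel ⟨c, hc, rfl⟩
      have hla : ι la ∈ lowStabRel (G := Γ) he := fun p =>
        Gen.low_of_step ⟨ι la, by simp, rfl⟩
      exact low_range_le_of ι _ (fun e he' => hK _ ⟨hEB e he', hEC e he'⟩) hla hg p)
    hΨ₃m hΨ₃s (fun p g hg => hΨ₃g p _ ⟨g, by
      rw [Finset.mem_singleton] at hg
      exact ⟨la, hg.symm⟩, rfl⟩) hη0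
  -- Step 6: pull back to `F2`
  let _ : MulAction F2 X := MulAction.compHom X ι
  have hsm : ∀ (b : F2) (x : X), b • x = ι b • x := fun _ _ => rfl
  have hF2 : FreeAct F2 X μ :=
    ⟨fun g p h => hι (by rw [map_one]; exact hF.free _ _ h), fun g => hF.mp (ι g)⟩
  let Ψ₅ : Gr F2 X := fun b => Ψ₄ (ι b)
  have hΨ₅m : Ψ₅.Meas := fun b => hΨ₄m (ι b)
  have hΨ₅f : Ψ₅.FinSupp := by
    have h : (ι ⁻¹' {g | (Ψ₄ g).Nonempty}).Finite := Set.Finite.preimage hι.injOn hΨ₄f
    exact h
  have hΨ₅g : ∀ x : X, Gen (OR EF) Ψ₅ x (la • x) := by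
    intro x
    refine (hΨ₄g x (ι la • x) ⟨ι la, ⟨la, rfl⟩, rfl⟩).low_mono ?_
    rintro p q (⟨g, hg, rfl⟩ | ⟨g, hg, rfl⟩)
    · obtain ⟨e, he, rfl⟩ := hint g hg.1 hg.2
      exact Gen.low_of_rel ⟨e, he, rfl⟩
    · by_cases hgB : g ∈ B
      · obtain ⟨b, rfl⟩ := hgB
        exact Gen.low_of_step ⟨b, hg, rfl⟩
      · rw [hΨ₄s g hgB] at hg
        exact hg.elim
  have hfinal := partII hF2 hgap hU hUμ hUc hΨ₅m hΨ₅f hΨ₅g
  have hΨ₅c : Ψ₅.cost μ ≤ Ψ₄.cost μ := ENNReal.tsum_comp_le_tsum_of_injective hι _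
  -- Step 7: numbers
  by_contra hcon
  rw [not_le] at hcon
  have h1 : Ψ₁.cost μ + 1 ≤ Φ.cost μ + η := by
    have : (1 : ENNReal) ≤ μ Aᶜ + η := by
      rw [← measure_univ (μ := μ), ← measure_add_measure_compl hAm, add_comm]
      exact add_le_add le_rfl hAμ
    calc Ψ₁.cost μ + 1 ≤ Ψ₁.cost μ + (μ Aᶜ + η) := add_le_add le_rfl this
      _ = (Ψ₁.cost μ + μ Aᶜ) + η := (add_assoc _ _ _).symm
      _ ≤ Φ.cost μ + η := add_le_add hΨ₁c le_rfl
  have h2 : Ψ₁.cost μ < ENNReal.ofReal (1 / 20000) + η := by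
    have h3 : Ψ₁.cost μ + 1 < (ENNReal.ofReal (1 / 20000) + η) + 1 := by
      refine lt_of_le_of_lt h1 ?_
      rw [add_comm (ENNReal.ofReal (1 / 20000) + η) 1, ← add_assoc]
      exact ENNReal.add_lt_add_right (by rw [hη]; exact ENNReal.ofReal_ne_top) hcon
    exact lt_of_add_lt_add_right h3
  have h4 : Ψ₅.cost μ ≤ ENNReal.ofReal (1 / 20000) + η + η + η + η := by
    calc Ψ₅.cost μ ≤ Ψ₄.cost μ := hΨ₅c
      _ ≤ Ψ₃.cost μ + η := hΨ₄c
      _ ≤ (Ψ₂.cost μ + η) + η := add_le_add hΨ₃c le_rfl
      _ ≤ ((Ψ₁.cost μ + η) + η) + η := add_le_add (add_le_add hΨ₂c le_rfl) le_rfl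
      _ ≤ _ := add_le_add (add_le_add (add_le_add h2.le le_rfl) le_rfl) le_rfl
  have h5 := hfinal.trans h4
  rw [hη, ← ENNReal.ofReal_add (by norm_num) (by norm_num),
    ← ENNReal.ofReal_add (by norm_num) (by norm_num),
    ← ENNReal.ofReal_add (by norm_num) (by norm_num),
    ← ENNReal.ofReal_add (by norm_num) (by norm_num),
    ENNReal.ofReal_le_ofReal_iff (by norm_num)] at h5
  norm_num at h5

end Crest.Agent.R191
end

-- ▼ part R191/Group
section

/-!
# The group of row 191

`Γ = B *_E C` with `B = FreeGroup (Fin 2)` (`a = of 0`, `b = of 1`), `E = ⟨a b, b a⁻¹ b⟩`, and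
`C = E × ⟨z⟩`.
-/

set_option autoImplicit false

namespace Crest.Agent.R191

open Monoid

/-! ### Abstract amalgams -/

section Amalgam

variable {Γ : Type*} [Group Γ]

/-- A list of letters, alternately in `B \ C` and `C \ B`. -/
def AltList (B C : Subgroup Γ) (l : List Γ) : Prop :=
  (∀ x ∈ l, (x ∈ B ∧ x ∉ C) ∨ (x ∈ C ∧ x ∉ B)) ∧
  l.IsChain (fun x y => (x ∈ B ∧ y ∈ C) ∨ (x ∈ C ∧ y ∈ B))

/-- `Γ` behaves like the amalgam of `B` and `C` over `B ⊓ C`: nonempty alternating words are not
in `B ⊓ C`. -/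
def IsAmalgam (B C : Subgroup Γ) : Prop :=
  ∀ l : List Γ, AltList B C l → l ≠ [] → ¬ (l.prod ∈ B ∧ l.prod ∈ C)

theorem AltList.symm {B C : Subgroup Γ} {l : List Γ} (h : AltList B C l) : AltList C B l :=
  ⟨fun x hx => (h.1 x hx).symm, h.2.imp fun _ _ h => h.symm⟩

theorem IsAmalgam.symm {B C : Subgroup Γ} (h : IsAmalgam B C) : IsAmalgam C B :=
  fun l hl hne hp => h l hl.symm hne hp.symm

/-- An alternating word of length at least two is not in `B`. -/
theorem IsAmalgam.prod_notMem {B C : Subgroup Γ} (h : IsAmalgam B C) {l : List Γ}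
    (hl : AltList B C l) (hlen : 2 ≤ l.length) : l.prod ∉ B := by
  intro hp
  rcases List.eq_nil_or_concat' l with rfl | ⟨l', x, rfl⟩
  · simp at hlen
  have hl'ne : l' ≠ [] := by
    rintro rfl
    simp at hlen
  have hl' : AltList B C l' :=
    ⟨fun y hy => hl.1 y (by simp [hy]), (List.isChain_append.mp hl.2).1⟩
  have hx := hl.1 x (by simp)
  have hprod : (l' ++ [x]).prod = l'.prod * x := by simp
  rw [hprod] at hp
  rcases hx with ⟨hxB, hxC⟩ | ⟨hxC, hxB⟩
  · -- last letter in `B`
    set β := l'.prod * x with hβ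
    by_cases hc : x * β⁻¹ ∈ C
    · have h1 : l'.prod = (x * β⁻¹)⁻¹ := by rw [hβ]; group
      refine h l' hl' hl'ne ⟨?_, ?_⟩
      · rw [h1]
        exact B.inv_mem (B.mul_mem hxB (B.inv_mem hp))
      · rw [h1]
        exact C.inv_mem hc
    · refine h (l' ++ [x * β⁻¹]) ⟨?_, ?_⟩ (by simp) ?_
      · intro y hy
        rw [List.mem_append, List.mem_singleton] at hy
        rcases hy with hy | rfl
        · exact hl'.1 y hy
        · exact Or.inl ⟨B.mul_mem hxB (B.inv_mem hp), hc⟩
      · rw [List.isChain_append]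
        refine ⟨hl'.2, by simp, ?_⟩
        intro y hy z hz
        have hz' : z = x * β⁻¹ := by simpa using hz.symm
        subst hz'
        have h3 := (List.isChain_append.mp hl.2).2.2 y hy x (by simp)
        rcases h3 with ⟨_, h4⟩ | ⟨h4, _⟩
        · exact absurd h4 hxC
        · exact Or.inr ⟨h4, B.mul_mem hxB (B.inv_mem hp)⟩
      · have : (l' ++ [x * β⁻¹]).prod = 1 := by
          rw [List.prod_append, List.prod_singleton, ← mul_assoc, ← hβ, mul_inv_cancel]
        rw [this]
        exact ⟨B.one_mem, C.one_mem⟩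
  · -- last letter in `C`
    set β := l'.prod * x with hβ
    by_cases hc : β ∈ C
    · exact h _ hl (by simp) ⟨by rw [hprod]; exact hp, by rw [hprod]; exact hc⟩
    · refine h ((l' ++ [x]) ++ [β⁻¹]) ⟨?_, ?_⟩ (by simp) ?_
      · intro y hy
        rw [List.mem_append, List.mem_singleton] at hy
        rcases hy with hy | rfl
        · exact hl.1 y hy
        · exact Or.inl ⟨B.inv_mem hp, fun h => hc (by simpa using C.inv_mem h)⟩
      · rw [List.isChain_append]
        refine ⟨hl.2, by simp, ?_⟩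
        intro y hy z hz
        have hz' : z = β⁻¹ := by simpa using hz.symm
        have hy' : y = x := by simpa using hy.symm
        subst hz' hy'
        exact Or.inr ⟨hxC, B.inv_mem hp⟩
      · have : ((l' ++ [x]) ++ [β⁻¹]).prod = 1 := by
          rw [List.prod_append, hprod, List.prod_singleton, mul_inv_cancel]
        rw [this]
        exact ⟨B.one_mem, C.one_mem⟩


end Amalgam

/-! ### The concrete group -/

/-- `B`, the free group on two generators. -/
abbrev BGrp : Type := FreeGroup (Fin 2)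

/-- The subgroup `E = ⟨a b, b a⁻¹ b⟩` of `B`. -/
def ESub : Subgroup BGrp :=
  Subgroup.closure {FreeGroup.of 0 * FreeGroup.of 1,
    FreeGroup.of 1 * (FreeGroup.of 0)⁻¹ * FreeGroup.of 1}

/-- `C = E × ℤ`. -/
abbrev CGrp : Type := ESub × Multiplicative ℤ

/-- The two factors. -/
abbrev Fam : Bool → Type
  | true => BGrp
  | false => CGrp

instance famGroup : ∀ i, Group (Fam i)
  | true => inferInstanceAs (Group BGrp)
  | false => inferInstanceAs (Group CGrp)

/-- The inclusions of `E` in the two factors. -/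
def phi : ∀ i, ESub →* Fam i
  | true => ESub.subtype
  | false => MonoidHom.inl ESub (Multiplicative ℤ)

theorem phi_injective : ∀ i, Function.Injective (phi i)
  | true => ESub.subtype_injective
  | false => fun _ _ h => congrArg Prod.fst h

/-- The group `Γ = B *_E (E × ℤ)`. -/
def Gam : Type := PushoutI phi

instance : Group Gam := inferInstanceAs (Group (PushoutI phi))

/-- The inclusion of `B`. -/
def iB : BGrp →* Gam := PushoutI.of (φ := phi) true

/-- The inclusion of `C`. -/
def iC : CGrp →* Gam := PushoutI.of (φ := phi) false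

theorem iB_injective : Function.Injective iB := PushoutI.of_injective phi_injective true

theorem iC_injective : Function.Injective iC := PushoutI.of_injective phi_injective false

theorem iB_coe (e : ESub) : iB (e : BGrp) = iC (e, 1) :=
  (PushoutI.of_apply_eq_base phi true e).trans (PushoutI.of_apply_eq_base phi false e).symm

/-- `B` as a subgroup of `Γ`. -/
def Bs : Subgroup Gam := iB.range

/-- `C` as a subgroup of `Γ`. -/
def Cs : Subgroup Gam := iC.range

/-- `E` as a subgroup of `Γ`. -/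
def Es : Subgroup Gam := ESub.map iB

theorem base_range : (PushoutI.base phi).range = Es := by
  ext x
  simp only [MonoidHom.mem_range, Es]
  constructor
  · rintro ⟨e, rfl⟩
    exact ⟨e, e.2, PushoutI.of_apply_eq_base phi true e⟩
  · rintro ⟨e, he, rfl⟩
    exact ⟨⟨e, he⟩, (PushoutI.of_apply_eq_base phi true ⟨e, he⟩).symm⟩

theorem Bs_inf_Cs : Bs ⊓ Cs = Es := by
  rw [← base_range]
  exact PushoutI.inf_of_range_eq_base_range phi_injective (i := true) (j := false) (by decide)

theorem mem_Es_iff {x : Gam} : x ∈ Es ↔ x ∈ Bs ∧ x ∈ Cs := by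
  rw [← Bs_inf_Cs, Subgroup.mem_inf]

open Classical in
/-- A choice of letter representing an element of `Bs ∪ Cs`. -/
noncomputable def letter (x : Gam) : Sigma Fam :=
  if h : x ∈ Bs then ⟨true, h.choose⟩ else
    if h : x ∈ Cs then ⟨false, h.choose⟩ else ⟨true, 1⟩

theorem letter_of_mem_Bs {x : Gam} (h : x ∈ Bs) :
    (letter x).1 = true ∧ PushoutI.of (φ := phi) (letter x).1 (letter x).2 = x := by
  rw [letter, dif_pos h]
  exact ⟨rfl, h.choose_spec⟩

theorem letter_of_mem_Cs {x : Gam} (h : x ∈ Cs) (h' : x ∉ Bs) :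
    (letter x).1 = false ∧ PushoutI.of (φ := phi) (letter x).1 (letter x).2 = x := by
  rw [letter, dif_neg h', dif_pos h]
  exact ⟨rfl, h.choose_spec⟩

theorem isAmalgam_Gam : IsAmalgam Bs Cs := by
  classical
  intro l hl hne hp
  have hlet : ∀ x ∈ l, PushoutI.of (φ := phi) (letter x).1 (letter x).2 = x := by
    intro x hx
    rcases hl.1 x hx with h | h
    · exact (letter_of_mem_Bs h.1).2
    · exact (letter_of_mem_Cs h.1 h.2).2
  have hred : ∀ x ∈ l, (letter x).2 ∉ (phi (letter x).1).range := by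
    rintro x hx ⟨e, he⟩
    have h1 := hlet x hx
    rw [← he, PushoutI.of_apply_eq_base] at h1
    have h2 : x ∈ Es := by
      rw [← base_range]
      exact ⟨e, h1⟩
    rw [mem_Es_iff] at h2
    rcases hl.1 x hx with h | h
    · exact h.2 h2.2
    · exact h.2 h2.1
  have hne1 : ∀ x ∈ l, (letter x).2 ≠ 1 := fun x hx h =>
    hred x hx (h ▸ one_mem _)
  let w : CoprodI.Word Fam :=
    { toList := l.map letter
      ne_one := by
        intro y hy
        rw [List.mem_map] at hy
        obtain ⟨x, hx, rfl⟩ := hy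
        exact hne1 x hx
      chain_ne := by
        rw [List.isChain_map]
        have h2 := hl.2
        have h1 := hl.1
        clear hp hlet hred hne1 hne hl
        induction l with
        | nil => exact List.isChain_nil
        | cons x l ih =>
          rw [List.isChain_cons] at h2 ⊢
          refine ⟨?_, ih h2.2 fun y hy => h1 y (List.mem_cons_of_mem _ hy)⟩
          intro y hy
          have hyl : y ∈ l := List.mem_of_mem_head? hy
          have hxy := h2.1 y hy
          have hx := h1 x List.mem_cons_self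
          have hy' := h1 y (List.mem_cons_of_mem _ hyl)
          rcases hx with hx | hx <;> rcases hy' with hy' | hy'
          · exact absurd hxy (by
              rintro (⟨_, h⟩ | ⟨h, _⟩)
              · exact hy'.2 h
              · exact hx.2 h)
          · rw [(letter_of_mem_Bs hx.1).1, (letter_of_mem_Cs hy'.1 hy'.2).1]
            decide
          · rw [(letter_of_mem_Bs hy'.1).1, (letter_of_mem_Cs hx.1 hx.2).1]
            decide
          · exact absurd hxy (by
              rintro (⟨h, _⟩ | ⟨_, h⟩)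
              · exact hx.2 h
              · exact hy'.2 h) }
  have hw : PushoutI.Reduced phi w := by
    intro y hy
    have hy' : y ∈ l.map letter := hy
    rw [List.mem_map] at hy'
    obtain ⟨x, hx, rfl⟩ := hy'
    exact hred x hx
  have hprod : PushoutI.ofCoprodI (φ := phi) w.prod = l.prod := by
    rw [CoprodI.Word.prod, map_list_prod, List.map_map]
    change (List.map _ (l.map letter)).prod = _
    rw [List.map_map]
    congr 1
    conv_rhs => rw [← List.map_id l]
    refine List.map_congr_left fun x hx => ?_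
    simp only [Function.comp_apply, PushoutI.ofCoprodI_of, id]
    exact hlet x hx
  have := hw.eq_empty_of_mem_range phi_injective (by
    rw [hprod, base_range]
    exact mem_Es_iff.mpr hp)
  have h3 : l.map letter = [] := congrArg CoprodI.Word.toList this
  exact hne (List.map_eq_nil_iff.mp h3)

/-! ### Generators and homomorphisms -/

/-- The generator `a = s₁`. -/
def ga : Gam := iB (FreeGroup.of 0)

/-- The generator `b`. -/
def gb : Gam := iB (FreeGroup.of 1)

/-- The central element `z` of `C`. -/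
def gz : Gam := iC (1, Multiplicative.ofAdd 1)



theorem gz_mem : gz ∈ Cs := ⟨_, rfl⟩

theorem Bs_eq : Bs = Subgroup.closure {ga, gb} := by
  have h : (⊤ : Subgroup BGrp) = Subgroup.closure {FreeGroup.of 0, FreeGroup.of 1} := by
    rw [← FreeGroup.closure_range_of]
    congr 1
    ext x
    simp only [Set.mem_range, Set.mem_insert_iff, Set.mem_singleton_iff]
    constructor
    · rintro ⟨i, rfl⟩
      fin_cases i <;> simp
    · rintro (rfl | rfl)
      exacts [⟨0, rfl⟩, ⟨1, rfl⟩]
  rw [Bs, MonoidHom.range_eq_map, h, MonoidHom.map_closure, Set.image_pair]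
  rfl


theorem Es_le_Bs : Es ≤ Bs := by rw [← Bs_inf_Cs]; exact inf_le_left

theorem Es_le_Cs : Es ≤ Cs := by rw [← Bs_inf_Cs]; exact inf_le_right

theorem iC_eq (e : ESub) (n : Multiplicative ℤ) : iC (e, n) = iB e * gz ^ (n.toAdd) := by
  rw [iB_coe, gz, ← map_zpow, ← map_mul]
  congr 1
  rw [Prod.mk.injEq]
  refine ⟨?_, ?_⟩
  · simp
  · rw [Prod.snd_mul, Prod.pow_snd, one_mul]
    simp [← ofAdd_zsmul]

theorem gz_comm {x : Gam} (hx : x ∈ Cs) : gz * x = x * gz := by
  obtain ⟨⟨e, n⟩, rfl⟩ := hx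
  rw [gz, ← map_mul, ← map_mul]
  congr 1
  rw [Prod.mk_mul_mk, Prod.mk_mul_mk, one_mul, mul_one, mul_comm]

theorem gz_zpow_mem_Bs {n : ℤ} (h : gz ^ n ∈ Bs) : n = 0 := by
  have h1 : gz ^ n ∈ Es := mem_Es_iff.mpr ⟨h, Cs.zpow_mem gz_mem n⟩
  obtain ⟨e, he, h2⟩ := h1
  have h3 := iB_coe ⟨e, he⟩
  change iB e = _ at h3
  rw [h2, gz, ← map_zpow] at h3
  have h4 := iC_injective h3
  have h5 := congrArg Prod.snd h4
  rw [Prod.pow_snd] at h5
  have h6 : (Multiplicative.ofAdd (1 : ℤ)) ^ n = 1 := h5
  rw [← ofAdd_zsmul, ofAdd_eq_one] at h6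
  simpa using h6

theorem gz_zpow_injective : Function.Injective (fun n : ℤ => gz ^ n) := by
  intro m n h
  have h' : gz ^ m = gz ^ n := h
  have : gz ^ (m - n) ∈ Bs := by
    rw [zpow_sub, h', mul_inv_cancel]
    exact Bs.one_mem
  have := gz_zpow_mem_Bs this
  omega

theorem Cs_eq : Cs = Es ⊔ Subgroup.zpowers gz := by
  apply le_antisymm
  · rintro _ ⟨⟨e, n⟩, rfl⟩
    rw [iC_eq]
    exact Subgroup.mul_mem_sup ⟨e, e.2, rfl⟩ (Subgroup.zpow_mem_zpowers _ _)
  · exact sup_le Es_le_Cs (by
      rw [Subgroup.zpowers_le]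
      exact gz_mem)

theorem Bs_sup_Cs : Bs ⊔ Cs = ⊤ := by
  rw [eq_top_iff]
  intro x _
  induction x using PushoutI.induction_on with
  | of i g =>
    cases i with
    | true => exact (le_sup_left : Bs ≤ Bs ⊔ Cs) ⟨g, rfl⟩
    | false => exact (le_sup_right : Cs ≤ Bs ⊔ Cs) ⟨g, rfl⟩
  | base h =>
    refine (le_sup_left : Bs ≤ Bs ⊔ Cs) ⟨h, ?_⟩
    exact PushoutI.of_apply_eq_base phi true h
  | mul x y hx hy => exact Subgroup.mul_mem _ (hx trivial) (hy trivial)

theorem closure_eq_top : Subgroup.closure {ga, gb, gz} = (⊤ : Subgroup Gam) := by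
  rw [eq_top_iff, ← Bs_sup_Cs, Cs_eq]
  have h1 : Bs ≤ Subgroup.closure {ga, gb, gz} := by
    rw [Bs_eq]
    refine Subgroup.closure_mono ?_
    rintro x (rfl | rfl) <;> simp
  refine sup_le h1 (sup_le (Es_le_Bs.trans h1) ?_)
  rw [Subgroup.zpowers_le]
  exact Subgroup.subset_closure (by simp)

instance Gam_fg : Group.FG Gam := by
  rw [Group.fg_iff]
  exact ⟨{ga, gb, gz}, closure_eq_top, by simp⟩

instance BGrp_countable : Countable BGrp := by
  unfold BGrp FreeGroup
  infer_instance

instance CGrp_countable : Countable CGrp := by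
  have : Countable (Multiplicative ℤ) := inferInstanceAs (Countable ℤ)
  infer_instance

instance Gam_countable : Countable Gam := by
  have : Countable (FreeGroup (Fin 3)) := by
    unfold FreeGroup
    infer_instance
  let f : FreeGroup (Fin 3) →* Gam := FreeGroup.lift ![ga, gb, gz]
  have hf : Function.Surjective f := by
    rw [← MonoidHom.range_eq_top, FreeGroup.range_lift_eq_closure, ← closure_eq_top]
    congr 1
    ext x
    simp only [Set.mem_range, Set.mem_insert_iff, Set.mem_singleton_iff]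
    constructor
    · rintro ⟨i, rfl⟩
      fin_cases i <;> simp
    · rintro (rfl | rfl | rfl)
      exacts [⟨0, rfl⟩, ⟨1, rfl⟩, ⟨2, rfl⟩]
  exact hf.countable

instance Gam_infinite : Infinite Gam := Infinite.of_injective _ gz_zpow_injective


/-- The level homomorphism on `B`: `a ↦ 1`, `b ↦ 2`. -/
def levelB (M : ℕ) : BGrp →* Multiplicative (ZMod M) :=
  FreeGroup.lift ![Multiplicative.ofAdd 1, Multiplicative.ofAdd 2]

/-- The level homomorphism on the factors. -/
def levelFam (M : ℕ) (k : ZMod M) : ∀ i, Fam i →* Multiplicative (ZMod M)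
  | true => levelB M
  | false => (((levelB M).comp ESub.subtype).comp (MonoidHom.fst _ _)) *
          ((zpowersHom _ (Multiplicative.ofAdd k)).comp (MonoidHom.snd ESub (Multiplicative ℤ)))

theorem levelFam_comp (M : ℕ) (k : ZMod M) (i : Bool) :
    (levelFam M k i).comp (phi i) = (levelB M).comp ESub.subtype := by
  cases i with
  | true => rfl
  | false =>
    ext e
    simp [phi, levelFam]

/-- The level homomorphism: `a ↦ 1`, `b ↦ 2`, `z ↦ k`. -/
def level (M : ℕ) (k : ZMod M) : Gam →* Multiplicative (ZMod M) :=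
  PushoutI.lift (levelFam M k) ((levelB M).comp ESub.subtype) (levelFam_comp M k)

theorem level_iB (M : ℕ) (k : ZMod M) (x : BGrp) : level M k (iB x) = levelB M x :=
  PushoutI.lift_of (φ := phi) (levelFam M k) ((levelB M).comp ESub.subtype) (levelFam_comp M k)
    (i := true) x

theorem level_iC (M : ℕ) (k : ZMod M) (x : CGrp) : level M k (iC x) = levelFam M k false x :=
  PushoutI.lift_of (φ := phi) (levelFam M k) ((levelB M).comp ESub.subtype) (levelFam_comp M k)
    (i := false) x

theorem level_ga (M : ℕ) (k : ZMod M) : level M k ga = Multiplicative.ofAdd 1 := by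
  rw [ga, level_iB]
  simp [levelB]

theorem level_gb (M : ℕ) (k : ZMod M) : level M k gb = Multiplicative.ofAdd 2 := by
  rw [gb, level_iB]
  simp [levelB]

theorem level_gz (M : ℕ) (k : ZMod M) : level M k gz = Multiplicative.ofAdd k := by
  rw [gz, level_iC]
  simp [levelFam]

/-! ### `B` acts freely on the nonempty finite subsets of `Γ` -/




end Crest.Agent.R191
private theorem rz_4eae58e30b : type_of% @_root_.Crest.Agent.R191.levelFam.eq_1 := @_root_.Crest.Agent.R191.levelFam.eq_1 -- L448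
private theorem rz_469db74890 : type_of% @_root_.Crest.Agent.R191.phi.eq_1 := @_root_.Crest.Agent.R191.phi.eq_1 -- L145
end

-- ▼ part R191/GroupLemma
section

/-!
# Row 191, T16: the group
-/

set_option autoImplicit false

namespace Crest.Agent.R191

theorem altList_of_alt {G : Type*} [Group G] (B C : Subgroup G) :
    ∀ (l : List G) (s : Bool), Alt B C s l → AltList B C l ∧
      ∀ x ∈ l.head?, (if s then x ∈ B ∧ x ∉ C else x ∈ C ∧ x ∉ B) := by
  intro l
  induction l with
  | nil => intro s _; exact ⟨⟨by simp, by simp⟩, by simp⟩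
  | cons g l ih =>
    intro s h
    cases s with
    | true =>
      obtain ⟨h1, h2⟩ := h
      obtain ⟨h3, h4⟩ := ih false h2
      refine ⟨⟨?_, ?_⟩, ?_⟩
      · intro x hx
        rcases List.mem_cons.mp hx with rfl | hx
        · exact Or.inl h1
        · exact h3.1 x hx
      · rw [List.isChain_cons]
        refine ⟨fun y hy => Or.inl ⟨h1.1, ?_⟩, h3.2⟩
        simpa using (h4 y hy).1
      · simpa using h1
    | false =>
      obtain ⟨h1, h2⟩ := h
      obtain ⟨h3, h4⟩ := ih true h2
      refine ⟨⟨?_, ?_⟩, ?_⟩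
      · intro x hx
        rcases List.mem_cons.mp hx with rfl | hx
        · exact Or.inr h1
        · exact h3.1 x hx
      · rw [List.isChain_cons]
        refine ⟨fun y hy => Or.inr ⟨h1.1, ?_⟩, h3.2⟩
        simpa using (h4 y hy).1
      · simpa using h1

theorem IsAmalgam.amalgProp {G : Type*} [Group G] {B C : Subgroup G} (h : IsAmalgam B C) :
    AmalgProp B C :=
  fun s l hl hlen => h.prod_notMem (altList_of_alt B C l s hl).1 hlen


theorem Cs_eq_closure : Subgroup.closure (insert gz (iB '' EF)) = Cs := by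
  rw [Cs_eq, Set.insert_eq, Subgroup.closure_union, sup_comm]
  congr 1
  · rw [← MonoidHom.map_closure, Subgroup.closure_eq]
    rfl
  · rw [Subgroup.zpowers_eq_closure]

theorem exists_group : ∃ (Γ : Type) (_ : Group Γ) (ι : F2 →* Γ) (z : Γ),
    Function.Injective ι ∧ Function.Injective (fun n : ℤ => z ^ n) ∧
    (∀ e ∈ EF, z * ι e = ι e * z) ∧
    Subgroup.closure (insert z (Set.range ι)) = ⊤ ∧
    AmalgProp ι.range (Subgroup.closure (insert z (ι '' EF))) ∧
    (∀ g ∈ ι.range, g ∈ Subgroup.closure (insert z (ι '' EF)) → g ∈ EF.map ι) ∧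
    ∃ φ : Γ →* Multiplicative ℤ, φ (ι la) = Multiplicative.ofAdd 1 ∧
      φ (ι lb) = Multiplicative.ofAdd 2 ∧ φ z = Multiplicative.ofAdd 1 := by
  refine ⟨Gam, inferInstance, iB, gz, iB_injective, gz_zpow_injective, ?_, ?_, ?_, ?_, ?_⟩
  · intro e he
    exact gz_comm (Es_le_Cs ⟨e, he, rfl⟩)
  · rw [eq_top_iff, ← closure_eq_top]
    refine Subgroup.closure_mono ?_
    rintro x (rfl | rfl | rfl)
    · exact Or.inr ⟨_, rfl⟩
    · exact Or.inr ⟨_, rfl⟩
    · exact Or.inl rfl
  · rw [Cs_eq_closure]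
    exact isAmalgam_Gam.amalgProp
  · intro g hg hg'
    rw [Cs_eq_closure] at hg'
    exact mem_Es_iff.mpr ⟨hg, hg'⟩
  · exact ⟨level 0 1, level_ga 0 1, level_gb 0 1, level_gz 0 1⟩

end Crest.Agent.R191
end

-- ▼ part R191/Bern
section

/-! Row 191, module M1: the Bernoulli shift on `Γ → Bool` and its free part `BX Γ`. -/

set_option autoImplicit false
set_option linter.unusedSectionVars false

namespace Crest.Agent.R191.Bern

open MeasureTheory Set

noncomputable section

/-- the fair coin -/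
def coin : Measure Bool := (PMF.uniformOfFintype Bool).toMeasure

instance : IsProbabilityMeasure coin := by unfold coin; infer_instance

lemma coin_singleton (b : Bool) : coin {b} = 1 / 2 := by
  unfold coin
  rw [PMF.toMeasure_apply_singleton _ _ (measurableSet_singleton b)]
  simp

variable {Γ : Type*} [Group Γ]

/-- the left shift on configurations -/
def sh (g : Γ) (w : Γ → Bool) : Γ → Bool := fun h => w (g⁻¹ * h)

@[simp] lemma sh_one (w : Γ → Bool) : sh 1 w = w := by
  funext h; simp [sh]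

lemma sh_mul (g k : Γ) (w : Γ → Bool) : sh (g * k) w = sh g (sh k w) := by
  funext h; simp [sh, mul_assoc]

lemma sh_inv_sh (g : Γ) (w : Γ → Bool) : sh g⁻¹ (sh g w) = w := by
  rw [← sh_mul]; simp


lemma measurable_sh (g : Γ) : Measurable (sh g) :=
  measurable_pi_lambda _ fun _ => measurable_pi_apply _

variable (Γ) in
/-- the product measure on configurations -/
def mu0 : Measure (Γ → Bool) := Measure.infinitePi fun _ => coin

instance : IsProbabilityMeasure (mu0 Γ) := by unfold mu0; infer_instance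

lemma mp_sh (g : Γ) : MeasurePreserving (sh g) (mu0 Γ) (mu0 Γ) := by
  classical
  refine ⟨measurable_sh g, ?_⟩
  unfold mu0
  refine Measure.eq_infinitePi _ fun s t ht => ?_
  rw [Measure.map_apply (measurable_sh g)
    (MeasurableSet.pi s.countable_toSet fun i _ => ht i)]
  have h1 : sh g ⁻¹' (Set.pi (s : Set Γ) t) =
      Set.pi ((s.image (g⁻¹ * ·) : Finset Γ) : Set Γ) (fun k => t (g * k)) := by
    ext w
    simp only [sh, Set.mem_preimage, Set.mem_pi, Finset.mem_coe, Finset.mem_image,
      forall_exists_index, and_imp, forall_apply_eq_imp_iff₂, mul_inv_cancel_left]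
  rw [h1, Measure.infinitePi_pi _ fun i _ => ht _, Finset.prod_image]
  · simp
  · intro a _ b _ h
    exact mul_left_cancel h

lemma exists_pairs [Infinite Γ] {g : Γ} (hg : g ≠ 1) (n : ℕ) :
    ∃ s : Finset Γ, s.card = n ∧ ∀ h ∈ s, g⁻¹ * h ∉ s := by
  classical
  induction n with
  | zero => exact ⟨∅, rfl, by simp⟩
  | succ n ih =>
    obtain ⟨s, hs, hd⟩ := ih
    obtain ⟨h, hh⟩ := Infinite.exists_notMem_finset
      (s ∪ s.image (g⁻¹ * ·) ∪ s.image (g * ·))
    simp only [Finset.mem_union, Finset.mem_image, not_or, not_exists, not_and] at hh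
    obtain ⟨⟨h1, h2⟩, h3⟩ := hh
    refine ⟨insert h s, by rw [Finset.card_insert_of_notMem h1, hs], ?_⟩
    intro k hk hk'
    rw [Finset.mem_insert] at hk hk'
    rcases hk with rfl | hk
    · rcases hk' with h4 | h4
      · have : g⁻¹ = 1 := by
          have := congrArg (· * k⁻¹) h4
          simpa using this
        exact hg (inv_eq_one.mp this)
      · exact h3 _ h4 (by group)
    · rcases hk' with h4 | h4
      · exact h2 k hk h4
      · exact hd k hk h4

/-- every non-trivial element fixes only a null set of configurations -/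
theorem null_fix [Infinite Γ] {g : Γ} (hg : g ≠ 1) : mu0 Γ {w | sh g w = w} = 0 := by
  classical
  have key : ∀ n : ℕ, mu0 Γ {w | sh g w = w} ≤ (1 / 2 : ENNReal) ^ n := by
    intro n
    obtain ⟨s, hs, hd⟩ := exists_pairs hg n
    set s' : Finset Γ := s ∪ s.image (g⁻¹ * ·) with hs'
    have hdisj : Disjoint s (s.image (g⁻¹ * ·)) := by
      rw [Finset.disjoint_left]
      intro k hk hk'
      rw [Finset.mem_image] at hk'
      obtain ⟨h, hh, rfl⟩ := hk'
      exact hd h hh hk
    have hcard : s'.card = n + n := by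
      rw [hs', Finset.card_union_of_disjoint hdisj, Finset.card_image_of_injective _
        (mul_right_injective _), hs]
    have hsub : {w : Γ → Bool | sh g w = w} ⊆ ⋃ A ∈ s.powerset, Set.pi (s' : Set Γ)
        (fun k => ({decide (k ∈ A ∨ g * k ∈ A)} : Set Bool)) := by
      intro w hw
      rw [Set.mem_ofPred_eq] at hw
      rw [Set.mem_iUnion₂]
      refine ⟨s.filter (fun k => w k = true), by simp, ?_⟩
      rw [Set.mem_pi]
      intro k hk
      rw [Set.mem_singleton_iff]
      have hw' : ∀ h, w (g⁻¹ * h) = w h := fun h => congrFun hw h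
      rw [hs', Finset.coe_union, Set.mem_union, Finset.mem_coe, Finset.mem_coe,
        Finset.mem_image] at hk
      rcases hk with hk | ⟨h, hh, rfl⟩
      · have h1 : g * k ∉ s := by
          intro h2
          have := hd _ h2
          rw [inv_mul_cancel_left] at this
          exact this hk
        simp [hk, h1]
      · have h1 := hd h hh
        simp [hh, h1, hw']
    calc mu0 Γ {w | sh g w = w}
        ≤ mu0 Γ (⋃ A ∈ s.powerset, Set.pi (s' : Set Γ)
          (fun k => ({decide (k ∈ A ∨ g * k ∈ A)} : Set Bool))) := measure_mono hsub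
      _ ≤ ∑ A ∈ s.powerset, mu0 Γ (Set.pi (s' : Set Γ)
          (fun k => ({decide (k ∈ A ∨ g * k ∈ A)} : Set Bool))) :=
          measure_biUnion_finset_le _ _
      _ = ∑ A ∈ s.powerset, (1 / 2 : ENNReal) ^ (n + n) := by
          refine Finset.sum_congr rfl fun A _ => ?_
          unfold mu0
          rw [Measure.infinitePi_pi _ fun i _ => measurableSet_singleton _]
          simp_rw [coin_singleton]
          rw [Finset.prod_const, hcard]
      _ = (1 / 2 : ENNReal) ^ n := by
          rw [Finset.sum_const, Finset.card_powerset, hs, nsmul_eq_mul, pow_add, ← mul_assoc]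
          push_cast
          rw [← mul_pow]
          have : (2 : ENNReal) * (1 / 2) = 1 := by
            rw [one_div]; exact ENNReal.mul_inv_cancel (by norm_num) (by norm_num)
          rw [this, one_pow, one_mul]
  have hlim : Filter.Tendsto (fun n : ℕ => (1 / 2 : ENNReal) ^ n) Filter.atTop (nhds 0) :=
    ENNReal.tendsto_pow_atTop_nhds_zero_of_lt_one (by
      rw [one_div]; exact ENNReal.inv_lt_one.mpr (by norm_num))
  exact le_antisymm (ge_of_tendsto' hlim key) bot_le

/-! ### the free part -/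

/-- free configurations -/
def IsFr (w : Γ → Bool) : Prop := ∀ g : Γ, g ≠ 1 → sh g w ≠ w

lemma IsFr.sh {w : Γ → Bool} (hw : IsFr w) (g : Γ) : IsFr (sh g w) := by
  intro k hk h
  refine hw (g⁻¹ * k * g) ?_ ?_
  · intro h1
    apply hk
    have h2 : k = g * (g⁻¹ * k * g) * g⁻¹ := by group
    rw [h2, h1]; group
  · rw [mul_assoc, sh_mul, sh_mul, h, sh_inv_sh]


lemma measurableSet_fix [Countable Γ] (g : Γ) : MeasurableSet {w : Γ → Bool | sh g w = w} := by
  have : {w : Γ → Bool | sh g w = w} = ⋂ h : Γ, {w | w (g⁻¹ * h) = w h} := by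
    ext w
    simp only [Set.mem_ofPred_eq, Set.mem_iInter]
    exact ⟨fun h k => congrFun h k, fun h => funext h⟩
  rw [this]
  exact MeasurableSet.iInter fun h =>
    measurableSet_eq_fun (measurable_pi_apply _) (measurable_pi_apply _)

lemma measurableSet_isFr [Countable Γ] : MeasurableSet {w : Γ → Bool | IsFr w} := by
  have : {w : Γ → Bool | IsFr w} = ⋂ g : Γ, ⋂ _ : g ≠ 1, {w | sh g w = w}ᶜ := by
    ext w
    simp [IsFr]
  rw [this]
  exact MeasurableSet.iInter fun g => MeasurableSet.iInter fun _ => (measurableSet_fix g).compl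

lemma mu0_isFr_compl [Countable Γ] [Infinite Γ] : mu0 Γ {w | IsFr w}ᶜ = 0 := by
  have : {w : Γ → Bool | IsFr w}ᶜ ⊆ ⋃ g : {g : Γ // g ≠ 1}, {w | sh g.1 w = w} := by
    intro w hw
    simp only [Set.mem_compl_iff, Set.mem_ofPred_eq, IsFr, not_forall, not_not] at hw
    obtain ⟨g, hg, h⟩ := hw
    exact Set.mem_iUnion.mpr ⟨⟨g, hg⟩, h⟩
  exact measure_mono_null this (measure_iUnion_null fun g => null_fix g.2)

variable (Γ) in
/-- the free part of the Bernoulli shift -/
def BX : Type _ := {w : Γ → Bool // IsFr w}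

namespace BX

instance : MeasurableSpace (BX Γ) := inferInstanceAs (MeasurableSpace {w : Γ → Bool // IsFr w})

/-- the configuration of a point -/
def val (x : BX Γ) : Γ → Bool := Subtype.val x

lemma val_injective : Function.Injective (val : BX Γ → (Γ → Bool)) := Subtype.val_injective

lemma isFr (x : BX Γ) : IsFr x.val := x.2

instance : MulAction Γ (BX Γ) where
  smul g x := ⟨sh g x.val, x.isFr.sh g⟩
  one_smul x := by apply val_injective; exact sh_one _
  mul_smul g k x := by apply val_injective; exact sh_mul _ _ _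

@[simp] lemma val_smul (g : Γ) (x : BX Γ) : (g • x).val = sh g x.val := rfl

/-- the action is strictly free -/
theorem eq_one_of_smul_eq {g : Γ} {x : BX Γ} (h : g • x = x) : g = 1 := by
  by_contra hg
  exact x.isFr g hg (congrArg val h)

lemma range_val : Set.range (val : BX Γ → (Γ → Bool)) = {w | IsFr w} := Subtype.range_val

lemma measurable_val : Measurable (val : BX Γ → (Γ → Bool)) := measurable_subtype_coe

variable [Countable Γ]

lemma measurableEmbedding_val : MeasurableEmbedding (val : BX Γ → (Γ → Bool)) :=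
  MeasurableEmbedding.subtype_coe measurableSet_isFr

instance : StandardBorelSpace (BX Γ) := measurableSet_isFr.standardBorel

lemma measurable_smul (g : Γ) : Measurable (fun x : BX Γ => g • x) := by
  rw [← measurableEmbedding_val.measurable_comp_iff]
  exact (measurable_sh g).comp measurable_val

variable (Γ) in
/-- the Bernoulli measure on the free part -/
def mu : Measure (BX Γ) := (mu0 Γ).comap val

lemma mu_apply (S : Set (BX Γ)) : mu Γ S = mu0 Γ (val '' S) :=
  measurableEmbedding_val.comap_apply _ _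

variable [Infinite Γ]

instance : IsProbabilityMeasure (mu Γ) := by
  constructor
  rw [mu_apply, Set.image_univ, range_val]
  have h := measure_add_measure_compl (μ := mu0 Γ) (measurableSet_isFr (Γ := Γ))
  rw [mu0_isFr_compl, add_zero, measure_univ] at h
  exact h

omit [Infinite Γ] in
lemma image_preimage (g : Γ) (S : Set (BX Γ)) :
    val '' ((fun x : BX Γ => g • x) ⁻¹' S) = sh g ⁻¹' (val '' S) := by
  ext w
  simp only [Set.mem_image, Set.mem_preimage]
  constructor
  · rintro ⟨x, hx, rfl⟩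
    exact ⟨g • x, hx, rfl⟩
  · rintro ⟨y, hy, h⟩
    refine ⟨g⁻¹ • y, by rwa [smul_inv_smul], ?_⟩
    rw [val_smul, h, sh_inv_sh]

omit [Infinite Γ] in
lemma measurePreserving_smul (g : Γ) :
    MeasurePreserving (fun x : BX Γ => g • x) (mu Γ) (mu Γ) := by
  refine ⟨measurable_smul g, ?_⟩
  ext S hS
  rw [Measure.map_apply (measurable_smul g) hS, mu_apply, mu_apply, image_preimage]
  exact (mp_sh g).measure_preimage
    (measurableEmbedding_val.measurableSet_image.mpr hS).nullMeasurableSet

omit [Infinite Γ] in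
/-- transfer of measures of finite Boolean combinations -/
lemma mu_inter_three (a b : Γ) (S : Set (BX Γ)) :
    mu Γ (S ∩ (fun x : BX Γ => a • x) ⁻¹' S ∩ (fun x : BX Γ => b • x) ⁻¹' S) =
      mu0 Γ (val '' S ∩ sh a ⁻¹' (val '' S) ∩ sh b ⁻¹' (val '' S)) := by
  rw [mu_apply, Set.image_inter val_injective, Set.image_inter val_injective, image_preimage,
    image_preimage]

omit [Infinite Γ] in
lemma measurableSet_image {S : Set (BX Γ)} (hS : MeasurableSet S) : MeasurableSet (val '' S) :=
  measurableEmbedding_val.measurableSet_image.mpr hS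

end BX

end

end Crest.Agent.R191.Bern
end

-- ▼ part R191/Bernoulli
section

/-! Row 191, T17: the action (free part of the Bernoulli shift), `exists_action` from the spectral
gap inequality of the full shift. -/

set_option autoImplicit false

namespace Crest.Agent.R191.Bern

open MeasureTheory Set

/-- four patterns -/
def pat : Fin 4 → Bool × Bool := ![(false, false), (false, true), (true, false), (true, true)]

lemma exists_pat (c : Bool × Bool) : ∃ i, pat i = c := by
  revert c; decide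

theorem exists_action_of_gap (Γ : Type) [Group Γ] [Countable Γ] (ι : F2 →* Γ)
    (hι : Function.Injective ι)
    (hgap : ∀ S : Set (Γ → Bool), MeasurableSet S →
      1 / 100 * ((mu0 Γ).real S * (1 - (mu0 Γ).real S)) ≤
        (mu0 Γ).real S - (mu0 Γ).real (S ∩ sh (ι la) ⁻¹' S ∩ sh (ι lb) ⁻¹' S)) :
    ∃ (X : Type) (_ : MeasurableSpace X) (_ : StandardBorelSpace X) (μ : Measure X)
      (_ : IsProbabilityMeasure μ) (_ : MulAction Γ X), FreeAct Γ X μ ∧
      (∀ S : Set X, MeasurableSet S → 1 / 100 * (μ.real S * (1 - μ.real S)) ≤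
        μ.real S - μ.real {y | y ∈ S ∧ ι la • y ∈ S ∧ ι lb • y ∈ S}) ∧
      ∃ U : Fin 4 → Set X, (∀ i, MeasurableSet (U i)) ∧ (∀ i, μ (U i) ≤ 1 / 4) ∧
        ⋃ i, U i = Set.univ := by
  classical
  have hinf : Infinite Γ := by
    have h2 : Function.Injective (fun n : ℤ => ι (la ^ n)) := by
      intro n m h
      have h3 := hι h
      have := congrArg (FreeGroup.lift (fun _ : Fin 2 => Multiplicative.ofAdd (1 : ℤ))) h3
      simp only [la, map_zpow, FreeGroup.lift_apply_of] at this
      have h4 := congrArg Multiplicative.toAdd this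
      simpa using h4
    exact Infinite.of_injective _ h2
  have hk : ι la ≠ 1 := by
    intro h
    have h1 : la = 1 := hι (by rw [h, map_one])
    have := congrArg (FreeGroup.lift (fun _ : Fin 2 => Multiplicative.ofAdd (1 : ℤ))) h1
    simp [la] at this
  refine ⟨BX Γ, inferInstance, inferInstance, BX.mu Γ, inferInstance, inferInstance,
    ⟨fun g p h => BX.eq_one_of_smul_eq h, fun g => BX.measurePreserving_smul g⟩, ?_, ?_⟩
  · intro S hS
    have h1 := hgap (BX.val '' S) (BX.measurableSet_image hS)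
    have h2 : (BX.mu Γ).real S = (mu0 Γ).real (BX.val '' S) := by
      simp only [measureReal_def, BX.mu_apply]
    have h3 : {y : BX Γ | y ∈ S ∧ ι la • y ∈ S ∧ ι lb • y ∈ S} =
        S ∩ (fun x : BX Γ => ι la • x) ⁻¹' S ∩ (fun x : BX Γ => ι lb • x) ⁻¹' S := by
      ext y; simp only [Set.mem_inter_iff, Set.mem_preimage]; exact and_assoc.symm
    have h4 : (BX.mu Γ).real {y : BX Γ | y ∈ S ∧ ι la • y ∈ S ∧ ι lb • y ∈ S} =
        (mu0 Γ).real (BX.val '' S ∩ sh (ι la) ⁻¹' (BX.val '' S) ∩
          sh (ι lb) ⁻¹' (BX.val '' S)) := by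
      rw [h3, measureReal_def, BX.mu_inter_three, measureReal_def]
    rw [h2, h4]
    exact h1
  · refine ⟨fun i => {x : BX Γ | x.val 1 = (pat i).1 ∧ x.val (ι la) = (pat i).2}, ?_, ?_, ?_⟩
    · intro i
      have m1 : Measurable fun x : BX Γ => x.val 1 :=
        (measurable_pi_apply (1 : Γ)).comp BX.measurable_val
      have m2 : Measurable fun x : BX Γ => x.val (ι la) :=
        (measurable_pi_apply (ι la)).comp BX.measurable_val
      exact (m1 (measurableSet_singleton (pat i).1)).inter
        (m2 (measurableSet_singleton (pat i).2))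
    · intro i
      rw [BX.mu_apply]
      have hsub : BX.val '' {x : BX Γ | x.val 1 = (pat i).1 ∧ x.val (ι la) = (pat i).2} ⊆
          Set.pi (({1, ι la} : Finset Γ) : Set Γ)
            (fun h => if h = 1 then ({(pat i).1} : Set Bool) else {(pat i).2}) := by
        rintro w ⟨x, ⟨h1, h2⟩, rfl⟩
        intro h hh
        simp only [Finset.coe_insert, Finset.coe_singleton, Set.mem_insert_iff,
          Set.mem_singleton_iff] at hh
        rcases hh with rfl | rfl
        · simpa using h1
        · simpa [hk] using h2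
      refine (measure_mono hsub).trans ?_
      unfold mu0
      rw [Measure.infinitePi_pi _ fun i _ => by split_ifs <;> exact measurableSet_singleton _,
        Finset.prod_pair (Ne.symm hk)]
      simp only [if_true, hk, if_false, coin_singleton]
      rw [← ENNReal.toReal_le_toReal (by finiteness) (by finiteness)]
      norm_num
    · rw [Set.eq_univ_iff_forall]
      intro x
      obtain ⟨i, hi⟩ := exists_pat (x.val 1, x.val (ι la))
      exact Set.mem_iUnion.mpr ⟨i, by
        show x.val 1 = (pat i).1 ∧ x.val (ι la) = (pat i).2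
        rw [hi]; exact ⟨rfl, rfl⟩⟩

end Crest.Agent.R191.Bern
end

-- ▼ part R191/Kesten681
section

/-! R191 M7: an `ℓ²` spectral gap inequality for free actions of the free group of rank two. -/

namespace Crest.Agent.R191.Gap

noncomputable section

/-- First letters of reduced words: `s x` starts with `s` iff `x` does not start with `s⁻¹`. -/
lemma head_of_mul (i : Fin 2) (x : FreeGroup (Fin 2)) :
    (FreeGroup.of i * x).toWord.head? = some (i, true) ↔ ¬ x.toWord.head? = some (i, false) := by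
  have hred : FreeGroup.reduce x.toWord = x.toWord := FreeGroup.reduce_toWord x
  have h1 : (FreeGroup.of i * x).toWord = FreeGroup.reduce ((i, true) :: x.toWord) := by
    rw [FreeGroup.toWord_mul, FreeGroup.toWord_of]; rfl
  rw [h1, FreeGroup.reduce.cons, hred]
  have hR : FreeGroup.IsReduced x.toWord := FreeGroup.isReduced_toWord
  rcases hx : x.toWord with _ | ⟨⟨j, b⟩, tl⟩
  · simp
  · rw [hx] at hR
    by_cases h : i = j ∧ b = false
    · obtain ⟨rfl, rfl⟩ := h
      simp only [and_self, Bool.not_false, ↓reduceIte, List.head?_cons, not_true_eq_false,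
        iff_false]
      intro h2
      rcases tl with _ | ⟨⟨k, b'⟩, tl'⟩
      · simp at h2
      · simp only [List.head?_cons, Option.some.injEq, Prod.mk.injEq] at h2
        obtain ⟨rfl, rfl⟩ := h2
        have := List.IsChain.rel hR
        simp at this
    · have h' : ¬ (i = j ∧ true = !b) := by
        rintro ⟨h3, h4⟩
        apply h
        refine ⟨h3, ?_⟩
        cases b
        · rfl
        · exact absurd h4 (by decide)
      simp only [h', ↓reduceIte, List.head?_cons, true_iff]
      intro h2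
      simp only [Option.some.injEq, Prod.mk.injEq] at h2
      exact h ⟨h2.1.symm, h2.2⟩

open scoped Classical in
set_option maxHeartbeats 2000000 in
/-- Kesten-type inequality, with child/parent weights `(2, 1/2)`. -/
theorem kesten {Y : Type*} [MulAction (FreeGroup (Fin 2)) Y] (c : Y → ℝ)
    (hfree : ∀ (y : Y), c y ≠ 0 → ∀ g : FreeGroup (Fin 2), g • y = y → g = 1)
    (hc : Summable fun y => c y ^ 2) :
    (∑' y, c y * c (FreeGroup.of (0 : Fin 2) • y)) +
      (∑' y, c y * c (FreeGroup.of (1 : Fin 2) • y)) ≤ (7 / 4) * ∑' y, c y ^ 2 := by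
  -- representatives
  let r : Y → Y := fun y =>
    Quotient.out (Quotient.mk (MulAction.orbitRel (FreeGroup (Fin 2)) Y) y)
  have hr : ∀ y, ∃ g : FreeGroup (Fin 2), g • r y = y := by
    intro y
    have : (MulAction.orbitRel (FreeGroup (Fin 2)) Y) y (r y) := by
      apply Setoid.symm'
      exact Quotient.mk_out (s := MulAction.orbitRel (FreeGroup (Fin 2)) Y) y
    rw [MulAction.orbitRel_apply] at this
    obtain ⟨g, hg⟩ := this
    exact ⟨g, hg⟩
  choose w hw using hr
  have hrs : ∀ (g : FreeGroup (Fin 2)) (y : Y), r (g • y) = r y := by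
    intro g y
    have : Quotient.mk (MulAction.orbitRel (FreeGroup (Fin 2)) Y) (g • y) =
        Quotient.mk (MulAction.orbitRel (FreeGroup (Fin 2)) Y) y := by
      apply Quotient.sound
      change (MulAction.orbitRel (FreeGroup (Fin 2)) Y) _ _
      rw [MulAction.orbitRel_apply]
      exact ⟨g, rfl⟩
    simp only [r, this]
  have hws : ∀ (g : FreeGroup (Fin 2)) (y : Y), c y ≠ 0 → w (g • y) = g * w y := by
    intro g y hy
    have h1 : w (g • y) • r y = g • y := by
      have := hw (g • y)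
      rwa [hrs] at this
    have h2 : (w y * ((g * w y)⁻¹ * w (g • y)) * (w y)⁻¹) • y = y := by
      have h3 : (w y)⁻¹ • y = r y := by
        rw [inv_smul_eq_iff]; exact (hw y).symm
      have h4 : g⁻¹ • (g • y) = y := inv_smul_smul g y
      calc (w y * ((g * w y)⁻¹ * w (g • y)) * (w y)⁻¹) • y
          = g⁻¹ • (w (g • y) • ((w y)⁻¹ • y)) := by
            simp only [← mul_smul]; congr 1; group
        _ = y := by rw [h3, h1, h4]
    have h5 := hfree y hy _ h2
    have h6 : (g * w y)⁻¹ * w (g • y) = 1 := by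
      have : (g * w y)⁻¹ * w (g • y) =
        (w y)⁻¹ * (w y * ((g * w y)⁻¹ * w (g • y)) * (w y)⁻¹) * w y := by group
      rw [this, h5]; group
    exact (inv_mul_eq_one.mp h6).symm
  -- the weights
  let P : Fin 2 → Y → Prop := fun i y => (w y).toWord.head? = some (i, true)
  let M : Fin 2 → Y → Prop := fun i y => (w y).toWord.head? = some (i, false)
  have hPM : ∀ i y, c y ≠ 0 → (P i (FreeGroup.of i • y) ↔ ¬ M i y) := by
    intro i y hy
    simp only [P, M]
    rw [hws _ _ hy]
    exact head_of_mul i _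
  let A : Fin 2 → Y → ℝ := fun i z => if P i z then c z ^ 2 else c z ^ 2 / 4
  let B : Fin 2 → Y → ℝ := fun i z => if M i z then c z ^ 2 else c z ^ 2 / 4
  have hA0 : ∀ i z, 0 ≤ A i z := by
    intro i z; simp only [A]; split_ifs <;> positivity
  have hB0 : ∀ i z, 0 ≤ B i z := by
    intro i z; simp only [B]; split_ifs <;> positivity
  have hA1 : ∀ i z, A i z ≤ c z ^ 2 := by
    intro i z; simp only [A]; split_ifs <;> nlinarith [sq_nonneg (c z)]
  have hB1 : ∀ i z, B i z ≤ c z ^ 2 := by
    intro i z; simp only [B]; split_ifs <;> nlinarith [sq_nonneg (c z)]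
  have hAs : ∀ i, Summable (A i) := fun i => Summable.of_nonneg_of_le (hA0 i) (hA1 i) hc
  have hBs : ∀ i, Summable (B i) := fun i => Summable.of_nonneg_of_le (hB0 i) (hB1 i) hc
  have hAs' : ∀ i : Fin 2, Summable (fun y => A i (FreeGroup.of i • y)) := fun i =>
    (MulAction.toPerm (FreeGroup.of i) : Equiv.Perm Y).summable_iff.mpr (hAs i)
  have hcs' : ∀ i : Fin 2, Summable (fun y => c (FreeGroup.of i • y) ^ 2) := fun i =>
    (MulAction.toPerm (FreeGroup.of i) : Equiv.Perm Y).summable_iff.mpr hc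
  have hprod : ∀ i : Fin 2, Summable (fun y => c y * c (FreeGroup.of i • y)) := by
    intro i
    refine Summable.of_norm_bounded (g := fun y => c y ^ 2 + c (FreeGroup.of i • y) ^ 2)
      (hc.add (hcs' i)) ?_
    intro y
    rw [Real.norm_eq_abs, abs_le]
    constructor <;> nlinarith [sq_nonneg (c y + c (FreeGroup.of i • y)),
      sq_nonneg (c y - c (FreeGroup.of i • y)), sq_nonneg (c y), sq_nonneg (c (FreeGroup.of i • y))]
  have key : ∀ i y, c y * c (FreeGroup.of i • y) ≤ A i (FreeGroup.of i • y) + B i y := by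
    intro i y
    by_cases hy : c y = 0
    · rw [hy, zero_mul]
      exact add_nonneg (hA0 _ _) (hB0 _ _)
    · have h := hPM i y hy
      by_cases hM : M i y
      · have hP : ¬ P i (FreeGroup.of i • y) := fun h' => (h.mp h') hM
        simp only [A, B, hM, hP, if_true, if_false]
        nlinarith [sq_nonneg (c y - c (FreeGroup.of i • y) / 2)]
      · have hP : P i (FreeGroup.of i • y) := h.mpr hM
        simp only [A, B, hM, hP, if_true, if_false]
        nlinarith [sq_nonneg (c y / 2 - c (FreeGroup.of i • y))]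
  have hone : ∀ i : Fin 2, ∑' y, c y * c (FreeGroup.of i • y) ≤ ∑' y, (A i y + B i y) := by
    intro i
    calc ∑' y, c y * c (FreeGroup.of i • y)
        ≤ ∑' y, (A i (FreeGroup.of i • y) + B i y) :=
          (hprod i).tsum_le_tsum (key i) ((hAs' i).add (hBs i))
      _ = ∑' y, A i (FreeGroup.of i • y) + ∑' y, B i y := (hAs' i).tsum_add (hBs i)
      _ = ∑' y, A i y + ∑' y, B i y := by
          congr 1
          exact (MulAction.toPerm (FreeGroup.of i) : Equiv.Perm Y).tsum_eq (A i)
      _ = ∑' y, (A i y + B i y) := ((hAs i).tsum_add (hBs i)).symm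
  calc (∑' y, c y * c (FreeGroup.of (0 : Fin 2) • y)) +
        (∑' y, c y * c (FreeGroup.of (1 : Fin 2) • y))
      ≤ ∑' y, (A 0 y + B 0 y) + ∑' y, (A 1 y + B 1 y) := add_le_add (hone 0) (hone 1)
    _ = ∑' y, ((A 0 y + B 0 y) + (A 1 y + B 1 y)) :=
        (((hAs 0).add (hBs 0)).tsum_add ((hAs 1).add (hBs 1))).symm
    _ ≤ ∑' y, (7 / 4) * c y ^ 2 := by
        refine (((hAs 0).add (hBs 0)).add ((hAs 1).add (hBs 1))).tsum_le_tsum ?_
          (hc.mul_left _)
        intro y
        simp only [A, B, P, M]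
        rcases hh : (w y).toWord.head? with _ | ⟨j, b⟩
        · simp; nlinarith [sq_nonneg (c y)]
        · fin_cases j <;> cases b <;> simp <;> nlinarith [sq_nonneg (c y)]
    _ = (7 / 4) * ∑' y, c y ^ 2 := tsum_mul_left

end

end Crest.Agent.R191.Gap
end

-- ▼ part R191/Gap
section

/-! R191 T17a: Walsh functions and the spectral gap of Bernoulli shifts over a free subgroup. -/

set_option autoImplicit false

namespace Crest.Agent.R191.Gap

open MeasureTheory Set Bern
open scoped symmDiff

noncomputable section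

variable {Γ : Type*}

/-- sign of a bit -/
def sgn (b : Bool) : ℝ := if b then 1 else -1

lemma sgn_mul_self (b : Bool) : sgn b * sgn b = 1 := by cases b <;> simp [sgn]
lemma sgn_not (b : Bool) : sgn (!b) = - sgn b := by cases b <;> simp [sgn]
lemma abs_sgn (b : Bool) : |sgn b| = 1 := by cases b <;> simp [sgn]

/-- Walsh function -/
def chi (F : Finset Γ) (w : Γ → Bool) : ℝ := ∏ h ∈ F, sgn (w h)

@[simp] lemma chi_empty (w : Γ → Bool) : chi ∅ w = 1 := by simp [chi]

lemma chi_mul [DecidableEq Γ] (F H : Finset Γ) (w : Γ → Bool) :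
    chi F w * chi H w = chi (F ∆ H) w := by
  have h1 : chi (F ∩ H) w * chi (F \ H) w = chi F w := Finset.prod_inter_mul_prod_sdiff F H _
  have h2 : chi (H ∩ F) w * chi (H \ F) w = chi H w := Finset.prod_inter_mul_prod_sdiff H F _
  have h3 : chi (F ∩ H) w * chi (F ∩ H) w = 1 := by
    unfold chi
    rw [← Finset.prod_mul_distrib]
    exact Finset.prod_eq_one fun i _ => sgn_mul_self _
  have h4 : chi (F ∆ H) w = chi (F \ H) w * chi (H \ F) w := by
    unfold chi
    rw [symmDiff_def, Finset.sup_eq_union, Finset.prod_union disjoint_sdiff_sdiff]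
  rw [Finset.inter_comm] at h2
  rw [h4, ← h1, ← h2]
  linear_combination (chi (F \ H) w * chi (H \ F) w) * h3

lemma abs_chi (F : Finset Γ) (w : Γ → Bool) : |chi F w| = 1 := by
  unfold chi
  rw [Finset.abs_prod]
  exact Finset.prod_eq_one fun i _ => abs_sgn _

lemma measurable_chi (F : Finset Γ) : Measurable (chi F) := by
  unfold chi
  refine Finset.measurable_prod _ fun i _ => ?_
  exact (measurable_of_finite sgn).comp (measurable_pi_apply i)

lemma integrable_chi (F : Finset Γ) : Integrable (chi F) (mu0 Γ) := by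
  refine Integrable.of_bound (measurable_chi F).aestronglyMeasurable 1 ?_
  exact Filter.Eventually.of_forall fun w => by rw [Real.norm_eq_abs, abs_chi]

/-- flip of one coordinate -/
def flip [DecidableEq Γ] (i : Γ) (w : Γ → Bool) : Γ → Bool := fun j => if j = i then !w j else w j

lemma coin_map_not : coin.map (fun b : Bool => !b) = coin := by
  refine Measure.ext_of_singleton fun b => ?_
  rw [Measure.map_apply (measurable_of_finite _) (measurableSet_singleton b), coin_singleton]
  have : (fun b : Bool => !b) ⁻¹' {b} = {!b} := by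
    ext x; cases x <;> cases b <;> simp
  rw [this, coin_singleton]

lemma mp_flip [DecidableEq Γ] (i : Γ) : MeasurePreserving (flip i) (mu0 Γ) (mu0 Γ) := by
  have hf : ∀ j : Γ, Measurable (fun b : Bool => if j = i then !b else b) := fun j =>
    measurable_of_finite _
  refine ⟨?_, ?_⟩
  · refine measurable_pi_lambda _ fun j => ?_
    exact (hf j).comp (measurable_pi_apply j)
  · unfold mu0
    have h := Measure.infinitePi_map_pi (fun _ : Γ => coin) hf
    have h2 : (fun j : Γ => coin.map (fun b : Bool => if j = i then !b else b)) =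
        fun _ => coin := by
      funext j
      by_cases hj : j = i
      · simp only [hj, if_true]; exact coin_map_not
      · simp only [hj, if_false]; exact Measure.map_id
    simp only [h2] at h
    exact h

lemma chi_flip [DecidableEq Γ] {i : Γ} {F : Finset Γ} (hi : i ∈ F) (w : Γ → Bool) :
    chi F (flip i w) = - chi F w := by
  unfold chi
  rw [← Finset.mul_prod_erase F _ hi, ← Finset.mul_prod_erase F (fun h => sgn (w h)) hi]
  have h1 : sgn (flip i w i) = - sgn (w i) := by simp [flip, sgn_not]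
  have h2 : ∏ x ∈ F.erase i, sgn (flip i w x) = ∏ x ∈ F.erase i, sgn (w x) := by
    refine Finset.prod_congr rfl fun j hj => ?_
    simp [flip, Finset.ne_of_mem_erase hj]
  rw [h1, h2, neg_mul]

lemma integral_chi {F : Finset Γ} (hF : F ≠ ∅) : ∫ w, chi F w ∂(mu0 Γ) = 0 := by
  classical
  obtain ⟨i, hi⟩ := Finset.nonempty_iff_ne_empty.mpr hF
  have h1 : ∫ w, chi F (flip i w) ∂(mu0 Γ) = ∫ w, chi F w ∂(mu0 Γ) := by
    have := (mp_flip i).map_eq
    conv_rhs => rw [← this]
    rw [integral_map (mp_flip i).measurable.aemeasurable (measurable_chi F).aestronglyMeasurable]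
  simp only [chi_flip hi] at h1
  rw [integral_neg] at h1
  linarith

/-- finite Walsh sums -/
def W (c : Finset Γ →₀ ℝ) (w : Γ → Bool) : ℝ := c.sum fun F a => a * chi F w

lemma measurable_W (c : Finset Γ →₀ ℝ) : Measurable (W c) := by
  unfold W Finsupp.sum
  exact Finset.measurable_sum _ fun F _ => (measurable_chi F).const_mul _

lemma integral_W_mul_W (c d : Finset Γ →₀ ℝ) :
    ∫ w, W c w * W d w ∂(mu0 Γ) = c.sum fun F a => a * d F := by
  classical
  have h1 : ∀ w : Γ → Bool, W c w * W d w =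
      ∑ F ∈ c.support, ∑ H ∈ d.support, (c F * d H) * chi (F ∆ H) w := by
    intro w
    unfold W Finsupp.sum
    rw [Finset.sum_mul_sum]
    refine Finset.sum_congr rfl fun F _ => Finset.sum_congr rfl fun H _ => ?_
    rw [← chi_mul]; ring
  simp only [h1]
  rw [integral_finsetSum]
  swap
  · intro F _
    exact integrable_finsetSum _ fun H _ => (integrable_chi _).const_mul _
  unfold Finsupp.sum
  refine Finset.sum_congr rfl fun F _ => ?_
  rw [integral_finsetSum]
  swap
  · intro H _
    exact (integrable_chi _).const_mul _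
  have h2 : ∀ H ∈ d.support, ∫ w, (c F * d H) * chi (F ∆ H) w ∂(mu0 Γ) =
      if H = F then c F * d F else 0 := by
    intro H _
    rw [integral_const_mul]
    by_cases hHF : H = F
    · subst hHF
      simp
    · rw [integral_chi, mul_zero, if_neg hHF]
      intro h3
      rw [← Finset.bot_eq_empty, symmDiff_eq_bot] at h3
      exact hHF h3.symm
  rw [Finset.sum_congr rfl h2, Finset.sum_ite_eq']
  split_ifs with h
  · rfl
  · change 0 = c F * d F
    rw [Finsupp.notMem_support_iff.mp h, mul_zero]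

/-- sets whose indicator is a finite Walsh sum -/
def Alg (Γ : Type*) : Set (Set (Γ → Bool)) :=
  {S | ∃ c : Finset Γ →₀ ℝ, ∀ w, S.indicator (fun _ => (1 : ℝ)) w = W c w}

/-- span of the Walsh functions -/
def V (Γ : Type*) : Submodule ℝ ((Γ → Bool) → ℝ) := Submodule.span ℝ (Set.range (chi (Γ := Γ)))

lemma mem_V_iff {f : (Γ → Bool) → ℝ} : f ∈ V Γ ↔ ∃ c : Finset Γ →₀ ℝ, ∀ w, f w = W c w := by
  unfold V
  rw [Finsupp.mem_span_range_iff_exists_finsupp]
  have h : ∀ c : Finset Γ →₀ ℝ, (c.sum fun i a => a • chi (Γ := Γ) i) = W c := by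
    intro c
    funext w
    unfold W Finsupp.sum
    rw [Finset.sum_apply]
    rfl
  constructor
  · rintro ⟨c, hc⟩
    rw [h] at hc
    exact ⟨c, fun w => by rw [hc]⟩
  · rintro ⟨c, hc⟩
    exact ⟨c, by rw [h]; funext w; exact (hc w).symm⟩

lemma V_mul {f g : (Γ → Bool) → ℝ} (hf : f ∈ V Γ) (hg : g ∈ V Γ) : f * g ∈ V Γ := by
  classical
  have h1 : f * g ∈ V Γ * V Γ := Submodule.mul_mem_mul hf hg
  have h2 : V Γ * V Γ ≤ V Γ := by
    unfold V
    rw [Submodule.span_mul_span]
    refine Submodule.span_mono ?_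
    rintro _ ⟨_, ⟨F, rfl⟩, _, ⟨H, rfl⟩, rfl⟩
    exact ⟨F ∆ H, by funext w; exact (chi_mul F H w).symm⟩
  exact h2 h1

lemma V_one : (1 : (Γ → Bool) → ℝ) ∈ V Γ :=
  Submodule.subset_span ⟨∅, by funext w; simp⟩

lemma mem_Alg_iff {S : Set (Γ → Bool)} : S ∈ Alg Γ ↔ S.indicator (fun _ => (1 : ℝ)) ∈ V Γ := by
  rw [mem_V_iff]; rfl

lemma Alg_compl {S : Set (Γ → Bool)} (hS : S ∈ Alg Γ) : Sᶜ ∈ Alg Γ := by
  rw [mem_Alg_iff] at hS ⊢
  have : Sᶜ.indicator (fun _ => (1 : ℝ)) = 1 - S.indicator (fun _ => (1 : ℝ)) := by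
    funext w
    by_cases hw : w ∈ S <;> simp [hw]
  rw [this]
  exact Submodule.sub_mem _ V_one hS

lemma Alg_inter {S T : Set (Γ → Bool)} (hS : S ∈ Alg Γ) (hT : T ∈ Alg Γ) : S ∩ T ∈ Alg Γ := by
  rw [mem_Alg_iff] at hS hT ⊢
  have : (S ∩ T).indicator (fun _ => (1 : ℝ)) =
      S.indicator (fun _ => (1 : ℝ)) * T.indicator (fun _ => (1 : ℝ)) := by
    funext w
    by_cases hw : w ∈ S <;> by_cases hw' : w ∈ T <;> simp [hw, hw']
  rw [this]
  exact V_mul hS hT

lemma isSetAlgebra_Alg : IsSetAlgebra (Alg Γ) where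
  empty_mem := by
    rw [mem_Alg_iff]
    have : (∅ : Set (Γ → Bool)).indicator (fun _ => (1 : ℝ)) = 0 := by
      funext w; simp
    rw [this]
    exact Submodule.zero_mem _
  compl_mem _ hS := Alg_compl hS
  union_mem S T hS hT := by
    have : S ∪ T = (Sᶜ ∩ Tᶜ)ᶜ := by
      rw [Set.compl_inter, compl_compl, compl_compl]
    rw [this]
    exact Alg_compl (Alg_inter (Alg_compl hS) (Alg_compl hT))

lemma coord_mem_Alg (i : Γ) : {w : Γ → Bool | w i = true} ∈ Alg Γ := by
  rw [mem_Alg_iff]
  have : {w : Γ → Bool | w i = true}.indicator (fun _ => (1 : ℝ)) =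
      (1 / 2 : ℝ) • (1 : (Γ → Bool) → ℝ) + (1 / 2 : ℝ) • chi {i} := by
    funext w
    by_cases hw : w i = true
    · simp [hw, chi, sgn]; norm_num
    · simp [hw, chi, sgn]
  rw [this]
  exact Submodule.add_mem _ (Submodule.smul_mem _ _ V_one)
    (Submodule.smul_mem _ _ (Submodule.subset_span ⟨{i}, rfl⟩))

lemma measurableSet_of_mem_Alg {S : Set (Γ → Bool)} (hS : S ∈ Alg Γ) : MeasurableSet S := by
  obtain ⟨c, hc⟩ := hS
  have : S = W c ⁻¹' {1} := by
    ext w
    rw [Set.mem_preimage, Set.mem_singleton_iff, ← hc w]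
    by_cases hw : w ∈ S <;> simp [hw]
  rw [this]
  exact measurable_W c (measurableSet_singleton 1)

lemma generateFrom_Alg : (MeasurableSpace.pi : MeasurableSpace (Γ → Bool)) =
    MeasurableSpace.generateFrom (Alg Γ) := by
  apply le_antisymm
  · refine iSup_le fun i => ?_
    rintro _ ⟨B, -, rfl⟩
    have hgen : MeasurableSet[MeasurableSpace.generateFrom (Alg Γ)] {w : Γ → Bool | w i = true} :=
      MeasurableSpace.measurableSet_generateFrom (coord_mem_Alg i)
    have hmeas : Measurable[MeasurableSpace.generateFrom (Alg Γ)] (fun w : Γ → Bool => w i) := by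
      apply measurable_to_bool
      exact hgen
    exact hmeas (Set.toFinite B).measurableSet
  · exact MeasurableSpace.generateFrom_le fun S hS => measurableSet_of_mem_Alg hS

/-! ### the shift -/

variable [Group Γ]

/-- translation of finite sets -/
def tr (g : Γ) : Equiv.Perm (Finset Γ) := (Equiv.mulLeft g).finsetCongr

lemma tr_apply (g : Γ) (F : Finset Γ) : tr g F = F.map (Equiv.mulLeft g).toEmbedding := rfl

lemma tr_one (F : Finset Γ) : tr 1 F = F := by
  classical
  ext x
  rw [tr_apply, Finset.mem_map]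
  simp

lemma tr_mul (g h : Γ) (F : Finset Γ) : tr (g * h) F = tr g (tr h F) := by
  rw [tr_apply, tr_apply, tr_apply, Finset.map_map]
  congr 1
  ext x
  simp [mul_assoc]

lemma tr_symm (g : Γ) : (tr g).symm = tr g⁻¹ := by
  ext1 F
  rw [Equiv.symm_apply_eq, ← tr_mul, mul_inv_cancel, tr_one]

lemma tr_empty (g : Γ) : tr g ∅ = ∅ := by rw [tr_apply]; simp

lemma tr_eq_empty {g : Γ} {F : Finset Γ} : tr g F = ∅ ↔ F = ∅ := by
  rw [tr_apply]; simp

lemma chi_sh (g : Γ) (F : Finset Γ) (w : Γ → Bool) : chi F (sh g w) = chi (tr g⁻¹ F) w := by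
  unfold chi sh
  rw [tr_apply, Finset.prod_map]
  rfl

lemma W_sh (g : Γ) (c : Finset Γ →₀ ℝ) (w : Γ → Bool) :
    W c (sh g w) = W (c.equivMapDomain (tr g⁻¹)) w := by
  unfold W
  rw [Finsupp.equivMapDomain_eq_mapDomain, Finsupp.sum_mapDomain_index_inj (tr g⁻¹).injective]
  simp only [chi_sh]

lemma corr_eq {c : Finset Γ →₀ ℝ} {S : Set (Γ → Bool)}
    (hc : ∀ w, S.indicator (fun _ => (1 : ℝ)) w = W c w) (g : Γ) :
    (mu0 Γ).real (S ∩ sh g ⁻¹' S) = ∑' F, c F * c (tr g F) := by
  have hS : MeasurableSet S := measurableSet_of_mem_Alg ⟨c, hc⟩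
  have h1 : (mu0 Γ).real (S ∩ sh g ⁻¹' S) =
      ∫ w, W c w * W (c.equivMapDomain (tr g⁻¹)) w ∂(mu0 Γ) := by
    rw [← integral_indicator_one (hS.inter (measurable_sh g hS))]
    refine integral_congr_ae (Filter.Eventually.of_forall fun w => ?_)
    simp only
    rw [← W_sh, ← hc, ← hc]
    by_cases hw : w ∈ S <;> by_cases hw' : sh g w ∈ S <;> simp [hw, hw']
  rw [h1, integral_W_mul_W, tsum_eq_sum (s := c.support)]
  · unfold Finsupp.sum
    refine Finset.sum_congr rfl fun F _ => ?_
    change c F * c ((tr g⁻¹).symm F) = c F * c (tr g F)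
    rw [tr_symm, inv_inv]
  · intro F hF
    rw [Finsupp.notMem_support_iff.mp hF, zero_mul]

omit [Group Γ] in
lemma coef_empty {c : Finset Γ →₀ ℝ} {S : Set (Γ → Bool)}
    (hc : ∀ w, S.indicator (fun _ => (1 : ℝ)) w = W c w) :
    (mu0 Γ).real S = c ∅ := by
  have hS : MeasurableSet S := measurableSet_of_mem_Alg ⟨c, hc⟩
  have h1 : (mu0 Γ).real S = ∫ w, W c w * W (Finsupp.single ∅ 1) w ∂(mu0 Γ) := by
    rw [← integral_indicator_one hS]
    refine integral_congr_ae (Filter.Eventually.of_forall fun w => ?_)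
    simp only
    rw [← hc]
    have : W (Finsupp.single (∅ : Finset Γ) (1 : ℝ)) w = 1 := by
      unfold W
      rw [Finsupp.sum_single_index] <;> simp
    rw [this, mul_one]
    rfl
  rw [h1, integral_W_mul_W]
  unfold Finsupp.sum
  rw [Finset.sum_eq_single ∅]
  · simp
  · intro F _ hF
    change c F * (Finsupp.single ∅ 1 : Finset Γ →₀ ℝ) F = 0
    rw [Finsupp.single_eq_of_ne hF, mul_zero]
  · intro h
    change c ∅ * (Finsupp.single ∅ 1 : Finset Γ →₀ ℝ) ∅ = 0
    rw [Finsupp.notMem_support_iff.mp h, zero_mul]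

/-- the action of the free group on finite subsets -/
abbrev act (ι : FreeGroup (Fin 2) →* Γ) : MulAction (FreeGroup (Fin 2)) (Finset Γ) where
  smul g F := tr (ι g) F
  one_smul F := by
    change tr (ι 1) F = F
    rw [map_one, tr_one]
  mul_smul g h F := by
    change tr (ι (g * h)) F = tr (ι g) (tr (ι h) F)
    rw [map_mul, tr_mul]

lemma act_free {ι : FreeGroup (Fin 2) →* Γ} (hι : Function.Injective ι) {F : Finset Γ}
    (hF : F.Nonempty) {g : FreeGroup (Fin 2)} (h : tr (ι g) F = F) : g = 1 := by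
  obtain ⟨i, hi⟩ := hF
  have hmem : ∀ n : ℕ, (ι g) ^ n * i ∈ F := by
    intro n
    induction n with
    | zero => simpa using hi
    | succ n ih =>
      have h1 : (ι g) * ((ι g) ^ n * i) ∈ tr (ι g) F := by
        rw [tr_apply, Finset.mem_map]
        exact ⟨_, ih, rfl⟩
      rw [h] at h1
      rw [pow_succ', mul_assoc]
      exact h1
  have : ∃ m n : ℕ, m ≠ n ∧ (ι g) ^ m * i = (ι g) ^ n * i := by
    obtain ⟨m, n, hmn, he⟩ := Finite.exists_ne_map_eq_of_infinite
      (fun n : ℕ => (⟨(ι g) ^ n * i, hmem n⟩ : F))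
    exact ⟨m, n, hmn, congrArg Subtype.val he⟩
  obtain ⟨m, n, hmn, he⟩ := this
  have he' : (ι g) ^ m = (ι g) ^ n := mul_right_cancel he
  rw [← map_pow, ← map_pow] at he'
  have he2 : g ^ m = g ^ n := hι he'
  by_contra hg
  have hinj : Function.Injective (fun n : ℕ => g ^ n) := by
    rw [injective_pow_iff_not_isOfFinOrder]
    intro hfin
    rw [isOfFinOrder_iff_pow_eq_one] at hfin
    obtain ⟨k, hk, hk'⟩ := hfin
    exact hg ((pow_eq_one_iff_left hk.ne').mp hk')
  exact hmn (hinj he2)

/-- the gap inequality for sets with finite Walsh expansion -/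
lemma gap_Alg (ι : FreeGroup (Fin 2) →* Γ) (hι : Function.Injective ι) {S : Set (Γ → Bool)}
    (hS : S ∈ Alg Γ) :
    1 / 8 * ((mu0 Γ).real S * (1 - (mu0 Γ).real S)) ≤ (mu0 Γ).real S -
      (mu0 Γ).real (S ∩ sh (ι (.of 0)) ⁻¹' S ∩ sh (ι (.of 1)) ⁻¹' S) := by
  classical
  obtain ⟨c, hc⟩ := hS
  set m := (mu0 Γ).real S with hm
  set c0 : Finset Γ → ℝ := fun F => if F = ∅ then 0 else c F with hc0
  have hcfin : (Function.support c).Finite := c.hasFiniteSupport
  have hsupp : Function.support c0 ⊆ Function.support c := by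
    intro F hF
    rw [Function.mem_support] at hF ⊢
    simp only [hc0] at hF
    split_ifs at hF with h
    · exact absurd rfl hF
    · exact hF
  have hc0fin : (Function.support c0).Finite := hcfin.subset hsupp
  have key : ∀ g : Γ, (mu0 Γ).real (S ∩ sh g ⁻¹' S) = m ^ 2 + ∑' F, c0 F * c0 (tr g F) := by
    intro g
    rw [corr_eq hc g]
    have h1 : ∀ F : Finset Γ, c F * c (tr g F) =
        (if F = ∅ then m ^ 2 else 0) + c0 F * c0 (tr g F) := by
      intro F
      simp only [hc0, tr_eq_empty]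
      by_cases hF : F = ∅
      · subst hF
        rw [tr_empty, hm, coef_empty hc]; simp [sq]
      · simp [hF]
    rw [tsum_congr h1, Summable.tsum_add, tsum_ite_eq]
    · exact summable_of_hasFiniteSupport ((Set.finite_singleton (∅ : Finset Γ)).subset
        (by
          intro F hF
          by_contra h
          rw [Set.mem_singleton_iff] at h
          exact hF (if_neg h)))
    · refine summable_of_hasFiniteSupport (hc0fin.subset ?_)
      intro F hF
      rw [Function.mem_support] at hF ⊢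
      exact left_ne_zero_of_mul hF
  have hsq : ∑' F, c0 F ^ 2 = m - m ^ 2 := by
    have h1 := key 1
    have h2 : sh (1 : Γ) ⁻¹' S = S := by
      ext w; simp
    rw [h2, Set.inter_self, ← hm] at h1
    have h3 : ∀ F : Finset Γ, c0 F * c0 (tr 1 F) = c0 F ^ 2 := by
      intro F; rw [tr_one]; ring
    rw [tsum_congr h3] at h1
    linarith
  let _ := act ι
  have hk := kesten (Y := Finset Γ) c0 (by
      intro F hF g hg
      have hne : F.Nonempty := by
        rw [Finset.nonempty_iff_ne_empty]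
        intro h
        apply hF
        simp [hc0, h]
      exact act_free hι hne hg)
    (summable_of_hasFiniteSupport (hc0fin.subset (by
      intro F hF
      rw [Function.mem_support] at hF ⊢
      exact fun h => hF (by rw [h]; norm_num))))
  rw [hsq] at hk
  have ha := key (ι (.of 0))
  have hb := key (ι (.of 1))
  have hk' : (∑' F, c0 F * c0 (tr (ι (.of 0)) F)) + (∑' F, c0 F * c0 (tr (ι (.of 1)) F)) ≤
      7 / 4 * (m - m ^ 2) := hk
  have h1 : (mu0 Γ).real (S ∩ sh (ι (.of 0)) ⁻¹' S ∩ sh (ι (.of 1)) ⁻¹' S) ≤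
      (mu0 Γ).real (S ∩ sh (ι (.of 0)) ⁻¹' S) := measureReal_mono Set.inter_subset_left
  have h2 : (mu0 Γ).real (S ∩ sh (ι (.of 0)) ⁻¹' S ∩ sh (ι (.of 1)) ⁻¹' S) ≤
      (mu0 Γ).real (S ∩ sh (ι (.of 1)) ⁻¹' S) :=
    measureReal_mono (fun w hw => ⟨hw.1.1, hw.2⟩)
  nlinarith

omit [Group Γ] in
lemma abs_real_sub_le (A B : Set (Γ → Bool)) :
    |(mu0 Γ).real A - (mu0 Γ).real B| ≤ (mu0 Γ).real (A ∆ B) := by
  have h : ∀ A B : Set (Γ → Bool), (mu0 Γ).real A ≤ (mu0 Γ).real B + (mu0 Γ).real (A ∆ B) := by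
    intro A B
    calc (mu0 Γ).real A ≤ (mu0 Γ).real (B ∪ A ∆ B) := by
          refine measureReal_mono fun w hw => ?_
          by_cases hB : w ∈ B
          · exact Or.inl hB
          · exact Or.inr (Or.inl ⟨hw, hB⟩)
      _ ≤ _ := measureReal_union_le _ _
  rw [abs_le]
  constructor
  · have := h B A
    rw [symmDiff_comm] at this
    linarith
  · have := h A B
    linarith

/-- **Spectral gap** for Bernoulli shifts, restricted to a free subgroup of rank two. -/
theorem gap (ι : FreeGroup (Fin 2) →* Γ) (hι : Function.Injective ι) {S : Set (Γ → Bool)}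
    (hS : MeasurableSet S) :
    1 / 8 * ((mu0 Γ).real S * (1 - (mu0 Γ).real S)) ≤ (mu0 Γ).real S -
      (mu0 Γ).real (S ∩ sh (ι (.of 0)) ⁻¹' S ∩ sh (ι (.of 1)) ⁻¹' S) := by
  refine le_of_forall_pos_le_add fun ε hε => ?_
  have hdense := Measure.MeasureDense.of_generateFrom_isSetAlgebra_finite (μ := mu0 Γ)
    isSetAlgebra_Alg generateFrom_Alg
  obtain ⟨T, hT, hST⟩ := hdense.approx S hS (measure_ne_top _ _) (ε / 5) (by positivity)
  have hST' : (mu0 Γ).real (S ∆ T) < ε / 5 := by
    rw [measureReal_def]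
    exact (ENNReal.lt_ofReal_iff_toReal_lt (measure_ne_top _ _)).mp hST
  have hTm : MeasurableSet T := measurableSet_of_mem_Alg hT
  have hg := gap_Alg ι hι hT
  set a := ι (.of 0)
  set b := ι (.of 1)
  have h1 := abs_le.mp (abs_real_sub_le S T)
  have hpre : ∀ g : Γ, (mu0 Γ).real ((sh g ⁻¹' S) ∆ (sh g ⁻¹' T)) = (mu0 Γ).real (S ∆ T) := by
    intro g
    rw [← Set.preimage_symmDiff, measureReal_def, measureReal_def,
      (mp_sh g).measure_preimage (hS.symmDiff hTm).nullMeasurableSet]
  have h2 : (mu0 Γ).real ((S ∩ sh a ⁻¹' S ∩ sh b ⁻¹' S) ∆ (T ∩ sh a ⁻¹' T ∩ sh b ⁻¹' T)) ≤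
      3 * (mu0 Γ).real (S ∆ T) := by
    calc (mu0 Γ).real ((S ∩ sh a ⁻¹' S ∩ sh b ⁻¹' S) ∆ (T ∩ sh a ⁻¹' T ∩ sh b ⁻¹' T))
        ≤ (mu0 Γ).real ((S ∆ T) ∪ ((sh a ⁻¹' S) ∆ (sh a ⁻¹' T)) ∪ ((sh b ⁻¹' S) ∆ (sh b ⁻¹' T))) := by
          refine measureReal_mono fun w hw => ?_
          simp only [Set.mem_union, Set.mem_symmDiff, Set.mem_inter_iff] at hw ⊢
          tauto
      _ ≤ (mu0 Γ).real (S ∆ T) + (mu0 Γ).real ((sh a ⁻¹' S) ∆ (sh a ⁻¹' T)) +
          (mu0 Γ).real ((sh b ⁻¹' S) ∆ (sh b ⁻¹' T)) := by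
          refine (measureReal_union_le _ _).trans ?_
          gcongr
          exact measureReal_union_le _ _
      _ = _ := by rw [hpre, hpre]; ring
  have h3 := abs_le.mp ((abs_real_sub_le (S ∩ sh a ⁻¹' S ∩ sh b ⁻¹' S)
    (T ∩ sh a ⁻¹' T ∩ sh b ⁻¹' T)).trans h2)
  set s := (mu0 Γ).real S
  set t := (mu0 Γ).real T
  have hs0 : 0 ≤ s := measureReal_nonneg
  have hs1 : s ≤ 1 := measureReal_le_one
  have ht0 : 0 ≤ t := measureReal_nonneg
  have ht1 : t ≤ 1 := measureReal_le_one
  have h4 : s * (1 - s) - t * (1 - t) ≤ (mu0 Γ).real (S ∆ T) := by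
    have h5 : s * (1 - s) - t * (1 - t) = (s - t) * (1 - s - t) := by ring
    have h6 : |(s - t) * (1 - s - t)| ≤ (mu0 Γ).real (S ∆ T) * 1 := by
      rw [abs_mul]
      refine mul_le_mul (abs_real_sub_le S T) ?_ (abs_nonneg _) measureReal_nonneg
      rw [abs_le]; constructor <;> linarith
    rw [h5]
    exact (le_abs_self _).trans (h6.trans_eq (mul_one _))
  linarith [h1.1, h1.2, h3.1, h3.2]

end

end Crest.Agent.R191.Gap
end

-- ▼ part R191/Bernoulli2
section

/-! Row 191, T17: `exists_action`. -/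

set_option autoImplicit false

namespace Crest.Agent.R191

open MeasureTheory

theorem exists_action (Γ : Type) [Group Γ] [Countable Γ] (ι : F2 →* Γ)
    (hι : Function.Injective ι) :
    ∃ (X : Type) (_ : MeasurableSpace X) (_ : StandardBorelSpace X) (μ : Measure X)
      (_ : IsProbabilityMeasure μ) (_ : MulAction Γ X), FreeAct Γ X μ ∧
      (∀ S : Set X, MeasurableSet S → 1 / 100 * (μ.real S * (1 - μ.real S)) ≤
        μ.real S - μ.real {y | y ∈ S ∧ ι la • y ∈ S ∧ ι lb • y ∈ S}) ∧
      ∃ U : Fin 4 → Set X, (∀ i, MeasurableSet (U i)) ∧ (∀ i, μ (U i) ≤ 1 / 4) ∧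
        ⋃ i, U i = Set.univ := by
  refine Bern.exists_action_of_gap Γ ι hι (fun S hS => ?_)
  have h := Gap.gap ι hι hS
  have h0 : 0 ≤ (Bern.mu0 Γ).real S * (1 - (Bern.mu0 Γ).real S) :=
    mul_nonneg measureReal_nonneg (sub_nonneg.mpr measureReal_le_one)
  refine le_trans ?_ h
  nlinarith

end Crest.Agent.R191
end

-- ▼ part R191/Cheap
section

/-!
# Cheap actions (row 191, upper bound)

`cheap_action`: abstract upper bound for the cost of `Γ ↷ ZMod M × X`.
-/

set_option autoImplicit false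

namespace Crest.Agent.R191.Cheap

open MeasureTheory Crest.Dynamics

/-- Transfer a graphing indexed by a countable type to one indexed by `ℕ`. -/
theorem actionCost_le_tsum {Γ Y ι : Type*} [Group Γ] [MulAction Γ Y] [MeasurableSpace Y]
    (ν : Measure Y) [Countable ι] (Ψ : ι → Γ × Set Y) (hmeas : ∀ i, MeasurableSet (Ψ i).2)
    (hgen : ∀ᵐ y ∂ν, ∀ g : Γ,
      Relation.EqvGen (fun x y : Y => ∃ i, x ∈ (Ψ i).2 ∧ y = (Ψ i).1 • x) y (g • y)) :
    actionCost Γ Y ν ≤ ∑' i, ν (Ψ i).2 := by
  classical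
  obtain ⟨e, he⟩ := Countable.exists_injective_nat ι
  let Φ : ℕ → Γ × Set Y := fun n => if h : ∃ i, e i = n then Ψ h.choose else (1, ∅)
  have hΦ : ∀ i, Φ (e i) = Ψ i := by
    intro i
    have h : ∃ j, e j = e i := ⟨i, rfl⟩
    have h2 : h.choose = i := he h.choose_spec
    simp only [Φ, dif_pos h, h2]
  have hΦ' : ∀ n, (¬ ∃ i, e i = n) → Φ n = (1, ∅) := fun n h => by simp only [Φ, dif_neg h]
  have hcost : graphingCost ν Φ = ∑' i, ν (Ψ i).2 := by
    unfold graphingCost
    rw [← he.tsum_eq (f := fun n => ν (Φ n).2)]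
    · simp only [hΦ]
    · intro n hn
      by_contra h
      apply hn
      have h' : ¬ ∃ i, e i = n := fun ⟨i, hi⟩ => h ⟨i, hi⟩
      simp [hΦ' n h']
  have hsub : ∀ x y, (∃ i, x ∈ (Ψ i).2 ∧ y = (Ψ i).1 • x) → GraphingStep Φ x y := by
    rintro x y ⟨i, hx, hy⟩
    exact ⟨e i, by rw [hΦ]; exact hx, by rw [hΦ]; exact hy⟩
  rw [← hcost]
  apply sInf_le
  refine ⟨Φ, ⟨?_, ?_⟩, rfl⟩
  · intro n
    by_cases h : ∃ i, e i = n
    · obtain ⟨i, rfl⟩ := h
      rw [hΦ]; exact hmeas i
    · rw [hΦ' n h]; exact MeasurableSet.empty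
  · refine ⟨{y | ¬ ∀ g : Γ,
      Relation.EqvGen (fun x y : Y => ∃ i, x ∈ (Ψ i).2 ∧ y = (Ψ i).1 • x) y (g • y)},
      hgen, ?_⟩
    intro x hx g
    have hx' := not_not.mp hx
    exact (hx' g).mono hsub

section

variable {Γ X : Type*} [Group Γ] [MulAction Γ X]

/-- The action of `Γ` on `ZMod M × X` where the first coordinate is rotated by `φ`. -/
@[reducible]
def prodAction {M : ℕ} (φ : Γ →* Multiplicative (ZMod M)) : MulAction Γ (ZMod M × X) where
  smul g y := ((φ g).toAdd + y.1, g • y.2)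
  one_smul y := by
    change ((φ 1).toAdd + y.1, (1 : Γ) • y.2) = y
    simp
  mul_smul g h y := by
    change ((φ (g * h)).toAdd + y.1, (g * h) • y.2) =
      ((φ g).toAdd + ((φ h).toAdd + y.1), g • h • y.2)
    simp [mul_smul, add_assoc]

/-- The measure on `ZMod M × X`. -/
noncomputable def prodMeasure (M : ℕ) [MeasurableSpace X] (μ : Measure X) : Measure (ZMod M × X) :=
  ((M : ENNReal)⁻¹ • (Measure.count : Measure (ZMod M))).prod μ

instance {M : ℕ} [NeZero M] : SigmaFinite ((M : ENNReal)⁻¹ • (Measure.count : Measure (ZMod M))) := by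
  have : IsFiniteMeasure ((M : ENNReal)⁻¹ • (Measure.count : Measure (ZMod M))) := by
    constructor
    rw [Measure.smul_apply, Measure.count_univ, smul_eq_mul]
    refine ENNReal.mul_lt_top ?_ ?_
    · simp [Nat.pos_of_ne_zero (NeZero.ne M)]
    · simp
  infer_instance

theorem prodMeasure_prod {M : ℕ} [NeZero M] [MeasurableSpace X] (μ : Measure X) [IsProbabilityMeasure μ]
    (A : Set (ZMod M)) (B : Set X) :
    prodMeasure M μ (A ×ˢ B) = (M : ENNReal)⁻¹ * (A.encard : ENNReal) * μ B := by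
  rw [prodMeasure, Measure.prod_prod, Measure.smul_apply, Measure.count_apply (MeasurableSet.of_discrete),
    smul_eq_mul]

instance isProb {M : ℕ} [NeZero M] [MeasurableSpace X] (μ : Measure X) [IsProbabilityMeasure μ] :
    IsProbabilityMeasure (prodMeasure M μ) := by
  constructor
  rw [← Set.univ_prod_univ, prodMeasure_prod]
  simp only [Set.encard_univ, measure_univ, mul_one]
  rw [ENat.card_eq_coe_natCard]
  simp only [Nat.card_zmod]
  exact ENNReal.inv_mul_cancel (by simp [NeZero.ne]) (by simp)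

theorem isFreePMP_prod {M : ℕ} [NeZero M] [MeasurableSpace X] (μ : Measure X)
    [IsProbabilityMeasure μ]
    (φ : Γ →* Multiplicative (ZMod M)) (h : IsFreePMPAction Γ X μ) :
    @IsFreePMPAction Γ (ZMod M × X) _ (prodAction φ) _ (prodMeasure M μ) := by
  let _ := prodAction (X := X) φ
  refine ⟨fun g => ?_, fun g hg => ?_⟩
  · have h1 : MeasurePreserving (fun l : ZMod M => (φ g).toAdd + l)
        ((M : ENNReal)⁻¹ • (Measure.count : Measure (ZMod M)))
        ((M : ENNReal)⁻¹ • (Measure.count : Measure (ZMod M))) := by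
      refine MeasurePreserving.smul_measure ⟨measurable_of_finite _, ?_⟩ _
      ext s hs
      rw [Measure.map_apply (measurable_of_finite _) hs, Measure.count_apply MeasurableSet.of_discrete,
        Measure.count_apply hs]
      congr 1
      have : Function.Bijective (fun l : ZMod M => (φ g).toAdd + l) :=
        (Equiv.addLeft ((φ g).toAdd)).bijective
      rw [← this.injective.encard_image, Set.image_preimage_eq _ this.surjective]
    exact h1.prod (h.1 g)
  · refine measure_mono_null (t := Set.univ ×ˢ {x : X | g • x = x}) ?_ ?_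
    · rintro ⟨l, x⟩ hy
      have : ((φ g).toAdd + l, g • x) = (l, x) := hy
      exact ⟨Set.mem_univ _, (Prod.ext_iff.mp this).2⟩
    · rw [prodMeasure_prod, h.2 g hg, mul_zero]

/-- Word in `c * t` moves a point along the levels. -/
theorem word_path {M : ℕ} (φ : Γ →* Multiplicative (ZMod M)) (t : Γ)
    (r : (ZMod M × X) → (ZMod M × X) → Prop)
    (hrefl : ∀ y, r y y) (htrans : ∀ x y z, r x y → r y z → r x z)
    (act : Γ → (ZMod M × X) → (ZMod M × X))
    (hact : ∀ g y, act g y = ((φ g).toAdd + y.1, g • y.2))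
    (ht0 : φ t = 1) (a : ℕ) :
    ∀ cs : List Γ, (∀ c ∈ cs, (∀ y, r y (act c y)) ∧ φ c = Multiplicative.ofAdd 1) →
      ∀ u : ZMod M × X, u.1 = (a : ZMod M) →
      (∀ j < cs.length, ∀ y : ZMod M × X, y.1 = ((a + j : ℕ) : ZMod M) → r y (act t y)) →
      r u (act ((cs.map (fun c => c * t)).prod) u) ∧
        (act ((cs.map (fun c => c * t)).prod) u).1 = ((a + cs.length : ℕ) : ZMod M) := by
  have hmul : ∀ g h y, act (g * h) y = act g (act h y) := by
    intro g h y
    simp [hact, mul_smul, add_assoc]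
  have hone : ∀ y, act 1 y = y := by
    intro y; simp [hact]
  intro cs
  induction cs with
  | nil =>
    intro _ u hu _
    simp only [List.map_nil, List.prod_nil, hone, List.length_nil, Nat.add_zero]
    exact ⟨hrefl _, hu⟩
  | cons c cs ih =>
    intro hc u hu hj
    obtain ⟨h1, h2⟩ := ih (fun c' hc' => hc c' (List.mem_cons_of_mem _ hc')) u hu
      (fun j hj' => hj j (by simp; omega))
    simp only [List.map_cons, List.prod_cons, List.length_cons]
    rw [hmul, hmul]
    set v := act ((cs.map (fun c => c * t)).prod) u with hv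
    have h3 := hj cs.length (by simp) v h2
    have h4 := (hc c (List.mem_cons_self)).1 (act t v)
    refine ⟨htrans _ _ _ h1 (htrans _ _ _ h3 h4), ?_⟩
    rw [hact c, hact t]
    have h5 := (hc c (List.mem_cons_self)).2
    rw [h5, ht0]
    simp only [toAdd_ofAdd, toAdd_one, zero_add]
    rw [h2]
    push_cast
    ring

/-- Abstract upper bound: a group generated by `z`, `f j` (commuting with `z`) and `t`, with a
relation `c₁ t c₂ t ⋯ c_D t = 1`, where the corners lie in `⟨z, f⟩`, and a homomorphism to `ZMod M`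
with `z, c₁, …, c_{D-1} ↦ 1`, `f j, t ↦ 0`, has an action of cost `≤ 1 + (r + (D-1))/M`. -/
theorem cheap_action {M : ℕ} [NeZero M] {r : ℕ} [MeasurableSpace X] (μ : Measure X)
    [IsProbabilityMeasure μ] (φ : Γ →* Multiplicative (ZMod M))
    (z t : Γ) (f : Fin r → Γ) (hcomm : ∀ j, z * f j = f j * z)
    (hgen : Subgroup.closure (insert t (insert z (Set.range f))) = ⊤)
    (hz : φ z = Multiplicative.ofAdd 1) (_hf : ∀ j, φ (f j) = 1) (ht : φ t = 1)
    (cs : List Γ) (clast : Γ) (hcs : ∀ c ∈ cs, c ∈ Subgroup.closure (insert z (Set.range f)))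
    (hclast : clast ∈ Subgroup.closure (insert z (Set.range f)))
    (hcsφ : ∀ c ∈ cs, φ c = Multiplicative.ofAdd 1)
    (hrel : (cs.map (fun c => c * t)).prod * (clast * t) = 1) :
    @actionCost Γ (ZMod M × X) _ (prodAction φ) _ (prodMeasure M μ) ≤
      1 + ((r + cs.length : ℕ) : ENNReal) / (M : ENNReal) := by
  let _ := prodAction (X := X) φ
  -- the graphing
  let Ψ : (Unit ⊕ Fin r ⊕ Fin cs.length) → Γ × Set (ZMod M × X) := fun i =>
    match i with
    | Sum.inl _ => (z, Set.univ)
    | Sum.inr (Sum.inl j) => (f j, {0} ×ˢ Set.univ)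
    | Sum.inr (Sum.inr l) => (t, {((l : ℕ) : ZMod M)} ×ˢ Set.univ)
  have hmeas : ∀ i, MeasurableSet (Ψ i).2 := by
    rintro (_ | _ | _)
    · exact MeasurableSet.univ
    · exact (MeasurableSet.of_discrete).prod MeasurableSet.univ
    · exact (MeasurableSet.of_discrete).prod MeasurableSet.univ
  set R : (ZMod M × X) → (ZMod M × X) → Prop :=
    fun x y => ∃ i, x ∈ (Ψ i).2 ∧ y = (Ψ i).1 • x with hR
  set E := Relation.EqvGen R with hE
  have hrefl : ∀ y, E y y := fun y => Relation.EqvGen.refl y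
  have hsymm : ∀ x y, E x y → E y x := fun x y => Relation.EqvGen.symm x y
  have htrans : ∀ x y z, E x y → E y z → E x z := fun x y z => Relation.EqvGen.trans x y z
  have hsmul : ∀ (g : Γ) (y : ZMod M × X), g • y = ((φ g).toAdd + y.1, g • y.2) := fun _ _ => rfl
  -- subgroup of everywhere-joined elements
  let S : Subgroup Γ :=
    { carrier := {g | ∀ y, E y (g • y)}
      mul_mem' := by
        intro a b ha hb y
        rw [mul_smul]
        exact htrans _ _ _ (hb y) (ha (b • y))
      one_mem' := by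
        intro y
        rw [one_smul]
        exact hrefl y
      inv_mem' := by
        intro a ha y
        have := ha (a⁻¹ • y)
        rw [smul_inv_smul] at this
        exact hsymm _ _ this }
  have hzS : z ∈ S := by
    intro y
    exact Relation.EqvGen.rel _ _ ⟨Sum.inl (), Set.mem_univ _, rfl⟩
  have hfS : ∀ j, f j ∈ S := by
    intro j y
    -- move to level 0
    obtain ⟨n, hn⟩ : ∃ n : ℤ, (z ^ n • y).1 = 0 := by
      refine ⟨-((ZMod.val y.1 : ℕ) : ℤ), ?_⟩
      rw [hsmul, map_zpow, hz]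
      simp only [toAdd_zpow, toAdd_ofAdd, zsmul_eq_mul, mul_one, Int.cast_neg, Int.cast_natCast]
      rw [ZMod.natCast_zmod_val, neg_add_cancel]
    have hzn : z ^ n ∈ S := S.zpow_mem hzS n
    have h1 : E y (z ^ n • y) := hzn y
    have h2 : E (z ^ n • y) (f j • z ^ n • y) := by
      refine Relation.EqvGen.rel _ _ ⟨Sum.inr (Sum.inl j), ?_, rfl⟩
      exact ⟨hn, Set.mem_univ _⟩
    have h3 : f j • z ^ n • y = z ^ n • f j • y := by
      rw [← mul_smul, ← mul_smul]
      congr 1
      exact ((show Commute z (f j) from hcomm j).zpow_left n).eq.symm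
    have h4 : E (f j • y) (z ^ n • f j • y) := hzn _
    rw [h3] at h2
    exact htrans _ _ _ h1 (htrans _ _ _ h2 (hsymm _ _ h4))
  have hCS : Subgroup.closure (insert z (Set.range f)) ≤ S := by
    rw [Subgroup.closure_le]
    rintro g (rfl | ⟨j, rfl⟩)
    · exact hzS
    · exact hfS j
  have htS : ∀ n : ℕ, ∀ y : ZMod M × X, y.1 = (n : ZMod M) → E y (t • y) := by
    intro n
    induction n using Nat.strong_induction_on with
    | _ n ih =>
      intro y hy
      by_cases hn : n < cs.length
      · exact Relation.EqvGen.rel _ _ ⟨Sum.inr (Sum.inr ⟨n, hn⟩), ⟨hy, Set.mem_univ _⟩, rfl⟩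
      · rw [not_lt] at hn
        -- degree of `clast`
        have hφlast : φ clast = Multiplicative.ofAdd (-(cs.length : ZMod M)) := by
          have h := congrArg φ hrel
          rw [map_mul, map_mul, ht, mul_one, map_one] at h
          have hp : φ ((cs.map (fun c => c * t)).prod) = Multiplicative.ofAdd (cs.length : ZMod M) := by
            have : ∀ l : List Γ, (∀ c ∈ l, φ c = Multiplicative.ofAdd 1) →
                φ ((l.map (fun c => c * t)).prod) = Multiplicative.ofAdd (l.length : ZMod M) := by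
              intro l
              induction l with
              | nil => intro _; simp
              | cons c l ihl =>
                intro hl
                simp only [List.map_cons, List.prod_cons, map_mul, List.length_cons]
                rw [ihl (fun c' hc' => hl c' (List.mem_cons_of_mem _ hc')), hl c (List.mem_cons_self),
                  ht, mul_one, ← ofAdd_add]
                congr 1
                push_cast
                ring
            exact this cs hcsφ
          rw [hp] at h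
          have h' := eq_inv_of_mul_eq_one_right h
          rw [h', ← ofAdd_neg]
        obtain ⟨a, rfl⟩ := Nat.exists_eq_add_of_le hn
        set u := clast • t • y with hu
        have hu1 : u.1 = (a : ZMod M) := by
          rw [hu, hsmul, hsmul, hφlast, ht]
          simp only [toAdd_ofAdd, toAdd_one, zero_add]
          rw [hy]
          push_cast
          ring
        obtain ⟨h1, _⟩ := word_path φ t E hrefl htrans (fun g y => g • y) (fun _ _ => rfl) ht a cs
          (fun c hc => ⟨hCS (hcs c hc), hcsφ c hc⟩) u hu1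
          (fun j hj y' hy' => ih (a + j) (by omega) y' hy')
        have h2 : (cs.map (fun c => c * t)).prod • u = y := by
          rw [hu, ← mul_smul clast t y, ← mul_smul, hrel, one_smul]
        have h1' : E u y := by
          rw [h2] at h1
          exact h1
        exact hsymm _ _ (htrans _ _ _ (hCS hclast (t • y)) h1')
  have htS' : t ∈ S := by
    intro y
    refine htS (ZMod.val y.1) y ?_
    rw [ZMod.natCast_zmod_val]
  have hS : S = ⊤ := by
    rw [eq_top_iff, ← hgen, Subgroup.closure_le]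
    rintro g (rfl | rfl | ⟨j, rfl⟩)
    · exact htS'
    · exact hzS
    · exact hfS j
  have hle := actionCost_le_tsum (prodMeasure M μ) Ψ hmeas
    (Filter.Eventually.of_forall (fun y g => (by rw [hS]; trivial : g ∈ S) y))
  refine hle.trans (le_of_eq ?_)
  rw [tsum_fintype, Fintype.sum_sum_type, Fintype.sum_sum_type]
  have e1 : ∀ l : ZMod M, prodMeasure M μ ({l} ×ˢ (Set.univ : Set X)) = (M : ENNReal)⁻¹ := by
    intro l
    rw [prodMeasure_prod]
    simp
  simp only [Ψ, e1, Finset.sum_const, Finset.card_univ, Fintype.card_fin, Finset.univ_unique,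
    Finset.card_singleton, one_smul, measure_univ, nsmul_eq_mul]
  rw [← add_mul, ENNReal.div_eq_inv_mul, mul_comm]
  push_cast
  rfl

end

end Crest.Agent.R191.Cheap
end

-- ▼ part R191/CheapAmalgam
section

set_option autoImplicit false

namespace Crest.Agent.R191.Cheap

open MeasureTheory Crest.Dynamics

/-- Cheap actions for a group generated by `a, b, z` with `z` commuting with `a b` and
`b a⁻¹ b`, and having homomorphisms to `ℤ/M` with `a ↦ 1, b ↦ 2, z ↦ 1`. -/
theorem cheap_of_data {Γ X : Type} [Group Γ] [MulAction Γ X] [MeasurableSpace X]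
    [StandardBorelSpace X] (μ : Measure X) [IsProbabilityMeasure μ]
    (hX : IsFreePMPAction Γ X μ) (a b z : Γ)
    (hc1 : z * (a * b) = (a * b) * z) (hc2 : z * (b * a⁻¹ * b) = (b * a⁻¹ * b) * z)
    (hgen : Subgroup.closure ({a, b, z} : Set Γ) = ⊤)
    (φ : ∀ M : ℕ, Γ →* Multiplicative (ZMod M))
    (ha : ∀ M, φ M a = Multiplicative.ofAdd 1) (hb : ∀ M, φ M b = Multiplicative.ofAdd 2)
    (hz : ∀ M, φ M z = Multiplicative.ofAdd 1) (M : ℕ) (hM : 100 < M) :
    ∃ (Y : Type) (_ : MeasurableSpace Y) (_ : StandardBorelSpace Y) (ν : Measure Y)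
      (_ : IsProbabilityMeasure ν) (_ : MulAction Γ Y),
      IsFreePMPAction Γ Y ν ∧ actionCost Γ Y ν ≤ 1 + 99 / (M : ENNReal) := by
  have : NeZero M := ⟨by omega⟩
  set t : Γ := z⁻¹ * a with ht
  set f : Fin 2 → Γ := ![z⁻¹ ^ 3 * (a * b), z⁻¹ ^ 3 * (b * a⁻¹ * b)] with hf
  have hcz1 : Commute z (a * b) := hc1
  have hcz2 : Commute z (b * a⁻¹ * b) := hc2
  have hcomm : ∀ j, z * f j = f j * z := by
    intro j
    have h0 : Commute z (z⁻¹ ^ 3) := ((Commute.refl z).inv_right).pow_right 3
    fin_cases j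
    · exact (h0.mul_right hcz1)
    · exact (h0.mul_right hcz2)
  have hφt : φ M t = 1 := by
    rw [ht, map_mul, map_inv, ha, hz]; simp
  have hφf : ∀ j, φ M (f j) = 1 := by
    intro j
    fin_cases j
    · simp only [hf, Fin.zero_eta, Matrix.cons_val_zero, map_mul, map_pow, map_inv, ha, hb, hz]
      rw [← ofAdd_neg, ← ofAdd_nsmul, ← ofAdd_add, ← ofAdd_add]
      rw [ofAdd_eq_one]
      norm_num
    · simp only [hf, Fin.mk_one, Matrix.cons_val_one, Matrix.cons_val_fin_one, map_mul, map_pow,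
        map_inv, ha, hb, hz]
      rw [← ofAdd_neg, ← ofAdd_nsmul, ← ofAdd_add, ← ofAdd_add, ← ofAdd_add]
      rw [ofAdd_eq_one]
      norm_num
  -- closures
  set K : Subgroup Γ := Subgroup.closure (insert z (Set.range f)) with hK
  have hzK : z ∈ K := Subgroup.subset_closure (Set.mem_insert _ _)
  have hf0 : f 0 ∈ K := Subgroup.subset_closure (Set.mem_insert_of_mem _ ⟨0, rfl⟩)
  have hf1 : f 1 ∈ K := Subgroup.subset_closure (Set.mem_insert_of_mem _ ⟨1, rfl⟩)
  have hab : a * b = z ^ 3 * f 0 := by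
    simp [hf, ← mul_assoc]
  have hbab : b * a⁻¹ * b = z ^ 3 * f 1 := by
    simp only [hf, Matrix.cons_val_one, Matrix.cons_val_fin_one]
    group
  have habK : a * b ∈ K := by rw [hab]; exact K.mul_mem (K.pow_mem hzK 3) hf0
  have hbabK : b * a⁻¹ * b ∈ K := by rw [hbab]; exact K.mul_mem (K.pow_mem hzK 3) hf1
  have hgen' : Subgroup.closure (insert t (insert z (Set.range f))) = ⊤ := by
    rw [eq_top_iff, ← hgen, Subgroup.closure_le]
    set L : Subgroup Γ := Subgroup.closure (insert t (insert z (Set.range f))) with hL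
    have hKL : K ≤ L := Subgroup.closure_mono (Set.subset_insert _ _)
    have htL : t ∈ L := Subgroup.subset_closure (Set.mem_insert _ _)
    have haL : a ∈ L := by
      have : a = z * t := by rw [ht]; group
      rw [this]; exact L.mul_mem (hKL hzK) htL
    have hbL : b ∈ L := by
      have : b = a⁻¹ * (a * b) := by group
      rw [this]; exact L.mul_mem (L.inv_mem haL) (hKL habK)
    rintro x (rfl | rfl | rfl)
    · exact haL
    · exact hbL
    · exact hKL hzK
  have hrel : (([b * a⁻¹ * b * (a * b)⁻¹ * z, z] : List Γ).map (fun c => c * t)).prod *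
      (((a * b)⁻¹ * z) * t) = 1 := by
    simp only [List.map_cons, List.map_nil, List.prod_cons, List.prod_nil, ht]
    group
  have key := cheap_action (X := X) (M := M) μ (φ M) z t f hcomm hgen' (hz M) hφf hφt
    [b * a⁻¹ * b * (a * b)⁻¹ * z, z] ((a * b)⁻¹ * z)
    (by
      intro c hc
      simp only [List.mem_cons, List.not_mem_nil, or_false] at hc
      rcases hc with rfl | rfl
      · exact K.mul_mem (K.mul_mem hbabK (K.inv_mem habK)) hzK
      · exact hzK)
    (K.mul_mem (K.inv_mem habK) hzK)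
    (by
      intro c hc
      simp only [List.mem_cons, List.not_mem_nil, or_false] at hc
      rcases hc with rfl | rfl
      · simp only [map_mul, map_inv, ha, hb, hz, ← ofAdd_neg, ← ofAdd_add]
        congr 1
        ring
      · exact hz M)
    hrel
  let _ := prodAction (X := X) (φ M)
  refine ⟨ZMod M × X, inferInstance, inferInstance, prodMeasure M μ, isProb μ,
    prodAction (φ M), ?_, ?_⟩
  · exact isFreePMP_prod μ (φ M) hX
  · refine key.trans ?_
    gcongr
    norm_num

end Crest.Agent.R191.Cheap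
end

-- ▼ part R191/Upper
section

/-!
# Row 191, T18: the upper bound
-/

set_option autoImplicit false

namespace Crest.Agent.R191

open MeasureTheory Crest.Dynamics

theorem upper {Γ X : Type} [Group Γ] [MulAction Γ X] [MeasurableSpace X] [StandardBorelSpace X]
    {μ : Measure X} [IsProbabilityMeasure μ] (hact : IsFreePMPAction Γ X μ)
    (ι : F2 →* Γ) (z : Γ) (hcomm : ∀ e ∈ EF, z * ι e = ι e * z)
    (htop : Subgroup.closure (insert z (Set.range ι)) = ⊤)
    (φ : Γ →* Multiplicative ℤ) (ha : φ (ι la) = Multiplicative.ofAdd 1)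
    (hb : φ (ι lb) = Multiplicative.ofAdd 2) (hz : φ z = Multiplicative.ofAdd 1)
    (M : ℕ) (hM : 100 < M) :
    ∃ (Y : Type) (_ : MeasurableSpace Y) (_ : StandardBorelSpace Y) (ν : Measure Y)
      (_ : IsProbabilityMeasure ν) (_ : MulAction Γ Y),
      IsFreePMPAction Γ Y ν ∧ actionCost Γ Y ν ≤ 1 + 99 / (M : ENNReal) := by
  refine Cheap.cheap_of_data μ hact (ι la) (ι lb) z ?_ ?_ ?_
    (fun M => ((Int.castAddHom (ZMod M)).toMultiplicative).comp φ) ?_ ?_ ?_ M hM
  · have := hcomm (la * lb) (Subgroup.subset_closure (by simp))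
    simpa using this
  · have := hcomm (lb * la⁻¹ * lb) (Subgroup.subset_closure (by simp))
    simpa using this
  · rw [eq_top_iff, ← htop, Subgroup.closure_le]
    set L : Subgroup Γ := Subgroup.closure ({ι la, ι lb, z} : Set Γ) with hL
    have hle : ι.range ≤ L := by
      have h1 : Subgroup.closure (Set.range (FreeGroup.of : Fin 2 → F2)) = ⊤ :=
        FreeGroup.closure_range_of (Fin 2)
      rw [MonoidHom.range_eq_map, ← h1, MonoidHom.map_closure, Subgroup.closure_le]
      rintro _ ⟨_, ⟨i, rfl⟩, rfl⟩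
      fin_cases i
      · exact Subgroup.subset_closure (by simp [la])
      · exact Subgroup.subset_closure (by simp [lb])
    rintro x (rfl | ⟨g, rfl⟩)
    · exact Subgroup.subset_closure (by simp)
    · exact hle ⟨g, rfl⟩
  · intro M
    simp [MonoidHom.comp_apply, ha]
  · intro M
    simp [MonoidHom.comp_apply, hb]
  · intro M
    simp [MonoidHom.comp_apply, hz]

end Crest.Agent.R191
end

-- ▼ part R191/Final

set_option autoImplicit false

namespace Crest.Agent.R191

open MeasureTheory Crest.Dynamics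

theorem countable_of_fg {G : Type*} [Group G] (h : Group.FG G) : Countable G := by
  obtain ⟨S, _, f, hf⟩ := (Group.fg_iff_exists_freeGroup_hom_surjective_finite (G := G)).1 h
  exact hf.countable

/-- transfer: a lower bound for all graphings in the sense of `Gr` bounds the cost from below -/
theorem le_actionCost {Γ X : Type} [Group Γ] [Countable Γ] [MulAction Γ X] [MeasurableSpace X]
    {μ : Measure X} [IsProbabilityMeasure μ] (hF : FreeAct Γ X μ) {c : ENNReal}
    (h : ∀ Φ : Gr Γ X, Φ.Meas → (∀ (p : X) (g : Γ), Gen (fun _ _ => False) Φ p (g • p)) →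
      c ≤ Φ.cost μ) : c ≤ actionCost Γ X μ := by
  classical
  refine le_sInf ?_
  rintro _ ⟨Φ, ⟨hm, N, hN, hgen⟩, rfl⟩
  set N' : Set X := {x | ∃ g : Γ, g • x ∈ toMeasurable μ N} with hN'
  have hN'm : MeasurableSet N' := by
    have : N' = ⋃ g : Γ, (fun x : X => g • x) ⁻¹' (toMeasurable μ N) := by
      ext x; simp [hN']
    rw [this]
    exact MeasurableSet.iUnion fun g => (hF.mp g).measurable (measurableSet_toMeasurable μ N)
  have hN'0 : μ N' = 0 := by
    have : N' = ⋃ g : Γ, (fun x : X => g • x) ⁻¹' (toMeasurable μ N) := by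
      ext x; simp [hN']
    rw [this, measure_iUnion_null_iff]
    intro g
    rw [(hF.mp g).measure_preimage (measurableSet_toMeasurable μ N).nullMeasurableSet,
      measure_toMeasurable, hN]
  have hNN' : ∀ x, x ∉ N' → x ∉ N := by
    intro x hx hxN
    refine hx ⟨1, ?_⟩
    rw [one_smul]
    exact subset_toMeasurable μ N hxN
  let Ψ : Gr Γ X := fun g => (⋃ i : ℕ, ⋃ _ : (Φ i).1 = g, (Φ i).2) ∪ N'
  have hΨm : Ψ.Meas := fun g => (MeasurableSet.iUnion fun i => MeasurableSet.iUnion fun _ => hm i).union hN'm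
  have hΨg : ∀ (p : X) (g : Γ), Gen (fun _ _ => False) Ψ p (g • p) := by
    intro p g
    by_cases hp : p ∈ N'
    · exact Gen.low_of_step ⟨g, Or.inr hp, rfl⟩
    · have h1 := hgen p (hNN' p hp) g
      refine h1.mono ?_
      rintro x y ⟨i, hx, rfl⟩
      exact Or.inr ⟨(Φ i).1, Or.inl (Set.mem_iUnion₂.2 ⟨i, rfl, hx⟩), rfl⟩
  refine (h Ψ hΨm hΨg).trans ?_
  calc Ψ.cost μ ≤ ∑' g : Γ, ∑' i : ℕ, (if (Φ i).1 = g then μ (Φ i).2 else 0) := by
        refine ENNReal.tsum_le_tsum fun g => ?_
        calc μ (Ψ g) ≤ μ (⋃ i : ℕ, ⋃ _ : (Φ i).1 = g, (Φ i).2) + μ N' := measure_union_le _ _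
          _ = μ (⋃ i : ℕ, ⋃ _ : (Φ i).1 = g, (Φ i).2) := by rw [hN'0, add_zero]
          _ ≤ ∑' i : ℕ, μ (⋃ _ : (Φ i).1 = g, (Φ i).2) := measure_iUnion_le _
          _ ≤ _ := by
            refine ENNReal.tsum_le_tsum fun i => ?_
            by_cases hi : (Φ i).1 = g <;> simp [hi]
    _ = ∑' i : ℕ, ∑' g : Γ, (if (Φ i).1 = g then μ (Φ i).2 else 0) := ENNReal.tsum_comm
    _ = graphingCost μ Φ := by
        unfold graphingCost
        congr 1
        ext i
        rw [tsum_eq_single (Φ i).1]
        · simp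
        · intro g hg
          simp [hg.symm]

theorem FreeAct.isFreePMP {Γ X : Type} [Group Γ] [MulAction Γ X] [MeasurableSpace X]
    {μ : Measure X} (hF : FreeAct Γ X μ) : IsFreePMPAction Γ X μ := by
  refine ⟨hF.mp, fun g hg => ?_⟩
  have : {x : X | g • x = x} = ∅ := by
    ext x
    simp only [Set.mem_ofPred_eq, Set.mem_empty_iff_false, iff_false]
    exact fun h => hg (hF.free g x h)
  rw [this, measure_empty]

theorem final :
    ∃ (Γ : Type) (_ : Group Γ), Group.FG Γ ∧
      (∃ (X : Type) (_ : MeasurableSpace X) (_ : StandardBorelSpace X) (μ : MeasureTheory.Measure X)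
          (_ : MeasureTheory.IsProbabilityMeasure μ) (_ : MulAction Γ X),
          Crest.Dynamics.IsFreePMPAction Γ X μ ∧
          ∀ α : ℝ, 0 < α → α < 1 / 200 → Real.exp 96 * 96 ^ 99 * α ^ 3 / 95 ^ 95 < 1 / 2 →
            1 + ENNReal.ofReal (α / 100) ≤ Crest.Dynamics.actionCost Γ X μ) ∧
      ∀ M : ℕ, 100 < M →
        ∃ (Y : Type) (_ : MeasurableSpace Y) (_ : StandardBorelSpace Y) (ν : MeasureTheory.Measure Y)
          (_ : MeasureTheory.IsProbabilityMeasure ν) (_ : MulAction Γ Y),
          Crest.Dynamics.IsFreePMPAction Γ Y ν ∧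
          Crest.Dynamics.actionCost Γ Y ν ≤ 1 + 99 / (M : ENNReal) := by
  obtain ⟨Γ, hΓ, ι, z, hι, hz, hcomm, htop, hAP, hint, φ, ha, hb, hφz⟩ := exists_group
  have hfg : Group.FG Γ := by
    rw [Group.fg_iff]
    refine ⟨{z, ι la, ι lb}, ?_, by simp⟩
    rw [eq_top_iff, ← htop, Subgroup.closure_le]
    have h0 : z ∈ Subgroup.closure ({z, ι la, ι lb} : Set Γ) := Subgroup.subset_closure (by simp)
    have h1 : ι la ∈ Subgroup.closure ({z, ι la, ι lb} : Set Γ) := Subgroup.subset_closure (by simp)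
    have h2 : ι lb ∈ Subgroup.closure ({z, ι la, ι lb} : Set Γ) := Subgroup.subset_closure (by simp)
    rintro x (rfl | hx)
    · exact h0
    · refine low_range_le_of ι _ (fun e he => ?_) h1 hx
      have : EF ≤ (Subgroup.closure ({z, ι la, ι lb} : Set Γ)).comap ι := by
        rw [EF, Subgroup.closure_le]
        rintro y (rfl | rfl)
        · change ι (la * lb) ∈ Subgroup.closure ({z, ι la, ι lb} : Set Γ)
          rw [map_mul]
          exact mul_mem h1 h2
        · change ι (lb * la⁻¹ * lb) ∈ Subgroup.closure ({z, ι la, ι lb} : Set Γ)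
          rw [map_mul, map_mul, map_inv]
          exact mul_mem (mul_mem h2 (inv_mem h1)) h2
      exact this he
  have : Countable Γ := countable_of_fg hfg
  obtain ⟨X, hX, hXb, μ, hμ, hact, hF, hgap, U, hU, hUμ, hUc⟩ := exists_action Γ ι hι
  refine ⟨Γ, hΓ, hfg, ⟨X, hX, hXb, μ, hμ, hact, hF.isFreePMP, ?_⟩, ?_⟩
  · intro α _ hα _
    refine le_trans ?_ (le_actionCost hF fun Φ hΦ hgen =>
      lower hF ι hι z hz htop hAP hint hgap hU hUμ hUc hΦ hgen)
    refine add_le_add le_rfl (ENNReal.ofReal_le_ofReal ?_)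
    linarith
  · intro M hM
    exact upper hF.isFreePMP ι z hcomm htop φ ha hb hφz M hM

end Crest.Agent.R191
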