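import Crest.Agent.R191.Defs

/-!
# Row 191, T1: measurability of generated relations
-/

set_option autoImplicit false

namespace Crest.Agent.R191

open MeasureTheory

section Rel
variable {G Z : Type*} [Group G] [Countable G] [MulAction G Z] [MeasurableSpace Z]
  {ν : Measure Z}

omit [Countable G] in
theorem FreeAct.eq_of_smul_eq (hF : FreeAct G Z ν) {g h : G} {p : Z} (e : g • p = h • p) :
    g = h := by
  have h1 : (h⁻¹ * g) • p = p := by
    rw [mul_smul, e, inv_smul_smul]
  have h2 := hF.free _ _ h1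
  exact (inv_mul_eq_one.mp h2).symm

omit [Countable G] in
theorem FreeAct.measurable_smul (hF : FreeAct G Z ν) (g : G) : Measurable (fun p : Z => g • p) :=
  (hF.mp g).measurable

omit [Countable G] in
theorem MRel.or {r s : Z → Z → Prop} (hr : MRel G r) (hs : MRel G s) :
    MRel G (fun p q => r p q ∨ s p q) :=
  ⟨fun p q h => h.elim (hr.orb p q) (hs.orb p q), fun g => (hr.meas g).union (hs.meas g)⟩

omit [Countable G] in
theorem MRel.and {r s : Z → Z → Prop} (hr : MRel G r) (hs : MRel G s) :
    MRel G (fun p q => r p q ∧ s p q) :=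
  ⟨fun p q h => hr.orb p q h.1, fun g => (hr.meas g).inter (hs.meas g)⟩

omit [Countable G] in
/-- measurability of the relation between two translates -/
theorem MRel.meas₂ (hF : FreeAct G Z ν) {r : Z → Z → Prop} (hr : MRel G r) (h g : G) :
    MeasurableSet {p : Z | r (h • p) (g • p)} := by
  have : {p : Z | r (h • p) (g • p)} =
      (fun p : Z => h • p) ⁻¹' {q | r q ((g * h⁻¹) • q)} := by
    ext p
    simp [mul_smul]
  rw [this]
  exact hF.measurable_smul h (hr.meas _)

omit [Countable G] in
theorem MRel.swap (hF : FreeAct G Z ν) {r : Z → Z → Prop} (hr : MRel G r) :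
    MRel G (fun p q => r q p) := by
  refine ⟨fun p q h => ?_, fun g => ?_⟩
  · obtain ⟨g, hg⟩ := hr.orb _ _ h
    exact ⟨g⁻¹, by rw [hg, inv_smul_smul]⟩
  · have := hr.meas₂ hF g 1
    simpa using this

omit [Countable G] in
theorem MRel.eq (hF : FreeAct G Z ν) : MRel G (fun p q : Z => p = q) := by
  refine ⟨fun p q h => ⟨1, by simp [h]⟩, fun g => ?_⟩
  by_cases hg : g = 1
  · have : {p : Z | p = g • p} = Set.univ := by
      ext p; simp [hg]
    rw [this]
    exact MeasurableSet.univ
  · have : {p : Z | p = g • p} = ∅ := by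
      ext p
      simp only [Set.mem_setOf_eq, Set.mem_empty_iff_false, iff_false]
      intro h
      exact hg (hF.free g p h.symm)
    rw [this]
    exact MeasurableSet.empty

/-- composition of relations -/
theorem MRel.comp (hF : FreeAct G Z ν) {r s : Z → Z → Prop} (hr : MRel G r) (hs : MRel G s) :
    MRel G (fun p q => ∃ x, r p x ∧ s x q) := by
  refine ⟨fun p q h => ?_, fun g => ?_⟩
  · obtain ⟨x, h1, h2⟩ := h
    obtain ⟨g1, rfl⟩ := hr.orb _ _ h1
    obtain ⟨g2, rfl⟩ := hs.orb _ _ h2
    exact ⟨g2 * g1, by rw [mul_smul]⟩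
  · have : {p : Z | ∃ x, r p x ∧ s x (g • p)} =
        ⋃ h : G, {p | r p (h • p)} ∩ {p | s (h • p) (g • p)} := by
      ext p
      simp only [Set.mem_setOf_eq, Set.mem_iUnion, Set.mem_inter_iff]
      constructor
      · rintro ⟨x, h1, h2⟩
        obtain ⟨h, rfl⟩ := hr.orb _ _ h1
        exact ⟨h, h1, h2⟩
      · rintro ⟨h, h1, h2⟩
        exact ⟨_, h1, h2⟩
    rw [this]
    exact MeasurableSet.iUnion fun h => (hr.meas h).inter (hs.meas₂ hF h g)

/-- countable unions of relations -/
theorem MRel.iUnion {ι : Type*} [Countable ι] {r : ι → Z → Z → Prop} (hr : ∀ i, MRel G (r i)) :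
    MRel G (fun p q => ∃ i, r i p q) := by
  refine ⟨fun p q h => ?_, fun g => ?_⟩
  · obtain ⟨i, hi⟩ := h
    exact (hr i).orb _ _ hi
  · have : {p : Z | ∃ i, r i p (g • p)} = ⋃ i, {p | r i p (g • p)} := by
      ext p; simp
    rw [this]
    exact MeasurableSet.iUnion fun i => (hr i).meas g

/-- paths of length `n` of the symmetrised relation -/
def pathRel (r : Z → Z → Prop) : ℕ → Z → Z → Prop
  | 0 => fun p q => p = q
  | n + 1 => fun p q => ∃ x, pathRel r n p x ∧ (r x q ∨ r q x)

theorem MRel.path (hF : FreeAct G Z ν) {r : Z → Z → Prop} (hr : MRel G r) (n : ℕ) :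
    MRel G (pathRel r n) := by
  induction n with
  | zero => exact MRel.eq hF
  | succ n ih => exact ih.comp hF (hr.or (hr.swap hF))

omit [MeasurableSpace Z] in
theorem pathRel_trans {r : Z → Z → Prop} {n m : ℕ} {p q s : Z} (h1 : pathRel r n p q)
    (h2 : pathRel r m q s) : pathRel r (n + m) p s := by
  induction m generalizing s with
  | zero => rw [pathRel] at h2; subst h2; exact h1
  | succ m ih =>
    obtain ⟨x, hx, hxs⟩ := h2
    exact ⟨x, ih hx, hxs⟩

omit [MeasurableSpace Z] in
theorem pathRel_one {r : Z → Z → Prop} {p q : Z} (h : r p q ∨ r q p) : pathRel r 1 p q :=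
  ⟨p, rfl, h⟩

omit [MeasurableSpace Z] in
theorem pathRel_symm {r : Z → Z → Prop} {n : ℕ} {p q : Z} (h : pathRel r n p q) :
    pathRel r n q p := by
  induction n generalizing q with
  | zero => rw [pathRel] at h ⊢; exact h.symm
  | succ n ih =>
    obtain ⟨x, hx, hxs⟩ := h
    have := pathRel_trans (pathRel_one hxs.symm) (ih hx)
    rwa [add_comm] at this

omit [MeasurableSpace Z] in
theorem eqvGen_iff_pathRel {r : Z → Z → Prop} {p q : Z} :
    Relation.EqvGen r p q ↔ ∃ n, pathRel r n p q := by
  constructor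
  · intro h
    induction h with
    | rel x y h => exact ⟨1, pathRel_one (Or.inl h)⟩
    | refl x => exact ⟨0, rfl⟩
    | symm x y _ ih => obtain ⟨n, hn⟩ := ih; exact ⟨n, pathRel_symm hn⟩
    | trans x y z _ _ ih1 ih2 =>
      obtain ⟨n, hn⟩ := ih1
      obtain ⟨m, hm⟩ := ih2
      exact ⟨n + m, pathRel_trans hn hm⟩
  · rintro ⟨n, hn⟩
    induction n generalizing q with
    | zero => rw [pathRel] at hn; subst hn; exact Relation.EqvGen.refl _
    | succ n ih =>
      obtain ⟨x, hx, hxs⟩ := hn
      refine Relation.EqvGen.trans _ _ _ (ih hx) ?_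
      rcases hxs with h | h
      · exact Relation.EqvGen.rel _ _ h
      · exact Relation.EqvGen.symm _ _ (Relation.EqvGen.rel _ _ h)

theorem MRel.eqvGen (hF : FreeAct G Z ν) {r : Z → Z → Prop} (hr : MRel G r) :
    MRel G (Relation.EqvGen r) := by
  have : Relation.EqvGen r = fun p q => ∃ n, pathRel r n p q := by
    funext p q
    exact propext eqvGen_iff_pathRel
  rw [this]
  exact MRel.iUnion fun n => hr.path hF n

omit [Countable G] in
theorem MRel.step (hF : FreeAct G Z ν) {Φ : Gr G Z} (hΦ : Φ.Meas) : MRel G Φ.Step := by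
  refine ⟨fun p q h => ?_, fun g => ?_⟩
  · obtain ⟨g, _, h2⟩ := h
    exact ⟨g, h2⟩
  · have : {p : Z | Φ.Step p (g • p)} = Φ g := by
      ext p
      simp only [Set.mem_setOf_eq, Gr.Step]
      constructor
      · rintro ⟨g', h1, h2⟩
        rw [hF.eq_of_smul_eq h2]
        exact h1
      · intro h
        exact ⟨g, h, rfl⟩
    rw [this]
    exact hΦ g

theorem MRel.gen (hF : FreeAct G Z ν) {S : Z → Z → Prop} (hS : MRel G S) {Φ : Gr G Z}
    (hΦ : Φ.Meas) : MRel G (Gen S Φ) :=
  (hS.or (MRel.step hF hΦ)).eqvGen hF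

omit [Countable G] in
theorem MRel.OR (hF : FreeAct G Z ν) (H : Subgroup G) : MRel G (R191.OR (Z := Z) H) := by
  refine ⟨fun p q h => ?_, fun g => ?_⟩
  · obtain ⟨g, _, h2⟩ := h
    exact ⟨g, h2⟩
  · by_cases hg : g ∈ H
    · have : {p : Z | R191.OR H p (g • p)} = Set.univ := by
        ext p
        simp only [Set.mem_setOf_eq, Set.mem_univ, iff_true]
        exact ⟨g, hg, rfl⟩
      rw [this]
      exact MeasurableSet.univ
    · have : {p : Z | R191.OR H p (g • p)} = ∅ := by
        ext p
        simp only [Set.mem_setOf_eq, Set.mem_empty_iff_false, iff_false]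
        rintro ⟨h, hh, e⟩
        rw [hF.eq_of_smul_eq e] at hg
        exact hg hh
      rw [this]
      exact MeasurableSet.empty

omit [Countable G] in
theorem MRel.ORon (hF : FreeAct G Z ν) (H : Subgroup G) {A : Set Z} (hA : MeasurableSet A) :
    MRel G (R191.ORon H A) := by
  refine ⟨fun p q h => (MRel.OR hF H).orb p q h.2.2, fun g => ?_⟩
  have : {p : Z | R191.ORon H A p (g • p)} =
      A ∩ ((fun p : Z => g • p) ⁻¹' A ∩ {p | R191.OR H p (g • p)}) := by
    ext p
    rfl
  rw [this]
  exact hA.inter ((hF.measurable_smul g hA).inter ((MRel.OR hF H).meas g))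

theorem MRel.measurable_meets (hF : FreeAct G Z ν) {r : Z → Z → Prop} (hr : MRel G r)
    {A : Set Z} (hA : MeasurableSet A) : MeasurableSet {p | ∃ q ∈ A, r p q} := by
  have : {p : Z | ∃ q ∈ A, r p q} = ⋃ g : G, (fun p : Z => g • p) ⁻¹' A ∩ {p | r p (g • p)} := by
    ext p
    simp only [Set.mem_setOf_eq, Set.mem_iUnion, Set.mem_inter_iff, Set.mem_preimage]
    constructor
    · rintro ⟨q, hq, h⟩
      obtain ⟨g, rfl⟩ := hr.orb _ _ h
      exact ⟨g, hq, h⟩
    · rintro ⟨g, h1, h2⟩
      exact ⟨_, h1, h2⟩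
  rw [this]
  exact MeasurableSet.iUnion fun g => (hF.measurable_smul g hA).inter (hr.meas g)

theorem MRel.measurable_finite (hF : FreeAct G Z ν) {r : Z → Z → Prop} (hr : MRel G r) :
    MeasurableSet {p | {g : G | r p (g • p)}.Finite} := by
  have : {p : Z | {g : G | r p (g • p)}.Finite} =
      ⋃ F : Finset G, ⋂ g : G, {p | g ∈ F ∨ ¬ r p (g • p)} := by
    ext p
    simp only [Set.mem_setOf_eq, Set.mem_iUnion, Set.mem_iInter]
    constructor
    · intro h
      refine ⟨h.toFinset, fun g => ?_⟩
      by_cases hg : r p (g • p)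
      · left; simpa using hg
      · right; exact hg
    · rintro ⟨F, hF⟩
      refine F.finite_toSet.subset fun g hg => ?_
      rcases hF g with h | h
      · exact h
      · exact absurd hg h
  rw [this]
  refine MeasurableSet.iUnion fun F => MeasurableSet.iInter fun g => ?_
  by_cases hg : g ∈ F
  · have : {p : Z | g ∈ F ∨ ¬ r p (g • p)} = Set.univ := by ext p; simp [hg]
    rw [this]; exact MeasurableSet.univ
  · have : {p : Z | g ∈ F ∨ ¬ r p (g • p)} = {p | r p (g • p)}ᶜ := by ext p; simp [hg]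
    rw [this]; exact (hr.meas g).compl

end Rel

end Crest.Agent.R191
private theorem rz_9f27ca7803 : type_of% @_root_.Crest.Agent.R191.pathRel.eq_def := @_root_.Crest.Agent.R191.pathRel.eq_def -- L108
private theorem rz_a872842f9d : type_of% @_root_.Crest.Agent.R191.pathRel.eq_1 := @_root_.Crest.Agent.R191.pathRel.eq_1 -- L108
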